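import Crest.Agent.R034.Plane
import Mathlib
import Crest.Agent.R034.BSG

-- ▼ part R034/BKTCoord
section

/-! Homogeneous coordinates for the BKT module of row 34. -/

set_option autoImplicit false

namespace Crest.Agent.R034.BKT

open Finset Crest.Agent.R034

variable {F : Type} [Field F]

/-- first homogeneous coordinate -/
def h0 : Pt F → F
  | (some _, _) => 1
  | (none, _) => 0
/-- second homogeneous coordinate -/
def h1 : Pt F → F
  | (some x, _) => x
  | (none, _) => 1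
/-- third homogeneous coordinate -/
def h2 (z : Pt F) : F := z.2

theorem on_iff_h (z : Pt F) (l : Ln F) : On z l ↔ h2 z = l.1 * h1 z + l.2 * h0 z := by
  obtain ⟨_ | x, y⟩ := z
  · simp [On, h0, h1, h2, eq_comm]
  · simp [On, h0, h1, h2, eq_comm]

/-- determinant of three points -/
def det (p q r : Pt F) : F :=
  h0 p * (h1 q * h2 r - h2 q * h1 r) - h1 p * (h0 q * h2 r - h2 q * h0 r)
    + h2 p * (h0 q * h1 r - h1 q * h0 r)

theorem posd_ne {p q : Pt F} (h : p.1 ≠ q.1) : h0 p * h1 q - h1 p * h0 q ≠ 0 := by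
  obtain ⟨_ | x, y⟩ := p <;> obtain ⟨_ | x', y'⟩ := q
  · exact absurd rfl h
  · simp [h0, h1]
  · simp [h0, h1]
  · simp only [h0, h1, one_mul, mul_one]
    intro h'
    exact h (by rw [sub_eq_zero.mp h'])

theorem det_of_on {p q r : Pt F} {l : Ln F} (hp : On p l) (hq : On q l) :
    det p q r = (h0 p * h1 q - h1 p * h0 q) * (h2 r - (l.1 * h1 r + l.2 * h0 r)) := by
  rw [on_iff_h] at hp hq
  unfold det; rw [hp, hq]; ring

theorem det_ne {p q r : Pt F} {l : Ln F} (hpq : p ≠ q) (hp : On p l) (hq : On q l)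
    (hr : ¬ On r l) : det p q r ≠ 0 := by
  rw [det_of_on hp hq]
  refine mul_ne_zero (posd_ne (pos_ne_of_on hp hq hpq)) ?_
  rw [on_iff_h] at hr
  exact sub_ne_zero.mpr hr

theorem on_of_det {p q r : Pt F} {l : Ln F} (hpq : p ≠ q) (hp : On p l) (hq : On q l)
    (h : det p q r = 0) : On r l := by
  by_contra hr
  exact det_ne hpq hp hq hr h

/-- linear functionals -/
def IsLin (W : Pt F → F) : Prop := ∃ w0 w1 w2 : F, ∀ z, W z = w0 * h0 z + w1 * h1 z + w2 * h2 z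

theorem IsLin.add {W W' : Pt F → F} (h : IsLin W) (h' : IsLin W') :
    IsLin (fun z => W z + W' z) := by
  obtain ⟨a, b, c, h⟩ := h
  obtain ⟨a', b', c', h'⟩ := h'
  refine ⟨a + a', b + b', c + c', fun z => ?_⟩
  show W z + W' z = _
  rw [h, h']; ring

theorem IsLin.rel {W : Pt F → F} (hW : IsLin W) {s s' P : Pt F} {l : Ln F}
    (hs : On s l) (hs' : On s' l) (hP : On P l) (hWP : W P = 0) :
    (h0 s' * h1 P - h1 s' * h0 P) * W s = (h0 s * h1 P - h1 s * h0 P) * W s' := by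
  obtain ⟨a, b, c, h⟩ := hW
  rw [on_iff_h] at hs hs' hP
  rw [h] at hWP
  rw [hP] at hWP
  rw [h, h, hs, hs']
  linear_combination (h0 s' * h1 s - h1 s' * h0 s) * hWP

theorem IsLin.ratio {W Z : Pt F → F} (hW : IsLin W) (hZ : IsLin Z) {s s' P : Pt F} {l : Ln F}
    (hs : On s l) (hs' : On s' l) (hP : On P l) (hWP : W P = 0) (hZP : Z P = 0)
    (h : s.1 ≠ P.1) (h' : s'.1 ≠ P.1) : W s * Z s' = W s' * Z s := by
  have e1 := hW.rel hs hs' hP hWP
  have e2 := hZ.rel hs hs' hP hZP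
  have n1 := posd_ne h
  have n2 := posd_ne h'
  have : (h0 s * h1 P - h1 s * h0 P) * (h0 s' * h1 P - h1 s' * h0 P) * (W s * Z s')
      = (h0 s * h1 P - h1 s * h0 P) * (h0 s' * h1 P - h1 s' * h0 P) * (W s' * Z s) := by
    linear_combination (h0 s * h1 P - h1 s * h0 P) * Z s' * e1 -
      (h0 s * h1 P - h1 s * h0 P) * W s' * e2
  exact mul_left_cancel₀ (mul_ne_zero n1 n2) this

theorem coords {P1 P2 P3 P4 : Pt F} {l0 : Ln F} (h12 : P1 ≠ P2) (h13 : P1 ≠ P3) (h23 : P2 ≠ P3)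
    (o1 : On P1 l0) (o2 : On P2 l0) (o3 : On P3 l0) (o4 : ¬ On P4 l0) :
    ∃ x y : Pt F → F,
      (∀ s s', ¬ On s l0 → ¬ On s' l0 → x s = x s' → y s = y s' → s = s') ∧
      (∀ s s' l, ¬ On s l0 → ¬ On s' l0 → On s l → On s' l → On P1 l → y s = y s') ∧
      (∀ s s' l, ¬ On s l0 → ¬ On s' l0 → On s l → On s' l → On P2 l → x s = x s') ∧
      (∀ s s' l, ¬ On s l0 → ¬ On s' l0 → On s l → On s' l → On P3 l → x s + y s = x s' + y s') ∧
      (∀ s s' l, ¬ On s l0 → ¬ On s' l0 → s.1 ≠ P4.1 → s'.1 ≠ P4.1 → On s l → On s' l → On P4 l →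
        x s ≠ 0 → x s' ≠ 0 → y s / x s = y s' / x s') ∧
      (∀ s, ¬ On s l0 → s.1 ≠ P2.1 → x s = 0 → On s (thru P2 P4)) ∧
      (∀ s, ¬ On s l0 → s.1 ≠ P1.1 → y s = 0 → On s (thru P1 P4)) := by
  have p12 := pos_ne_of_on o1 o2 h12
  have p13 := pos_ne_of_on o1 o3 h13
  have p23 := pos_ne_of_on o2 o3 h23
  have h14 : P1 ≠ P4 := fun h => o4 (h ▸ o1)
  have h24 : P2 ≠ P4 := fun h => o4 (h ▸ o2)
  set Zf : Pt F → F := fun s => det P1 P2 s with hZf
  set Xf : Pt F → F := fun s => det s P2 P4 * det P1 P3 P4 with hXf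
  set Yf : Pt F → F := fun s => - det P1 s P4 * det P3 P2 P4 with hYf
  have d134 : det P1 P3 P4 ≠ 0 := det_ne h13 o1 o3 o4
  have d324 : det P3 P2 P4 ≠ 0 := det_ne (Ne.symm h23) o3 o2 o4
  have d124 : det P1 P2 P4 ≠ 0 := det_ne h12 o1 o2 o4
  have linZ : IsLin Zf := by
    refine ⟨h1 P1 * h2 P2 - h2 P1 * h1 P2, h2 P1 * h0 P2 - h0 P1 * h2 P2,
      h0 P1 * h1 P2 - h1 P1 * h0 P2, fun z => ?_⟩
    simp only [hZf, det]; ring
  have linX : IsLin Xf := by
    refine ⟨(h1 P2 * h2 P4 - h2 P2 * h1 P4) * det P1 P3 P4,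
      - (h0 P2 * h2 P4 - h2 P2 * h0 P4) * det P1 P3 P4,
      (h0 P2 * h1 P4 - h1 P2 * h0 P4) * det P1 P3 P4, fun z => ?_⟩
    simp only [hXf]
    rw [show det z P2 P4 = h0 z * (h1 P2 * h2 P4 - h2 P2 * h1 P4) - h1 z * (h0 P2 * h2 P4 - h2 P2 * h0 P4)
      + h2 z * (h0 P2 * h1 P4 - h1 P2 * h0 P4) from rfl]
    ring
  have linY : IsLin Yf := by
    refine ⟨-(h2 P1 * h1 P4 - h1 P1 * h2 P4) * det P3 P2 P4,
      - (h0 P1 * h2 P4 - h2 P1 * h0 P4) * det P3 P2 P4,
      - (h1 P1 * h0 P4 - h0 P1 * h1 P4) * det P3 P2 P4, fun z => ?_⟩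
    simp only [hYf]
    rw [show det P1 z P4 = h0 P1 * (h1 z * h2 P4 - h2 z * h1 P4) - h1 P1 * (h0 z * h2 P4 - h2 z * h0 P4)
      + h2 P1 * (h0 z * h1 P4 - h1 z * h0 P4) from rfl]
    ring
  have Z1 : Zf P1 = 0 := by simp only [hZf, det]; ring
  have Z2 : Zf P2 = 0 := by simp only [hZf, det]; ring
  have Z3 : Zf P3 = 0 := by
    simp only [hZf]
    rw [det_of_on o1 o2]
    rw [on_iff_h] at o3
    rw [o3]; ring
  have X2 : Xf P2 = 0 := by
    have : det P2 P2 P4 = 0 := by simp only [det]; ring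
    simp only [hXf, this, zero_mul]
  have X4 : Xf P4 = 0 := by
    have : det P4 P2 P4 = 0 := by simp only [det]; ring
    simp only [hXf, this, zero_mul]
  have Y1 : Yf P1 = 0 := by
    have : det P1 P1 P4 = 0 := by simp only [det]; ring
    simp only [hYf, this, zero_mul, neg_zero]
  have Y4 : Yf P4 = 0 := by
    have : det P1 P4 P4 = 0 := by simp only [det]; ring
    simp only [hYf, this, zero_mul, neg_zero]
  have XY3 : Xf P3 + Yf P3 = 0 := by simp only [hXf, hYf]; ring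
  have Zne : ∀ s, ¬ On s l0 → Zf s ≠ 0 := fun s hs => det_ne h12 o1 o2 hs
  have posne : ∀ s P l, ¬ On s l0 → On P l0 → On s l → On P l → s.1 ≠ P.1 := by
    intro s P l hs hP hsl hPl
    exact pos_ne_of_on hsl hPl (fun h => hs (h ▸ hP))
  refine ⟨fun s => Xf s / Zf s, fun s => Yf s / Zf s, ?_, ?_, ?_, ?_, ?_, ?_, ?_⟩
  · intro s s' hs hs' hx hy
    have z1 := Zne s hs
    have z2 := Zne s' hs'
    simp only at hx hy
    rw [div_eq_div_iff z1 z2] at hx hy
    -- cancel the constants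
    have hx' : det s P2 P4 * Zf s' = det s' P2 P4 * Zf s := by
      apply mul_left_cancel₀ d134
      simp only [hXf] at hx
      linear_combination hx
    have hy' : det P1 s P4 * Zf s' = det P1 s' P4 * Zf s := by
      apply mul_left_cancel₀ d324
      simp only [hYf] at hy
      linear_combination - hy
    -- Cramer
    have c0 : ∀ z : Pt F, det P1 P2 P4 * h0 z
        = det z P2 P4 * h0 P1 + det P1 z P4 * h0 P2 + Zf z * h0 P4 := by
      intro z; simp only [det, hZf]; ring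
    have c1 : ∀ z : Pt F, det P1 P2 P4 * h1 z
        = det z P2 P4 * h1 P1 + det P1 z P4 * h1 P2 + Zf z * h1 P4 := by
      intro z; simp only [det, hZf]; ring
    have c2 : ∀ z : Pt F, det P1 P2 P4 * h2 z
        = det z P2 P4 * h2 P1 + det P1 z P4 * h2 P2 + Zf z * h2 P4 := by
      intro z; simp only [det, hZf]; ring
    have e0 : h0 s * Zf s' = h0 s' * Zf s := by
      apply mul_left_cancel₀ d124
      linear_combination Zf s' * c0 s - Zf s * c0 s' + h0 P1 * hx' + h0 P2 * hy'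
    have e1 : h1 s * Zf s' = h1 s' * Zf s := by
      apply mul_left_cancel₀ d124
      linear_combination Zf s' * c1 s - Zf s * c1 s' + h1 P1 * hx' + h1 P2 * hy'
    have e2 : h2 s * Zf s' = h2 s' * Zf s := by
      apply mul_left_cancel₀ d124
      linear_combination Zf s' * c2 s - Zf s * c2 s' + h2 P1 * hx' + h2 P2 * hy'
    clear_value Zf Xf Yf
    obtain ⟨_ | a, b⟩ := s <;> obtain ⟨_ | a', b'⟩ := s'
    · simp only [h0, h1, h2, one_mul] at e0 e1 e2
      rw [e1] at e2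
      rw [mul_right_cancel₀ z1 e2]
    · simp only [h0, h1, h2, one_mul, zero_mul] at e0 e1 e2
      exact absurd e0.symm z1
    · simp only [h0, h1, h2, one_mul, zero_mul] at e0 e1 e2
      exact absurd e0 z2
    · simp only [h0, h1, h2, one_mul] at e0 e1 e2
      rw [e0] at e1 e2
      rw [mul_right_cancel₀ z1 e1, mul_right_cancel₀ z1 e2]
  · intro s s' l hs hs' hl hl' hP
    have := linY.ratio linZ hl hl' hP Y1 Z1 (posne s P1 l hs o1 hl hP) (posne s' P1 l hs' o1 hl' hP)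
    simp only
    rw [div_eq_div_iff (Zne s hs) (Zne s' hs'), this]
  · intro s s' l hs hs' hl hl' hP
    have := linX.ratio linZ hl hl' hP X2 Z2 (posne s P2 l hs o2 hl hP) (posne s' P2 l hs' o2 hl' hP)
    simp only
    rw [div_eq_div_iff (Zne s hs) (Zne s' hs'), this]
  · intro s s' l hs hs' hl hl' hP
    have := (linX.add linY).ratio linZ hl hl' hP XY3 Z3 (posne s P3 l hs o3 hl hP)
      (posne s' P3 l hs' o3 hl' hP)
    simp only
    rw [← add_div, ← add_div, div_eq_div_iff (Zne s hs) (Zne s' hs'), this]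
  · intro s s' l hs hs' n n' hl hl' hP hx hx'
    have := linY.ratio linX hl hl' hP Y4 X4 n n'
    simp only at hx hx' ⊢
    have z1 := Zne s hs
    have z2 := Zne s' hs'
    have x1 : Xf s ≠ 0 := fun h => hx (by rw [h, zero_div])
    have x2 : Xf s' ≠ 0 := fun h => hx' (by rw [h, zero_div])
    rw [div_div_div_cancel_right₀ z1, div_div_div_cancel_right₀ z2, div_eq_div_iff x1 x2, this]
  · intro s hs hn hx
    simp only at hx
    have hd : det s P2 P4 = 0 := by
      rcases div_eq_zero_iff.mp hx with h | h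
      · rcases mul_eq_zero.mp h with h | h
        · exact h
        · exact absurd h d134
      · exact absurd h (Zne s hs)
    have hon : On P4 (thru s P2) :=
      on_of_det (fun h => hn (by rw [h])) (on_thru_left hn) (on_thru_right hn) hd
    have p24 := pos_ne_of_on (on_thru_right hn) hon h24
    rw [← eq_thru p24 (on_thru_right hn) hon]
    exact on_thru_left hn
  · intro s hs hn hy
    simp only at hy
    have hd : det P1 s P4 = 0 := by
      rcases div_eq_zero_iff.mp hy with h | h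
      · rcases mul_eq_zero.mp h with h | h
        · exact neg_eq_zero.mp h
        · exact absurd h d324
      · exact absurd h (Zne s hs)
    have hon : On P4 (thru P1 s) :=
      on_of_det (fun h => hn (by rw [h])) (on_thru_left hn.symm) (on_thru_right hn.symm) hd
    have p14 := pos_ne_of_on (on_thru_left hn.symm) hon h14
    rw [← eq_thru p14 (on_thru_left hn.symm) hon]
    exact on_thru_right hn.symm

end Crest.Agent.R034.BKT
private theorem rz_ecabeb2da4 : type_of% @_root_.Crest.Agent.R034.BKT.h0.eq_1 := @_root_.Crest.Agent.R034.BKT.h0.eq_1 -- L14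
private theorem rz_76b31dab3e : type_of% @_root_.Crest.Agent.R034.BKT.h1.eq_1 := @_root_.Crest.Agent.R034.BKT.h1.eq_1 -- L18
end

-- ▼ part R034/SumProd
section

set_option autoImplicit false

open Finset
open scoped Pointwise

namespace Crest.Agent.R034

variable {F : Type*} [Field F] [Fintype F] [DecidableEq F]

/-- If `R` contains `0` and is stable under `r ↦ r + a` and `r ↦ r * a` for `a ∈ A`, `1 ∈ A`,
and the order of `F` is not a square and `|A|^3 > |F|`, then `R = F`. -/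
lemma stable_univ (R A : Finset F) (h0 : (0 : F) ∈ R) (h1 : (1 : F) ∈ A)
    (hadd : ∀ r ∈ R, ∀ a ∈ A, r + a ∈ R) (hmul : ∀ r ∈ R, ∀ a ∈ A, r * a ∈ R)
    (hns : ¬ IsSquare (Fintype.card F)) (hcard : Fintype.card F < #A ^ 3) : R = univ := by
  classical
  -- the additive stabiliser
  let T : Set F := {t | ∀ r ∈ R, t + r ∈ R}
  have hTneg : ∀ t ∈ T, ∀ r ∈ R, -t + r ∈ R := by
    intro t ht r hr
    have himg : R.image (fun x => t + x) = R := by
      apply Finset.eq_of_subset_of_card_le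
      · intro y hy
        obtain ⟨x, hx, rfl⟩ := Finset.mem_image.1 hy
        exact ht x hx
      · rw [Finset.card_image_of_injective _ (add_right_injective t)]
    rw [← himg] at hr
    obtain ⟨x, hx, rfl⟩ := Finset.mem_image.1 hr
    simpa using hx
  have hT0 : (0 : F) ∈ T := fun r hr => by simpa using hr
  have hTadd : ∀ s ∈ T, ∀ t ∈ T, s + t ∈ T := by
    intro s hs t ht r hr
    rw [add_assoc]
    exact hs _ (ht _ hr)
  have hTneg' : ∀ t ∈ T, -t ∈ T := fun t ht => hTneg t ht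
  have hAT : ∀ a ∈ A, a ∈ T := fun a ha r hr => by
    rw [add_comm]; exact hadd r hr a ha
  have hATmul : ∀ a ∈ A, ∀ t ∈ T, a * t ∈ T := by
    intro a ha t ht
    by_cases ha0 : a = 0
    · simpa [ha0] using hT0
    intro r hr
    have himg : R.image (fun x => x * a) = R := by
      apply Finset.eq_of_subset_of_card_le
      · intro y hy
        obtain ⟨x, hx, rfl⟩ := Finset.mem_image.1 hy
        exact hmul x hx a ha
      · rw [Finset.card_image_of_injective _ (mul_left_injective₀ ha0)]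
    rw [← himg] at hr
    obtain ⟨x, hx, rfl⟩ := Finset.mem_image.1 hr
    have h2 := hmul _ (ht x hx) a ha
    have e : a * t + x * a = (t + x) * a := by ring
    show a * t + x * a ∈ R
    rw [e]
    exact h2
  -- the multiplier field of T
  let S : Subfield F :=
    { carrier := {x | ∀ t ∈ T, x * t ∈ T}
      mul_mem' := by
        intro x y hx hy t ht
        rw [mul_assoc]
        exact hx _ (hy _ ht)
      one_mem' := by
        intro t ht
        simpa using ht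
      add_mem' := by
        intro x y hx hy t ht
        rw [add_mul]
        exact hTadd _ (hx t ht) _ (hy t ht)
      zero_mem' := by
        intro t ht
        simpa using hT0
      neg_mem' := by
        intro x hx t ht
        rw [neg_mul]
        exact hTneg' _ (hx t ht)
      inv_mem' := by
        intro x hx t ht
        by_cases hx0 : x = 0
        · simpa [hx0] using hT0
        let Tf : Finset F := Finset.univ.filter (fun t => t ∈ T)
        have himg : Tf.image (fun y => x * y) = Tf := by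
          apply Finset.eq_of_subset_of_card_le
          · intro y hy
            obtain ⟨z, hz, rfl⟩ := Finset.mem_image.1 hy
            have hz' : z ∈ T := by simpa [Tf] using hz
            have := hx z hz'
            simpa [Tf] using this
          · rw [Finset.card_image_of_injective _ (mul_right_injective₀ hx0)]
        have htf : t ∈ Tf := by simpa [Tf] using ht
        rw [← himg] at htf
        obtain ⟨z, hz, rfl⟩ := Finset.mem_image.1 htf
        have hz' : z ∈ T := by simpa [Tf] using hz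
        simpa [hx0] using hz' }
  have hAS : ∀ a ∈ A, a ∈ S := fun a ha => hATmul a ha
  have h1T : (1 : F) ∈ T := hAT 1 h1
  have hST : ∀ x ∈ S, x ∈ R := by
    intro x hx
    have h : x * 1 ∈ T := hx 1 h1T
    have h2 := h 0 h0
    simpa using h2
  have hcardS : #A ≤ Nat.card S := by
    have : #A = Nat.card A := by simp
    rw [this]
    exact Nat.card_le_card_of_injective (fun a : A => (⟨a.1, hAS a.1 a.2⟩ : S))
      (fun a b h => by
        have := congrArg (fun s : S => (s : F)) h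
        exact Subtype.ext this)
  let _ : Fintype S := Fintype.ofFinite S
  have hpow : Fintype.card F = Fintype.card S ^ Module.finrank S F := Module.card_eq_pow_finrank
  have hcS : Nat.card S = Fintype.card S := Nat.card_eq_fintype_card
  rw [hcS] at hcardS
  set m := Module.finrank S F with hm
  have hm0 : m ≠ 0 := by
    intro h
    rw [h, pow_zero] at hpow
    have := Fintype.one_lt_card (α := F)
    omega
  have hm2 : m < 3 := by
    by_contra hcon
    push Not at hcon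
    have h1 : Fintype.card S ^ 3 ≤ Fintype.card S ^ m :=
      Nat.pow_le_pow_right Fintype.card_pos hcon
    have h2 : #A ^ 3 ≤ Fintype.card S ^ 3 := Nat.pow_le_pow_left hcardS 3
    omega
  have hm1 : m = 1 := by
    have : m ≠ 2 := by
      intro h
      apply hns
      rw [hpow, h]
      exact ⟨Fintype.card S, by ring⟩
    omega
  rw [hm1, pow_one] at hpow
  have hStop : ∀ x : F, x ∈ S := by
    have hinj : Function.Injective (fun x : S => (x : F)) := Subtype.val_injective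
    have hbij : Function.Bijective (fun x : S => (x : F)) :=
      (Fintype.bijective_iff_injective_and_card _).2 ⟨hinj, hpow.symm⟩
    intro x
    obtain ⟨y, hy⟩ := hbij.2 x
    rw [← hy]
    exact y.2
  apply Finset.eq_univ_of_forall
  intro x
  exact hST x (hStop x)

open scoped Combinatorics.Additive in
/-- averaging over dilates: some dilate has a large sumset. -/
lemma exists_large_dilate (A : Finset F) (hq : 2 ≤ Fintype.card F) :
    ∃ ξ : F, (#A : ℝ) ^ 2 * ((Fintype.card F : ℝ) - 1) ≤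
      (#(A + ξ • A) : ℝ) * (((Fintype.card F : ℝ) - 1) + (#A : ℝ) ^ 2) := by
  classical
  set q := Fintype.card F with hqdef
  set U : Finset F := Finset.univ.erase 0 with hU
  have hUcard : #U = q - 1 := by
    rw [hU, Finset.card_erase_of_mem (Finset.mem_univ _), Finset.card_univ]
  have hUcardR : (#U : ℝ) = (q : ℝ) - 1 := by
    rw [hUcard]; push_cast [Nat.cast_sub (by omega : 1 ≤ q)]; ring
  have hUne : U.Nonempty := by
    rw [← Finset.card_pos, hUcard]; omega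
  -- energy as a filter card
  have hE : ∀ ξ ∈ U, E[A, ξ • A] =
      #{x ∈ ((A ×ˢ A) ×ˢ (A ×ˢ A)) | x.1.1 + ξ * x.2.1 = x.1.2 + ξ * x.2.2} := by
    intro ξ hξ
    have hξ0 : ξ ≠ 0 := by simpa [hU] using hξ
    unfold Finset.addEnergy
    symm
    apply Finset.card_bij (fun x _ => ((x.1.1, x.1.2), (ξ * x.2.1, ξ * x.2.2)))
    · rintro ⟨⟨a, b⟩, c, d⟩ hx
      simp only [Finset.mem_filter, Finset.mem_product] at hx ⊢
      obtain ⟨⟨⟨ha, hb⟩, hc, hd⟩, he⟩ := hx
      exact ⟨⟨⟨ha, hb⟩, Finset.smul_mem_smul_finset hc, Finset.smul_mem_smul_finset hd⟩, he⟩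
    · rintro ⟨⟨a, b⟩, c, d⟩ _ ⟨⟨a', b'⟩, c', d'⟩ _ h
      simp only [Prod.mk.injEq] at h
      obtain ⟨⟨h1, h2⟩, h3, h4⟩ := h
      have h3' := mul_left_cancel₀ hξ0 h3
      have h4' := mul_left_cancel₀ hξ0 h4
      subst h1 h2 h3' h4'
      rfl
    · rintro ⟨⟨a, b⟩, c, d⟩ hx
      simp only [Finset.mem_filter, Finset.mem_product] at hx
      obtain ⟨⟨⟨ha, hb⟩, hc, hd⟩, he⟩ := hx
      obtain ⟨c', hc', rfl⟩ := Finset.mem_smul_finset.1 hc
      obtain ⟨d', hd', rfl⟩ := Finset.mem_smul_finset.1 hd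
      refine ⟨((a, b), (c', d')), ?_, rfl⟩
      simp only [Finset.mem_filter, Finset.mem_product]
      exact ⟨⟨⟨ha, hb⟩, hc', hd'⟩, he⟩
  -- sum of energies
  have hsum : ∑ ξ ∈ U, (E[A, ξ • A] : ℝ) ≤ (#A : ℝ) ^ 2 * ((q : ℝ) - 1) + (#A : ℝ) ^ 4 := by
    have h1 : ∑ ξ ∈ U, (E[A, ξ • A] : ℝ) =
        ∑ x ∈ ((A ×ˢ A) ×ˢ (A ×ˢ A)),
          ((#{ξ ∈ U | x.1.1 + ξ * x.2.1 = x.1.2 + ξ * x.2.2} : ℕ) : ℝ) := by
      have : ∀ ξ ∈ U, (E[A, ξ • A] : ℝ) =
          ∑ x ∈ ((A ×ˢ A) ×ˢ (A ×ˢ A)),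
            (if x.1.1 + ξ * x.2.1 = x.1.2 + ξ * x.2.2 then (1 : ℝ) else 0) := by
        intro ξ hξ
        rw [hE ξ hξ, Finset.card_filter]
        push_cast
        rfl
      rw [Finset.sum_congr rfl this, Finset.sum_comm]
      apply Finset.sum_congr rfl
      intro x _
      rw [Finset.card_filter]
      push_cast
      rfl
    rw [h1]
    have h2 : ∀ x ∈ ((A ×ˢ A) ×ˢ (A ×ˢ A)),
        ((#{ξ ∈ U | x.1.1 + ξ * x.2.1 = x.1.2 + ξ * x.2.2} : ℕ) : ℝ) ≤
          (if x.1.1 = x.1.2 ∧ x.2.1 = x.2.2 then ((q : ℝ) - 1) else 0) + 1 := by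
      rintro ⟨⟨a, b⟩, c, d⟩ _
      simp only
      by_cases hd : a = b ∧ c = d
      · rw [if_pos hd]
        have : (#{ξ ∈ U | a + ξ * c = b + ξ * d} : ℝ) ≤ #U := by
          exact_mod_cast Finset.card_filter_le _ _
        rw [hUcardR] at this
        linarith
      · rw [if_neg hd, zero_add]
        have : #{ξ ∈ U | a + ξ * c = b + ξ * d} ≤ 1 := by
          rw [Finset.card_le_one]
          intro ξ hξ η hη
          simp only [Finset.mem_filter] at hξ hη
          by_cases hcd : c = d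
          · exfalso
            subst hcd
            have := hξ.2
            exact hd ⟨add_right_cancel this, rfl⟩
          · have hcd' : c - d ≠ 0 := sub_ne_zero.2 hcd
            have e1 : ξ * (c - d) = b - a := by
              have := hξ.2; linear_combination this
            have e2 : η * (c - d) = b - a := by
              have := hη.2; linear_combination this
            exact mul_right_cancel₀ hcd' (e1.trans e2.symm)
        exact_mod_cast this
    refine (Finset.sum_le_sum h2).trans ?_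
    rw [Finset.sum_add_distrib]
    have h3 : ∑ x ∈ ((A ×ˢ A) ×ˢ (A ×ˢ A)),
        (if x.1.1 = x.1.2 ∧ x.2.1 = x.2.2 then ((q : ℝ) - 1) else 0) =
          (#A : ℝ) ^ 2 * ((q : ℝ) - 1) := by
      rw [← Finset.sum_filter, Finset.sum_const, nsmul_eq_mul]
      congr 1
      have : #{x ∈ ((A ×ˢ A) ×ˢ (A ×ˢ A)) | x.1.1 = x.1.2 ∧ x.2.1 = x.2.2} = #(A ×ˢ A) := by
        symm
        apply Finset.card_bij (fun x _ => ((x.1, x.1), (x.2, x.2)))
        · rintro ⟨a, b⟩ hx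
          simpa using hx
        · rintro ⟨a, b⟩ _ ⟨a', b'⟩ _ h
          simp only [Prod.mk.injEq] at h
          obtain ⟨⟨h1, _⟩, h2, _⟩ := h
          rw [h1, h2]
        · rintro ⟨⟨a, b⟩, c, d⟩ hx
          simp only [Finset.mem_filter, Finset.mem_product] at hx
          obtain ⟨⟨⟨ha, hb⟩, hc, hd⟩, h1, h2⟩ := hx
          subst h1 h2
          exact ⟨(a, c), by simp [ha, hc], rfl⟩
      rw [this, Finset.card_product]
      push_cast
      ring
    rw [h3, Finset.sum_const, Finset.card_product, Finset.card_product]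
    rw [nsmul_eq_mul]
    push_cast
    apply le_of_eq
    ring
  -- choose the smallest energy
  obtain ⟨ξ, hξ, hmin⟩ := Finset.exists_le_of_sum_le hUne
    (f := fun ξ => (E[A, ξ • A] : ℝ))
    (g := fun _ => ((#A : ℝ) ^ 2 * ((q : ℝ) - 1) + (#A : ℝ) ^ 4) / ((q : ℝ) - 1)) (by
      rw [Finset.sum_const, nsmul_eq_mul, hUcardR]
      have : ((q : ℝ) - 1) ≠ 0 := by
        have : (2 : ℝ) ≤ q := by exact_mod_cast hq
        linarith
      rw [mul_div_cancel₀ _ this]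
      exact hsum)
  refine ⟨ξ, ?_⟩
  have hξ0 : ξ ≠ 0 := by simpa [hU] using hξ
  have hq1 : (0 : ℝ) < (q : ℝ) - 1 := by
    have : (2 : ℝ) ≤ q := by exact_mod_cast hq
    linarith
  have hCS := Finset.le_card_add_mul_addEnergy A (ξ • A)
  rw [Finset.card_smul_finset₀ hξ0] at hCS
  have hCS' : (#A : ℝ) ^ 2 * (#A : ℝ) ^ 2 ≤ (#(A + ξ • A) : ℝ) * (E[A, ξ • A] : ℝ) := by
    exact_mod_cast hCS
  rcases Nat.eq_zero_or_pos #A with hA0 | hApos
  · rw [hA0]
    simp only [Nat.cast_zero, ne_eq, OfNat.ofNat_ne_zero, not_false_eq_true, zero_pow, zero_mul,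
      add_zero]
    positivity
  have hApos' : (0 : ℝ) < #A := by exact_mod_cast hApos
  have h5 : (#A : ℝ) ^ 2 * (#A : ℝ) ^ 2 ≤ (#(A + ξ • A) : ℝ) *
      (((#A : ℝ) ^ 2 * ((q : ℝ) - 1) + (#A : ℝ) ^ 4) / ((q : ℝ) - 1)) :=
    hCS'.trans (mul_le_mul_of_nonneg_left hmin (by positivity))
  rw [← mul_div_assoc, le_div_iff₀ hq1] at h5
  have h6 : (#A : ℝ) ^ 2 * ((#A : ℝ) ^ 2 * ((q : ℝ) - 1)) ≤
      (#A : ℝ) ^ 2 * ((#(A + ξ • A) : ℝ) * (((q : ℝ) - 1) + (#A : ℝ) ^ 2)) := by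
    calc (#A : ℝ) ^ 2 * ((#A : ℝ) ^ 2 * ((q : ℝ) - 1)) = (#A : ℝ) ^ 2 * (#A : ℝ) ^ 2 * ((q : ℝ) - 1) := by ring
      _ ≤ _ := h5
      _ = _ := by ring
  exact le_of_mul_le_mul_left h6 (by positivity)

omit [Fintype F] in
open scoped Combinatorics.Additive in
/-- multiplicative energy bound in the form `∑ |aA ∩ cA| ≥ |A|^4/|A/A|`. -/
lemma sum_inter_dilates (A : Finset F) (h0 : (0 : F) ∉ A) :
    #A ^ 4 ≤ #(A / A) * ∑ a ∈ A, ∑ c ∈ A, #((a • A) ∩ (c • A)) := by
  classical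
  have hinv : #(A⁻¹) = #A := Finset.card_inv A
  have h1 := Finset.le_card_mul_mul_mulEnergy A A⁻¹
  rw [hinv, ← div_eq_mul_inv] at h1
  have h2 : Eₘ[A, A⁻¹] ≤ ∑ a ∈ A, ∑ c ∈ A, #((a • A) ∩ (c • A)) := by
    unfold Finset.mulEnergy
    rw [← Finset.sum_product', Finset.card_filter, Finset.sum_product]
    apply Finset.sum_le_sum
    rintro ⟨a, c⟩ hac
    rw [← Finset.card_filter]
    simp only [Finset.mem_product] at hac
    have ha0 : a ≠ 0 := fun h => h0 (h ▸ hac.1)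
    have hc0 : c ≠ 0 := fun h => h0 (h ▸ hac.2)
    apply Finset.card_le_card_of_injOn (fun x => a * x.2⁻¹)
    · rintro ⟨x, y⟩ hxy
      simp only [Finset.coe_filter, Finset.mem_product, Finset.mem_inv', Set.mem_ofPred_eq] at hxy
      obtain ⟨⟨hx, hy⟩, he⟩ := hxy
      have hx0 : x ≠ 0 := by
        rintro rfl
        simp at hx
        exact h0 hx
      have hy0 : y ≠ 0 := by
        rintro rfl
        simp at hy
        exact h0 hy
      simp only [Finset.coe_inter, Set.mem_inter_iff, Finset.mem_coe]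
      constructor
      · rw [← smul_eq_mul]
        exact Finset.smul_mem_smul_finset hy
      · have : a * y⁻¹ = c * x⁻¹ := by
          field_simp
          linear_combination he
        rw [this, ← smul_eq_mul]
        exact Finset.smul_mem_smul_finset hx
    · rintro ⟨x, y⟩ hxy ⟨x', y'⟩ hxy' h
      simp only [Finset.coe_filter, Finset.mem_product, Finset.mem_inv', Set.mem_ofPred_eq]
        at hxy hxy'
      simp only at h
      have hy : y = y' := by
        have := mul_left_cancel₀ ha0 h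
        exact inv_injective this
      subst hy
      have hx : a * x = a * x' := by rw [hxy.2, hxy'.2]
      have := mul_left_cancel₀ ha0 hx
      rw [this]
  calc #A ^ 4 = #A ^ 2 * #A ^ 2 := by ring
    _ ≤ _ := h1
    _ ≤ _ := Nat.mul_le_mul_left _ h2

omit [Fintype F] in
/-- selection of a dense piece all of whose dilates meet a fixed dilate substantially. -/
lemma exists_popular_dilates (A : Finset F) (h0 : (0 : F) ∉ A) (hne : A.Nonempty) (K : ℝ)
    (hK : 1 ≤ K) (hdiv : (#(A / A) : ℝ) ≤ K * #A) :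
    ∃ b ∈ A, ∃ A₁ ⊆ A, (#A : ℝ) ≤ 2 * K * #A₁ ∧
      ∀ a ∈ A₁, (#A : ℝ) ≤ 2 * K * #((a • A) ∩ (b • A)) := by
  classical
  have hn : (0 : ℝ) < #A := by exact_mod_cast hne.card_pos
  have hK0 : (0 : ℝ) < K := by linarith
  have h1 : (#A : ℝ) ^ 4 ≤ #(A / A) * ∑ c ∈ A, ∑ a ∈ A, (#((a • A) ∩ (c • A)) : ℝ) := by
    have := sum_inter_dilates A h0
    rw [Finset.sum_comm] at this
    exact_mod_cast this
  have h2 : ∑ c ∈ A, ((#A : ℝ) ^ 2 / K) ≤ ∑ c ∈ A, ∑ a ∈ A, (#((a • A) ∩ (c • A)) : ℝ) := by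
    rw [Finset.sum_const, nsmul_eq_mul]
    have hSnn : (0 : ℝ) ≤ ∑ c ∈ A, ∑ a ∈ A, (#((a • A) ∩ (c • A)) : ℝ) :=
      Finset.sum_nonneg (fun _ _ => Finset.sum_nonneg (fun _ _ => Nat.cast_nonneg _))
    revert h1 hSnn
    generalize (∑ c ∈ A, ∑ a ∈ A, (#((a • A) ∩ (c • A)) : ℝ)) = Sg
    intro h1 hSnn
    have h3 : (#A : ℝ) ^ 4 ≤ (K * #A) * Sg := h1.trans (mul_le_mul_of_nonneg_right hdiv hSnn)
    have h4 : (#A : ℝ) * (#A : ℝ) ^ 3 ≤ (#A : ℝ) * (K * Sg) := by
      calc (#A : ℝ) * (#A : ℝ) ^ 3 = (#A : ℝ) ^ 4 := by ring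
        _ ≤ (K * #A) * Sg := h3
        _ = _ := by ring
    have h5 := le_of_mul_le_mul_left h4 hn
    rw [mul_div_assoc', div_le_iff₀ hK0]
    calc (#A : ℝ) * (#A : ℝ) ^ 2 = (#A : ℝ) ^ 3 := by ring
      _ ≤ K * Sg := h5
      _ = Sg * K := by ring
  obtain ⟨b, hb, hbig⟩ := Finset.exists_le_of_sum_le hne h2
  refine ⟨b, hb, A.filter (fun a => (#A : ℝ) ≤ 2 * K * #((a • A) ∩ (b • A))),
    Finset.filter_subset _ _, ?_, ?_⟩
  · set A₁ := A.filter (fun a => (#A : ℝ) ≤ 2 * K * #((a • A) ∩ (b • A))) with hA1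
    have hsplit : ∑ a ∈ A, (#((a • A) ∩ (b • A)) : ℝ) ≤
        ∑ a ∈ A, ((if (#A : ℝ) ≤ 2 * K * #((a • A) ∩ (b • A)) then (#A : ℝ) else 0) +
          (#A : ℝ) / (2 * K)) := by
      apply Finset.sum_le_sum
      intro a ha
      split_ifs with h
      · have : #((a • A) ∩ (b • A)) ≤ #A := by
          calc #((a • A) ∩ (b • A)) ≤ #(a • A) := Finset.card_le_card Finset.inter_subset_left
            _ ≤ #A := Finset.card_image_le
        have h' : (#((a • A) ∩ (b • A)) : ℝ) ≤ #A := by exact_mod_cast this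
        have : (0 : ℝ) ≤ (#A : ℝ) / (2 * K) := by positivity
        linarith
      · push Not at h
        rw [zero_add, le_div_iff₀ (by positivity)]
        linarith
    rw [Finset.sum_add_distrib, ← Finset.sum_filter, Finset.sum_const, Finset.sum_const,
      nsmul_eq_mul, nsmul_eq_mul, ← hA1] at hsplit
    have h6 : (#A : ℝ) ^ 2 / K ≤ #A₁ * #A + #A * (#A / (2 * K)) := hbig.trans hsplit
    have h7 : (#A : ℝ) * #A ≤ (2 * K * #A₁) * #A := by
      have e1 : (#A : ℝ) ^ 2 / K = 2 * (#A * (#A / (2 * K))) := by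
        field_simp
      have e2 : (#A : ℝ) * (#A / (2 * K)) ≤ #A₁ * #A := by
        rw [e1] at h6; linarith
      have e3 : (#A : ℝ) * (#A / (2 * K)) * (2 * K) = #A * #A := by
        field_simp
      calc (#A : ℝ) * #A = #A * (#A / (2 * K)) * (2 * K) := e3.symm
        _ ≤ #A₁ * #A * (2 * K) := mul_le_mul_of_nonneg_right e2 (by positivity)
        _ = _ := by ring
    exact le_of_mul_le_mul_right h7 hn
  · intro a ha
    exact (Finset.mem_filter.1 ha).2

omit [Fintype F] in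
/-- covering of popular dilates. -/
lemma cover_dilate (A : Finset F) (hne : A.Nonempty) (K : ℝ)
    (hK : 1 ≤ K) (hsub : (#(A - A) : ℝ) ≤ K * #A) (a b : F)
    (hpop : (#A : ℝ) ≤ 2 * K * #((a • A) ∩ (b • A))) :
    ∃ T : Finset F, (#T : ℝ) ≤ 2 * K ^ 3 ∧ a • A ⊆ T + (b • A - b • A) := by
  classical
  have hn : (0 : ℝ) < #A := by exact_mod_cast hne.card_pos
  have hK0 : (0 : ℝ) < K := by linarith
  set I := (a • A) ∩ (b • A) with hI
  have hIne : I.Nonempty := by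
    rw [← Finset.card_pos]
    by_contra h
    have : #I = 0 := by omega
    rw [this] at hpop
    simp at hpop
    rw [hpop] at hn
    simp at hn
  -- |A + A| ≤ K^2 |A|
  have hplus : (#(A + A) : ℝ) ≤ K ^ 2 * #A := by
    have h := Finset.pluennecke_ruzsa_inequality_nsmul_sub hne A 2
    rw [two_nsmul] at h
    have h' : (#(A + A) : ℝ) ≤ ((#(A - A) : ℝ) / #A) ^ 2 * #A := by
      have h2 := (NNRat.cast_le (K := ℝ)).2 h
      push_cast at h2
      exact h2
    refine h'.trans ?_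
    apply mul_le_mul_of_nonneg_right _ hn.le
    apply pow_le_pow_left₀ (by positivity)
    rw [div_le_iff₀ hn]
    exact hsub
  have hcov : (#(a • A + I) : ℝ) ≤ (2 * K ^ 3) * #I := by
    have h1 : #(a • A + I) ≤ #(A + A) := by
      have : a • A + I ⊆ a • (A + A) := by
        rw [smul_add]
        exact Finset.add_subset_add_left Finset.inter_subset_left
      calc #(a • A + I) ≤ #(a • (A + A)) := Finset.card_le_card this
        _ ≤ #(A + A) := Finset.card_image_le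
    calc (#(a • A + I) : ℝ) ≤ #(A + A) := by exact_mod_cast h1
      _ ≤ K ^ 2 * #A := hplus
      _ ≤ K ^ 2 * (2 * K * #I) := mul_le_mul_of_nonneg_left hpop (by positivity)
      _ = _ := by ring
  obtain ⟨T, -, hTc, hT⟩ := Finset.ruzsa_covering_add hIne hcov
  refine ⟨T, hTc, hT.trans ?_⟩
  apply Finset.add_subset_add_left
  exact Finset.sub_subset_sub Finset.inter_subset_right Finset.inter_subset_right

omit [Fintype F] in
/-- the sumset `A₁ + ξ A₁` is small when `ξ` is a ratio of differences. -/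
lemma ratio_sumset_small (A : Finset F) (hne : A.Nonempty) (K : ℝ)
    (hK : 1 ≤ K) (hsub : (#(A - A) : ℝ) ≤ K * #A) (b : F) (hb : b ≠ 0) (A₁ : Finset F)
    (hA₁ : A₁ ⊆ A)
    (hcov : ∀ a ∈ A₁, ∃ T : Finset F, (#T : ℝ) ≤ 2 * K ^ 3 ∧ a • A ⊆ T + (b • A - b • A))
    (a₁ a₂ a₃ a₄ : F) (h₁ : a₁ ∈ A₁) (h₂ : a₂ ∈ A₁) (h₃ : a₃ ∈ A₁) (h₄ : a₄ ∈ A₁)
    (h₃₄ : a₃ ≠ a₄) :
    (#(A₁ + ((a₁ - a₂) / (a₃ - a₄)) • A₁) : ℝ) ≤ 16 * K ^ 20 * #A := by
  classical
  have hn : (0 : ℝ) < #A := by exact_mod_cast hne.card_pos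
  have hK0 : (0 : ℝ) < K := by linarith
  obtain ⟨T₁, hT₁, hc₁⟩ := hcov a₁ h₁
  obtain ⟨T₂, hT₂, hc₂⟩ := hcov a₂ h₂
  obtain ⟨T₃, hT₃, hc₃⟩ := hcov a₃ h₃
  obtain ⟨T₄, hT₄, hc₄⟩ := hcov a₄ h₄
  set D := b • A with hD
  have hd : a₃ - a₄ ≠ 0 := sub_ne_zero.2 h₃₄
  set ξ := (a₁ - a₂) / (a₃ - a₄) with hξ
  have hDcard : #D = #A := Finset.card_smul_finset₀ hb A
  have hDne : D.Nonempty := by rw [← Finset.card_pos, hDcard]; exact hne.card_pos
  have hDsub : #(D - D) = #(A - A) := by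
    rw [hD, sub_eq_add_neg, ← Finset.smul_finset_neg, ← smul_add, ← sub_eq_add_neg,
      Finset.card_smul_finset₀ hb]
  have hsubset : (a₃ - a₄) • (A₁ + ξ • A₁) ⊆
      (((T₃ - T₄) + T₁) - T₂) + ((4 : ℕ) • D - (4 : ℕ) • D) := by
    intro z hz
    obtain ⟨w, hw, rfl⟩ := Finset.mem_smul_finset.1 hz
    obtain ⟨x, hx, y', hy', rfl⟩ := Finset.mem_add.1 hw
    obtain ⟨y, hy, rfl⟩ := Finset.mem_smul_finset.1 hy'
    have m3 := hc₃ (Finset.smul_mem_smul_finset (hA₁ hx) : a₃ • x ∈ a₃ • A)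
    have m4 := hc₄ (Finset.smul_mem_smul_finset (hA₁ hx) : a₄ • x ∈ a₄ • A)
    have m1 := hc₁ (Finset.smul_mem_smul_finset (hA₁ hy) : a₁ • y ∈ a₁ • A)
    have m2 := hc₂ (Finset.smul_mem_smul_finset (hA₁ hy) : a₂ • y ∈ a₂ • A)
    obtain ⟨t3, ht3, u3, hu3, e3⟩ := Finset.mem_add.1 m3
    obtain ⟨t4, ht4, u4, hu4, e4⟩ := Finset.mem_add.1 m4
    obtain ⟨t1, ht1, u1, hu1, e1⟩ := Finset.mem_add.1 m1
    obtain ⟨t2, ht2, u2, hu2, e2⟩ := Finset.mem_add.1 m2
    obtain ⟨p3, hp3, n3, hn3, rfl⟩ := Finset.mem_sub.1 hu3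
    obtain ⟨p4, hp4, n4, hn4, rfl⟩ := Finset.mem_sub.1 hu4
    obtain ⟨p1, hp1, n1, hn1, rfl⟩ := Finset.mem_sub.1 hu1
    obtain ⟨p2, hp2, n2, hn2, rfl⟩ := Finset.mem_sub.1 hu2
    have h4D : (4 : ℕ) • D = D + D + D + D := by
      rw [show (4 : ℕ) = 3 + 1 from rfl, succ_nsmul, show (3 : ℕ) = 2 + 1 from rfl, succ_nsmul,
        two_nsmul]
    rw [h4D]
    refine Finset.mem_add.2 ⟨((t3 - t4) + t1) - t2, ?_,
      (p3 + n4 + p1 + n2) - (n3 + p4 + n1 + p2), ?_, ?_⟩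
    · exact Finset.sub_mem_sub (Finset.add_mem_add (Finset.sub_mem_sub ht3 ht4) ht1) ht2
    · exact Finset.sub_mem_sub
        (Finset.add_mem_add (Finset.add_mem_add (Finset.add_mem_add hp3 hn4) hp1) hn2)
        (Finset.add_mem_add (Finset.add_mem_add (Finset.add_mem_add hn3 hp4) hn1) hp2)
    · simp only [smul_eq_mul] at e1 e2 e3 e4 ⊢
      have hx' : (a₃ - a₄) * (ξ * y) = (a₁ - a₂) * y := by
        rw [hξ]; field_simp
      rw [mul_add, hx']
      linear_combination e3 - e4 + e1 - e2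
  have hcard1 : #(A₁ + ξ • A₁) ≤
      #((((T₃ - T₄) + T₁) - T₂) + ((4 : ℕ) • D - (4 : ℕ) • D)) := by
    rw [← Finset.card_smul_finset₀ hd (A₁ + ξ • A₁)]
    exact Finset.card_le_card hsubset
  have hT : #(((T₃ - T₄) + T₁) - T₂) ≤ #T₃ * #T₄ * #T₁ * #T₂ := by
    calc #(((T₃ - T₄) + T₁) - T₂) ≤ #((T₃ - T₄) + T₁) * #T₂ := Finset.card_sub_le
      _ ≤ (#(T₃ - T₄) * #T₁) * #T₂ := Nat.mul_le_mul_right _ Finset.card_add_le
      _ ≤ ((#T₃ * #T₄) * #T₁) * #T₂ :=
        Nat.mul_le_mul_right _ (Nat.mul_le_mul_right _ Finset.card_sub_le)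
  have hT' : (#(((T₃ - T₄) + T₁) - T₂) : ℝ) ≤ (2 * K ^ 3) ^ 4 := by
    calc (#(((T₃ - T₄) + T₁) - T₂) : ℝ) ≤ (#T₃ : ℝ) * #T₄ * #T₁ * #T₂ := by exact_mod_cast hT
      _ ≤ (2 * K ^ 3) * (2 * K ^ 3) * (2 * K ^ 3) * (2 * K ^ 3) := by gcongr
      _ = _ := by ring
  have h8 : (#((4 : ℕ) • D - (4 : ℕ) • D) : ℝ) ≤ K ^ 8 * #A := by
    have h := Finset.pluennecke_ruzsa_inequality_nsmul_sub_nsmul_sub hDne D 4 4
    have h' : (#((4 : ℕ) • D - (4 : ℕ) • D) : ℝ) ≤ ((#(D - D) : ℝ) / #D) ^ (4 + 4) * #D := by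
      have h2 := (NNRat.cast_le (K := ℝ)).2 h
      push_cast at h2
      exact h2
    rw [hDsub, hDcard] at h'
    refine h'.trans ?_
    apply mul_le_mul_of_nonneg_right _ hn.le
    show _ ≤ K ^ (4 + 4)
    apply pow_le_pow_left₀ (by positivity)
    rw [div_le_iff₀ hn]
    exact hsub
  calc (#(A₁ + ξ • A₁) : ℝ) ≤ #((((T₃ - T₄) + T₁) - T₂) + ((4 : ℕ) • D - (4 : ℕ) • D)) := by
        exact_mod_cast hcard1
    _ ≤ (#(((T₃ - T₄) + T₁) - T₂) : ℝ) * #((4 : ℕ) • D - (4 : ℕ) • D) := by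
        exact_mod_cast Finset.card_add_le
    _ ≤ (2 * K ^ 3) ^ 4 * (K ^ 8 * #A) := by gcongr
    _ = _ := by ring

/-- **Sum-product theorem for fields of nonsquare order** at the critical size `√q`. -/
theorem sum_product (hns : ¬ IsSquare (Fintype.card F)) (A : Finset F) (h0 : (0 : F) ∉ A)
    (K : ℝ) (hK : 1 ≤ K) (hlow : (Fintype.card F : ℝ) ≤ (K * #A) ^ 2)
    (hhigh : ((#A : ℝ)) ^ 2 ≤ K ^ 2 * Fintype.card F)
    (hsub : (#(A - A) : ℝ) ≤ K * #A) (hdiv : (#(A / A) : ℝ) ≤ K * #A) :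
    (Fintype.card F : ℝ) ≤ 2 ^ 24 * K ^ 96 := by
  classical
  by_contra hcon
  push Not at hcon
  set q := Fintype.card F with hq
  have hK0 : (0 : ℝ) < K := by linarith
  have hqpos : (0 : ℝ) < q := by
    have := Fintype.card_pos (α := F)
    exact_mod_cast this
  have hn : (0 : ℝ) < #A := by
    rcases Nat.eq_zero_or_pos #A with h | h
    · rw [h] at hlow
      simp at hlow
      rw [hlow] at hqpos
      simp at hqpos
    · exact_mod_cast h
  have hne : A.Nonempty := by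
    rw [← Finset.card_pos]; exact_mod_cast hn
  obtain ⟨b, hb, A₁, hA₁, hsize, hpop⟩ := exists_popular_dilates A h0 hne K hK hdiv
  have hb0 : b ≠ 0 := fun h => h0 (h ▸ hb)
  have hcov : ∀ a ∈ A₁, ∃ T : Finset F, (#T : ℝ) ≤ 2 * K ^ 3 ∧ a • A ⊆ T + (b • A - b • A) :=
    fun a ha => cover_dilate A hne K hK hsub a b (hpop a ha)
  set N : ℝ := (#A₁ : ℝ) with hN
  set n : ℝ := (#A : ℝ) with hnn
  clear_value N n
  have hNle : N ≤ n := by
    rw [hN, hnn]; exact_mod_cast Finset.card_le_card hA₁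
  have hNpos : 0 < N := by
    by_contra h
    push Not at h
    nlinarith
  -- lower bound on N: q ≤ 4 K^4 N^2
  have hqN : (q : ℝ) ≤ 4 * K ^ 4 * N ^ 2 := by
    calc (q : ℝ) ≤ (K * n) ^ 2 := hlow
      _ ≤ (K * (2 * K * N)) ^ 2 := by gcongr
      _ = _ := by ring
  have hNbig : 2048 * K ^ 46 < N := by
    by_contra h
    push Not at h
    have : (q : ℝ) ≤ 4 * K ^ 4 * (2048 * K ^ 46) ^ 2 := hqN.trans (by gcongr)
    have e : 4 * K ^ 4 * (2048 * K ^ 46) ^ 2 = 2 ^ 24 * K ^ 96 := by ring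
    linarith
  have hKpow : ∀ m : ℕ, 1 ≤ K ^ m := fun m => one_le_pow₀ hK
  have hN2 : 2048 < N := by
    have := hKpow 46
    nlinarith
  -- two distinct elements
  have hcard2 : 1 < #A₁ := by
    have : (1 : ℝ) < #A₁ := by rw [← hN]; linarith
    exact_mod_cast this
  obtain ⟨x₀, hx₀, x₁, hx₁, hx01⟩ := Finset.one_lt_card.1 hcard2
  have hd0 : x₁ - x₀ ≠ 0 := sub_ne_zero.2 (Ne.symm hx01)
  -- ratio set
  set R : Finset F := (((A₁ ×ˢ A₁) ×ˢ (A₁ ×ˢ A₁)).filter (fun t => t.2.1 ≠ t.2.2)).image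
    (fun t => (t.1.1 - t.1.2) / (t.2.1 - t.2.2)) with hR
  have memR : ∀ x, x ∈ R ↔ ∃ a₁ ∈ A₁, ∃ a₂ ∈ A₁, ∃ a₃ ∈ A₁, ∃ a₄ ∈ A₁, a₃ ≠ a₄ ∧
      (a₁ - a₂) / (a₃ - a₄) = x := by
    intro x
    rw [hR]
    simp only [Finset.mem_image, Finset.mem_filter, Finset.mem_product, Prod.exists]
    constructor
    · rintro ⟨a, b, c, d, ⟨⟨⟨h1, h2⟩, h3, h4⟩, h5⟩, h6⟩
      exact ⟨a, h1, b, h2, c, h3, d, h4, h5, h6⟩
    · rintro ⟨a, h1, b, h2, c, h3, d, h4, h5, h6⟩
      exact ⟨a, b, c, d, ⟨⟨⟨h1, h2⟩, h3, h4⟩, h5⟩, h6⟩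
  have hsmall : ∀ ξ ∈ R, (#(A₁ + ξ • A₁) : ℝ) ≤ 16 * K ^ 20 * n := by
    intro ξ hξ
    obtain ⟨a₁, h₁, a₂, h₂, a₃, h₃, a₄, h₄, h34, rfl⟩ := (memR ξ).1 hξ
    rw [hnn]
    exact ratio_sumset_small A hne K hK (by rw [← hnn]; exact hsub) b hb0 A₁ hA₁ hcov a₁ a₂ a₃ a₄ h₁ h₂ h₃ h₄ h34
  have hsmall' : ∀ ξ ∈ R, (#(A₁ + ξ • A₁) : ℝ) ≤ 32 * K ^ 21 * N := by
    intro ξ hξ
    calc (#(A₁ + ξ • A₁) : ℝ) ≤ 16 * K ^ 20 * n := hsmall ξ hξ
      _ ≤ 16 * K ^ 20 * (2 * K * N) := by gcongr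
      _ = _ := by ring
  have hlarge : ∀ ξ, ξ ∉ R → (#(A₁ + ξ • A₁) : ℝ) = N ^ 2 := by
    intro ξ hξ
    have : #(A₁ + ξ • A₁) = #(A₁ ×ˢ A₁) := by
      symm
      apply Finset.card_bij (fun x _ => x.1 + ξ * x.2)
      · rintro ⟨x, y⟩ hxy
        simp only [Finset.mem_product] at hxy
        exact Finset.add_mem_add hxy.1 (Finset.smul_mem_smul_finset hxy.2)
      · rintro ⟨x, y⟩ hxy ⟨x', y'⟩ hxy' h
        simp only [Finset.mem_product] at hxy hxy'
        simp only at h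
        by_cases hyy : y = y'
        · subst hyy
          have : x = x' := add_right_cancel h
          rw [this]
        · exfalso
          apply hξ
          rw [memR]
          refine ⟨x', hxy'.1, x, hxy.1, y, hxy.2, y', hxy'.2, hyy, ?_⟩
          rw [div_eq_iff (sub_ne_zero.2 hyy)]
          linear_combination -h
      · intro z hz
        obtain ⟨x, hx, w, hw, rfl⟩ := Finset.mem_add.1 hz
        obtain ⟨y, hy, rfl⟩ := Finset.mem_smul_finset.1 hw
        exact ⟨(x, y), Finset.mem_product.2 ⟨hx, hy⟩, rfl⟩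
    rw [this, Finset.card_product, hN]
    push_cast
    ring
  have hR0 : (0 : F) ∈ R := by
    rw [memR]
    exact ⟨x₀, hx₀, x₀, hx₀, x₁, hx₁, x₀, hx₀, Ne.symm hx01, by simp⟩
  -- normalised set
  set A₂ : Finset F := A₁.image (fun x => (x - x₀) / (x₁ - x₀)) with hA₂
  have hA₂card : #A₂ = #A₁ := by
    rw [hA₂]
    apply Finset.card_image_of_injective
    intro x y h
    simp only at h
    have := (div_left_inj' hd0).1 h
    exact sub_left_injective this
  have hA₂one : (1 : F) ∈ A₂ := by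
    rw [hA₂, Finset.mem_image]
    exact ⟨x₁, hx₁, div_self hd0⟩
  have hA₂R : ∀ a ∈ A₂, a ∈ R := by
    intro a ha
    obtain ⟨x, hx, rfl⟩ := Finset.mem_image.1 ha
    rw [memR]
    exact ⟨x, hx, x₀, hx₀, x₁, hx₁, x₀, hx₀, Ne.symm hx01, rfl⟩
  -- size of 3A₁
  have h3 : (#(A₁ + A₁ + A₁) : ℝ) ≤ K ^ 3 * n := by
    have h := Finset.pluennecke_ruzsa_inequality_nsmul_sub hne A 3
    have h' : (#((3 : ℕ) • A) : ℝ) ≤ ((#(A - A) : ℝ) / #A) ^ 3 * #A := by
      have h2 := (NNRat.cast_le (K := ℝ)).2 h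
      push_cast at h2
      exact h2
    have hs : A₁ + A₁ + A₁ ⊆ (3 : ℕ) • A := by
      rw [show (3 : ℕ) = 2 + 1 from rfl, succ_nsmul, two_nsmul]
      exact Finset.add_subset_add (Finset.add_subset_add hA₁ hA₁) hA₁
    calc (#(A₁ + A₁ + A₁) : ℝ) ≤ #((3 : ℕ) • A) := by exact_mod_cast Finset.card_le_card hs
      _ ≤ ((#(A - A) : ℝ) / #A) ^ 3 * #A := h'
      _ ≤ K ^ 3 * n := by
        rw [← hnn]
        apply mul_le_mul_of_nonneg_right _ hn.le
        apply pow_le_pow_left₀ (by positivity)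
        rw [div_le_iff₀ hn]
        exact hsub
  by_cases hstab : (∀ r ∈ R, ∀ a ∈ A₂, r + a ∈ R) ∧ (∀ r ∈ R, ∀ a ∈ A₂, r * a ∈ R)
  · -- R is everything
    have hcube : Fintype.card F < #A₂ ^ 3 := by
      rw [hA₂card]
      have : (q : ℝ) < (#A₁ : ℝ) ^ 3 := by
        rw [← hN]
        calc (q : ℝ) ≤ 4 * K ^ 4 * N ^ 2 := hqN
          _ < N * N ^ 2 := by
            apply mul_lt_mul_of_pos_right _ (by positivity)
            have : K ^ 4 ≤ K ^ 46 := pow_le_pow_right₀ hK (by norm_num)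
            nlinarith
          _ = N ^ 3 := by ring
      exact_mod_cast this
    have hRuniv := stable_univ R A₂ hR0 hA₂one hstab.1 hstab.2 hns hcube
    have hq2 : 2 ≤ Fintype.card F := Fintype.one_lt_card
    obtain ⟨ξ, hξ⟩ := exists_large_dilate A₁ hq2
    have hξR : ξ ∈ R := by rw [hRuniv]; exact Finset.mem_univ _
    have h1 := hsmall' ξ hξR
    rw [← hq, ← hN] at hξ
    have hq1 : (1 : ℝ) ≤ (q : ℝ) - 1 := by
      have : (2 : ℝ) ≤ q := by exact_mod_cast hq2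
      linarith
    have h2 : N ^ 2 * ((q : ℝ) - 1) ≤ (32 * K ^ 21 * N) * (((q : ℝ) - 1) + N ^ 2) :=
      hξ.trans (mul_le_mul_of_nonneg_right h1 (by positivity))
    have h4 : N * ((q : ℝ) - 1) ≤ 32 * K ^ 21 * (((q : ℝ) - 1) + N ^ 2) := by
      have : N * (N * ((q : ℝ) - 1)) ≤ N * (32 * K ^ 21 * (((q : ℝ) - 1) + N ^ 2)) := by
        calc N * (N * ((q : ℝ) - 1)) = N ^ 2 * ((q : ℝ) - 1) := by ring
          _ ≤ _ := h2
          _ = _ := by ring
      exact le_of_mul_le_mul_left this hNpos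
    -- N^2 ≤ K^2 q ≤ 2 K^2 (q-1)
    have hN2q : N ^ 2 ≤ 2 * K ^ 2 * ((q : ℝ) - 1) := by
      calc N ^ 2 ≤ n ^ 2 := by gcongr
        _ ≤ K ^ 2 * q := hhigh
        _ ≤ K ^ 2 * (2 * ((q : ℝ) - 1)) := by
          gcongr
          linarith
        _ = _ := by ring
    have h5 : N * ((q : ℝ) - 1) ≤ (96 * K ^ 23) * ((q : ℝ) - 1) := by
      have hK21 : K ^ 21 ≤ K ^ 23 := pow_le_pow_right₀ hK (by norm_num)
      calc N * ((q : ℝ) - 1) ≤ 32 * K ^ 21 * (((q : ℝ) - 1) + N ^ 2) := h4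
        _ ≤ 32 * K ^ 21 * (((q : ℝ) - 1) + 2 * K ^ 2 * ((q : ℝ) - 1)) := by gcongr
        _ = (32 * K ^ 21) * ((q : ℝ) - 1) + 64 * K ^ 23 * ((q : ℝ) - 1) := by ring
        _ ≤ (32 * K ^ 23) * ((q : ℝ) - 1) + 64 * K ^ 23 * ((q : ℝ) - 1) := by gcongr
        _ = _ := by ring
    have h6 : N ≤ 96 * K ^ 23 := le_of_mul_le_mul_right h5 (by linarith)
    have h7 : K ^ 23 ≤ K ^ 46 := pow_le_pow_right₀ hK (by norm_num)
    have := hKpow 23
    linarith
  · -- some element escapes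
    rw [not_and_or] at hstab
    rcases hstab with h | h
    · push Not at h
      obtain ⟨r, hr, a, ha, hra⟩ := h
      have haR := hA₂R a ha
      have hbig := hlarge _ hra
      have hU : (#(A₁ + r • A₁) : ℝ) ≤ 32 * K ^ 21 * N := hsmall' r hr
      have hV : (#(A₁ + a • A₁) : ℝ) ≤ 32 * K ^ 21 * N := hsmall' a haR
      have hsubs : A₁ + (r + a) • A₁ ⊆ (A₁ + r • A₁) + a • A₁ := by
        intro z hz
        obtain ⟨x, hx, w, hw, rfl⟩ := Finset.mem_add.1 hz
        obtain ⟨y, hy, rfl⟩ := Finset.mem_smul_finset.1 hw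
        refine Finset.mem_add.2 ⟨x + r • y, Finset.add_mem_add hx (Finset.smul_mem_smul_finset hy),
          a • y, Finset.smul_mem_smul_finset hy, ?_⟩
        simp only [smul_eq_mul]; ring
      -- |(A₁ + rA₁) + aA₁| |A₁| ≤ |A₁ + rA₁ + A₁| |A₁ + aA₁|
      have t1 : (#((A₁ + r • A₁) + a • A₁) : ℝ) * N ≤
          #((A₁ + r • A₁) + A₁) * #(A₁ + a • A₁) := by
        rw [hN]
        exact_mod_cast Finset.ruzsa_triangle_inequality_add_add_add (A₁ + r • A₁) A₁ (a • A₁)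
      have t2 : (#((A₁ + r • A₁) + A₁) : ℝ) * N ≤ #(A₁ + A₁ + A₁) * #(A₁ + r • A₁) := by
        have := Finset.ruzsa_triangle_inequality_add_add_add (A₁ + A₁) A₁ (r • A₁)
        have e : A₁ + A₁ + r • A₁ = (A₁ + r • A₁) + A₁ := add_right_comm _ _ _
        rw [e] at this
        rw [hN]
        exact_mod_cast this
      have t3 : (#((A₁ + r • A₁) + A₁) : ℝ) ≤ (2 * K ^ 4) * (32 * K ^ 21 * N) := by
        have : (#((A₁ + r • A₁) + A₁) : ℝ) * N ≤ ((2 * K ^ 4) * (32 * K ^ 21 * N)) * N := by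
          calc (#((A₁ + r • A₁) + A₁) : ℝ) * N ≤ #(A₁ + A₁ + A₁) * #(A₁ + r • A₁) := t2
            _ ≤ (K ^ 3 * n) * (32 * K ^ 21 * N) := by gcongr
            _ ≤ (K ^ 3 * (2 * K * N)) * (32 * K ^ 21 * N) := by gcongr
            _ = _ := by ring
        exact le_of_mul_le_mul_right this hNpos
      have t4 : N ^ 2 * N ≤ ((2 * K ^ 4) * (32 * K ^ 21 * N)) * (32 * K ^ 21 * N) := by
        calc N ^ 2 * N = (#(A₁ + (r + a) • A₁) : ℝ) * N := by rw [hbig]
          _ ≤ (#((A₁ + r • A₁) + a • A₁) : ℝ) * N := by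
            apply mul_le_mul_of_nonneg_right _ hNpos.le
            exact_mod_cast Finset.card_le_card hsubs
          _ ≤ _ := t1
          _ ≤ _ := by gcongr
      have t5 : N ≤ 2048 * K ^ 46 := by
        have : N ^ 2 * N ≤ N ^ 2 * (2048 * K ^ 46) := by
          calc N ^ 2 * N ≤ _ := t4
            _ = _ := by ring
        exact le_of_mul_le_mul_left this (pow_pos hNpos 2)
      linarith
    · push Not at h
      obtain ⟨r, hr, a, ha, hra⟩ := h
      have haR := hA₂R a ha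
      have hbig := hlarge _ hra
      have hr0 : r ≠ 0 := by
        rintro rfl
        apply hra
        simpa using hR0
      have hU : (#(A₁ + r • A₁) : ℝ) ≤ 32 * K ^ 21 * N := hsmall' r hr
      have hV : (#(A₁ + a • A₁) : ℝ) ≤ 32 * K ^ 21 * N := hsmall' a haR
      have t1 : (#(A₁ + (r * a) • A₁) : ℝ) * #(r • A₁) ≤
          #(A₁ + r • A₁) * #(r • A₁ + (r * a) • A₁) := by
        exact_mod_cast Finset.ruzsa_triangle_inequality_add_add_add A₁ (r • A₁) ((r * a) • A₁)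
      have e1 : #(r • A₁) = #A₁ := Finset.card_smul_finset₀ hr0 A₁
      have e2 : #(r • A₁ + (r * a) • A₁) = #(A₁ + a • A₁) := by
        rw [mul_smul, ← smul_add, Finset.card_smul_finset₀ hr0]
      rw [e1, e2, hbig, ← hN] at t1
      have t2 : N ^ 2 * N ≤ (32 * K ^ 21 * N) * (32 * K ^ 21 * N) :=
        t1.trans (by gcongr)
      have t3 : N ≤ 1024 * K ^ 42 := by
        have : N ^ 2 * N ≤ N ^ 2 * (1024 * K ^ 42) := by
          calc N ^ 2 * N ≤ _ := t2
            _ = _ := by ring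
        exact le_of_mul_le_mul_left this (pow_pos hNpos 2)
      have h7 : K ^ 42 ≤ K ^ 46 := pow_le_pow_right₀ hK (by norm_num)
      have h8 : 1024 * K ^ 42 ≤ 2048 * K ^ 46 := by
        have := hKpow 42
        linarith
      linarith

end Crest.Agent.R034
end

-- ▼ part R034/BKTAdd

/-! Additive combinatorics part of the BKT module of row 34. -/

set_option autoImplicit false
set_option maxHeartbeats 1000000

namespace Crest.Agent.R034.BKT

open Finset Crest.Agent.R034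
open scoped Pointwise

/-- many witnesses for each value -/
theorem fiber_bound {ω β : Type*} [DecidableEq ω] [DecidableEq β] (W : Finset ω) (V : Finset β)
    (ψ : ω → β) (r : ℝ) (h : ∀ v ∈ V, r ≤ #{w ∈ W | ψ w = v}) : (#V : ℝ) * r ≤ #W := by
  have h1 : (∑ v ∈ V, #{w ∈ W | ψ w = v}) ≤ #W := by
    rw [← card_biUnion]
    · exact card_le_card (biUnion_subset.mpr fun v _ => filter_subset _ _)
    · intro v _ v' _ hvv'
      rw [Function.onFun, disjoint_left]
      intro w hw hw'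
      rw [mem_filter] at hw hw'
      exact hvv' (hw.2.symm.trans hw'.2)
  have h2 : ((∑ v ∈ V, #{w ∈ W | ψ w = v} : ℕ) : ℝ) ≤ #W := by exact_mod_cast h1
  rw [Nat.cast_sum] at h2
  calc (#V : ℝ) * r = ∑ v ∈ V, r := by rw [sum_const, nsmul_eq_mul]
    _ ≤ ∑ v ∈ V, (#{w ∈ W | ψ w = v} : ℝ) := sum_le_sum h
    _ ≤ #W := h2

variable {F : Type} [Field F] [DecidableEq F]

theorem ruzsa_sub (A B : Finset F) : #(A - A) * #B ≤ #(A + B) * #(A + B) := by
  have := ruzsa_triangle_inequality_sub_add_add A B A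
  exact this

theorem ruzsa_div (A B : Finset F) (hA : (0 : F) ∉ A) (hB : (0 : F) ∉ B) :
    #(A / A) * #B ≤ #(B / A) * #(B / A) := by
  classical
  have hex : ∀ d ∈ A / A, ∃ a : F × F, a.1 ∈ A ∧ a.2 ∈ A ∧ a.1 / a.2 = d := by
    intro d hd
    obtain ⟨a, ha, b, hb, rfl⟩ := mem_div.mp hd
    exact ⟨(a, b), ha, hb, rfl⟩
  choose! g hg1 hg2 hg3 using hex
  rw [← card_product, ← card_product]
  apply card_le_card_of_injOn (fun p : F × F => (p.2 / (g p.1).2, p.2 / (g p.1).1))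
  · rintro ⟨d, b⟩ hp
    simp only [coe_product, Set.mem_prod, mem_coe] at hp
    simp only [coe_product, Set.mem_prod, mem_coe]
    exact ⟨div_mem_div hp.2 (hg2 d hp.1), div_mem_div hp.2 (hg1 d hp.1)⟩
  · rintro ⟨d, b⟩ hp ⟨d', b'⟩ hp' h
    simp only [coe_product, Set.mem_prod, mem_coe] at hp hp'
    simp only [Prod.mk.injEq] at h ⊢
    have b0 : b ≠ 0 := fun h => hB (h ▸ hp.2)
    have b0' : b' ≠ 0 := fun h => hB (h ▸ hp'.2)
    have x1 : (g d).1 ≠ 0 := fun h => hA (h ▸ hg1 d hp.1)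
    have x2 : (g d).2 ≠ 0 := fun h => hA (h ▸ hg2 d hp.1)
    have y1 : (g d').1 ≠ 0 := fun h => hA (h ▸ hg1 d' hp'.1)
    have y2 : (g d').2 ≠ 0 := fun h => hA (h ▸ hg2 d' hp'.1)
    have hd : d = d' := by
      have e1 : d = (b / (g d).2) / (b / (g d).1) := by
        rw [div_div_div_cancel_left' _ _ b0]; exact (hg3 d hp.1).symm
      have e2 : d' = (b' / (g d').2) / (b' / (g d').1) := by
        rw [div_div_div_cancel_left' _ _ b0']; exact (hg3 d' hp'.1).symm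
      rw [e1, e2, h.1, h.2]
    subst hd
    refine ⟨rfl, ?_⟩
    have := h.1
    rw [div_left_inj' x2] at this
    exact this

/-- paths of length three give few sums -/
theorem sum_bound (X Y : Finset F) (E : Finset (F × F)) (_hE : E ⊆ X ×ˢ Y)
    (A' B' : Finset F) (r : ℝ)
    (hp : ∀ x ∈ A', ∀ y ∈ B', r ≤ #{p ∈ Y ×ˢ X | (x, p.1) ∈ E ∧ (p.2, p.1) ∈ E ∧ (p.2, y) ∈ E}) :
    (#(A' + B') : ℝ) * r ≤ (#(E.image (fun e => e.1 + e.2)) : ℝ) ^ 3 := by
  classical
  set Sg := E.image (fun e => e.1 + e.2) with hSg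
  have hmem : ∀ a b, (a, b) ∈ E → a + b ∈ Sg := fun a b h =>
    mem_image.mpr ⟨(a, b), h, rfl⟩
  have key := fiber_bound (Sg ×ˢ (Sg ×ˢ Sg)) (A' + B') (fun w => w.1 - w.2.1 + w.2.2) r ?_
  · rw [card_product, card_product] at key
    push_cast at key
    calc _ ≤ _ := key
      _ = _ := by ring
  · intro v hv
    obtain ⟨a, ha, b, hb, rfl⟩ := mem_add.mp hv
    refine le_trans (hp a ha b hb) ?_
    norm_cast
    apply card_le_card_of_injOn (fun p : F × F => (a + p.1, p.2 + p.1, p.2 + b))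
    · rintro ⟨y', x'⟩ h
      simp only [coe_filter, mem_product, Set.mem_ofPred_eq] at h ⊢
      refine ⟨⟨hmem _ _ h.2.1, hmem _ _ h.2.2.1, hmem _ _ h.2.2.2⟩, by ring⟩
    · rintro ⟨y', x'⟩ _ ⟨y'', x''⟩ _ h
      simp only [Prod.mk.injEq] at h ⊢
      exact ⟨add_left_cancel h.1, add_right_cancel h.2.2⟩

/-- paths of length three give few ratios -/
theorem div_bound (X Y : Finset F) (E : Finset (F × F)) (_hE : E ⊆ X ×ˢ Y)
    (h0 : ∀ e ∈ E, e.1 ≠ 0 ∧ e.2 ≠ 0)
    (A' B' : Finset F) (hA : (0 : F) ∉ A') (hB : (0 : F) ∉ B') (r : ℝ)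
    (hp : ∀ x ∈ A', ∀ y ∈ B', r ≤ #{p ∈ Y ×ˢ X | (x, p.1) ∈ E ∧ (p.2, p.1) ∈ E ∧ (p.2, y) ∈ E}) :
    (#(B' / A') : ℝ) * r ≤ (#(E.image (fun e => e.2 / e.1)) : ℝ) ^ 3 := by
  classical
  set Sg := E.image (fun e => e.2 / e.1) with hSg
  have hmem : ∀ a b, (a, b) ∈ E → b / a ∈ Sg := fun a b h =>
    mem_image.mpr ⟨(a, b), h, rfl⟩
  have key := fiber_bound (Sg ×ˢ (Sg ×ˢ Sg)) (B' / A') (fun w => w.1 / w.2.1 * w.2.2) r ?_
  · rw [card_product, card_product] at key
    push_cast at key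
    calc _ ≤ _ := key
      _ = _ := by ring
  · intro v hv
    obtain ⟨b, hb, a, ha, rfl⟩ := mem_div.mp hv
    have a0 : a ≠ 0 := fun h => hA (h ▸ ha)
    have b0 : b ≠ 0 := fun h => hB (h ▸ hb)
    refine le_trans (hp a ha b hb) ?_
    norm_cast
    apply card_le_card_of_injOn (fun p : F × F => (p.1 / a, p.1 / p.2, b / p.2))
    · rintro ⟨y', x'⟩ h
      simp only [coe_filter, mem_product, Set.mem_ofPred_eq] at h ⊢
      have h1 := h0 _ h.2.1
      have h2 := h0 _ h.2.2.2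
      simp only at h1 h2
      have y0 := h1.2
      have x0 := h2.1
      refine ⟨⟨hmem _ _ h.2.1, hmem _ _ h.2.2.1, hmem _ _ h.2.2.2⟩, ?_⟩
      field_simp
    · rintro ⟨y', x'⟩ h1 ⟨y'', x''⟩ h2 h
      simp only [coe_filter, mem_product, Set.mem_ofPred_eq] at h1 h2
      simp only [Prod.mk.injEq] at h ⊢
      have x0 := (h0 _ h1.2.2.2).1
      have x0' := (h0 _ h2.2.2.2).1
      simp only at x0 x0'
      refine ⟨(div_left_inj' a0).mp h.1, ?_⟩
      have := h.2.2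
      rw [div_eq_div_iff x0 x0'] at this
      exact (mul_left_cancel₀ b0 this).symm

variable [Fintype F]

theorem additive (hns : ¬ IsSquare (Fintype.card F)) (n Λ : ℝ) (hn0 : 0 < n)
    (hn : n ^ 2 = Fintype.card F) (hΛ : 2 ≤ Λ) {ι : Type*} [DecidableEq ι] (G : Finset ι)
    (x y : ι → F) (hinj : ∀ s ∈ G, ∀ s' ∈ G, x s = x s' → y s = y s' → s = s')
    (hx0 : ∀ s ∈ G, x s ≠ 0) (hy0 : ∀ s ∈ G, y s ≠ 0)
    (hX : (#(G.image x) : ℝ) ≤ 2 * Λ * n) (hY : (#(G.image y) : ℝ) ≤ 2 * Λ * n)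
    (hS : (#(G.image (fun s => x s + y s)) : ℝ) ≤ 2 * Λ * n)
    (hD : (#(G.image (fun s => y s / x s)) : ℝ) ≤ 2 * Λ * n)
    (hG : n ^ 2 ≤ Λ ^ 50 * #G) : (Fintype.card F : ℝ) ≤ Λ ^ 90000 := by
  classical
  set X := G.image x with hXd
  set Y := G.image y with hYd
  set E := G.image (fun s => (x s, y s)) with hEd
  have hEcard : #E = #G := by
    apply card_image_of_injOn
    intro s hs s' hs' h
    simp only [Prod.mk.injEq] at h
    exact hinj s hs s' hs' h.1 h.2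
  have hEXY : E ⊆ X ×ˢ Y := by
    intro e he
    obtain ⟨s, hs, rfl⟩ := mem_image.mp he
    exact mem_product.mpr ⟨mem_image_of_mem _ hs, mem_image_of_mem _ hs⟩
  have hE0 : ∀ e ∈ E, e.1 ≠ 0 ∧ e.2 ≠ 0 := by
    intro e he
    obtain ⟨s, hs, rfl⟩ := mem_image.mp he
    exact ⟨hx0 s hs, hy0 s hs⟩
  have hΛ0 : 0 < Λ := by linarith
  have hΛ1 : 1 ≤ Λ := by linarith
  have hn2 : 0 < n ^ 2 := by positivity
  have hGpos : (0 : ℝ) < #G := by
    by_contra h
    have h0 : (#G : ℝ) = 0 := le_antisymm (not_lt.mp h) (Nat.cast_nonneg _)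
    rw [h0, mul_zero] at hG
    linarith
  have hGne : G.Nonempty := card_pos.mp (by exact_mod_cast hGpos)
  have hXne : X.Nonempty := hGne.image _
  have hYne : Y.Nonempty := hGne.image _
  have hXpos : (0 : ℝ) < #X := by exact_mod_cast hXne.card_pos
  have hYpos : (0 : ℝ) < #Y := by exact_mod_cast hYne.card_pos
  have hEle : (#G : ℝ) ≤ #X * #Y := by
    have := card_le_card hEXY
    rw [card_product, hEcard] at this
    exact_mod_cast this
  have hXYlow : n ^ 2 ≤ Λ ^ 50 * (#X * #Y) :=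
    hG.trans (mul_le_mul_of_nonneg_left hEle (by positivity))
  -- the density constant
  have h2pow : ∀ k : ℕ, (2 : ℝ) ^ k ≤ Λ ^ k := fun k => pow_le_pow_left₀ (by norm_num) hΛ k
  have hd : (#X : ℝ) * #Y ≤ Λ ^ 54 * #E := by
    rw [hEcard]
    calc (#X : ℝ) * #Y ≤ (2 * Λ * n) * (2 * Λ * n) := mul_le_mul hX hY hYpos.le (by positivity)
      _ = 4 * Λ ^ 2 * n ^ 2 := by ring
      _ ≤ 4 * Λ ^ 2 * (Λ ^ 50 * #G) := mul_le_mul_of_nonneg_left hG (by positivity)
      _ = 2 ^ 2 * (Λ ^ 52 * #G) := by ring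
      _ ≤ Λ ^ 2 * (Λ ^ 52 * #G) := mul_le_mul_of_nonneg_right (h2pow 2) (by positivity)
      _ = Λ ^ 54 * #G := by ring
  obtain ⟨A', hA', B', hB', hAl, hBl, hpaths⟩ :=
    exists_many_paths X Y E hEXY hXne hYne (Λ ^ 54) (one_le_pow₀ hΛ1) hd
  set r : ℝ := (#X : ℝ) * #Y / (3072 * (Λ ^ 54) ^ 5) with hr
  have hpaths' : ∀ a ∈ A', ∀ b ∈ B',
      r ≤ #{p ∈ Y ×ˢ X | (a, p.1) ∈ E ∧ (p.2, p.1) ∈ E ∧ (p.2, b) ∈ E} := by
    intro a ha b hb
    rw [hr, div_le_iff₀ (by positivity)]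
    calc _ ≤ _ := hpaths a ha b hb
      _ = _ := by ring
  have hA0 : (0 : F) ∉ A' := by
    intro h
    obtain ⟨s, hs, h⟩ := mem_image.mp (hA' h)
    exact hx0 s hs h
  have hB0 : (0 : F) ∉ B' := by
    intro h
    obtain ⟨s, hs, h⟩ := mem_image.mp (hB' h)
    exact hy0 s hs h
  have hrlow : n ^ 2 ≤ Λ ^ 332 * r := by
    rw [hr]
    have : Λ ^ 332 * ((#X : ℝ) * #Y / (3072 * (Λ ^ 54) ^ 5)) =
        Λ ^ 12 / 3072 * (Λ ^ 50 * (#X * #Y)) := by
      rw [mul_div_assoc', div_mul_eq_mul_div, div_eq_div_iff (by positivity) (by norm_num)]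
      ring
    rw [this]
    have h1 : (1 : ℝ) ≤ Λ ^ 12 / 3072 := by
      rw [le_div_iff₀ (by norm_num)]
      calc (1 : ℝ) * 3072 ≤ 2 ^ 12 := by norm_num
        _ ≤ Λ ^ 12 := h2pow 12
    calc n ^ 2 ≤ 1 * (Λ ^ 50 * (#X * #Y)) := by rw [one_mul]; exact hXYlow
      _ ≤ _ := mul_le_mul_of_nonneg_right h1 (by positivity)
  have hr0 : 0 < r := by rw [hr]; positivity
  have final_of : ∀ (V Sg : ℝ), 0 ≤ V → 0 ≤ Sg → Sg ≤ 2 * Λ * n → V * r ≤ Sg ^ 3 →
      V ≤ Λ ^ 338 * n := by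
    intro V Sg hV hSg hSgn h
    have h1 : V * n ^ 2 ≤ Λ ^ 338 * n * n ^ 2 := by
      calc V * n ^ 2 ≤ V * (Λ ^ 332 * r) := mul_le_mul_of_nonneg_left hrlow hV
        _ = Λ ^ 332 * (V * r) := by ring
        _ ≤ Λ ^ 332 * Sg ^ 3 := mul_le_mul_of_nonneg_left h (by positivity)
        _ ≤ Λ ^ 332 * (2 * Λ * n) ^ 3 :=
            mul_le_mul_of_nonneg_left (pow_le_pow_left₀ hSg hSgn 3) (by positivity)
        _ = 2 ^ 3 * (Λ ^ 335 * n ^ 3) := by ring
        _ ≤ Λ ^ 3 * (Λ ^ 335 * n ^ 3) := mul_le_mul_of_nonneg_right (h2pow 3) (by positivity)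
        _ = Λ ^ 338 * n * n ^ 2 := by ring
    exact le_of_mul_le_mul_right h1 hn2
  have hsum : (#(A' + B') : ℝ) ≤ Λ ^ 338 * n := by
    refine final_of _ (#(G.image (fun s => x s + y s))) (by positivity) (by positivity) hS ?_
    have := sum_bound X Y E hEXY A' B' r hpaths'
    have h2 : E.image (fun e => e.1 + e.2) = G.image (fun s => x s + y s) := by
      rw [hEd, image_image]; rfl
    rw [h2] at this
    exact this
  have hratio : (#(B' / A') : ℝ) ≤ Λ ^ 338 * n := by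
    refine final_of _ (#(G.image (fun s => y s / x s))) (by positivity) (by positivity) hD ?_
    have := div_bound X Y E hEXY hE0 A' B' hA0 hB0 r hpaths'
    have h2 : E.image (fun e => e.2 / e.1) = G.image (fun s => y s / x s) := by
      rw [hEd, image_image]; rfl
    rw [h2] at this
    exact this
  -- sizes of A', B'
  have hXlow : n ≤ Λ ^ 52 * #X := by
    have h1 : n ^ 2 ≤ Λ ^ 50 * (#X * (2 * Λ * n)) :=
      hXYlow.trans (mul_le_mul_of_nonneg_left (mul_le_mul_of_nonneg_left hY hXpos.le)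
        (by positivity))
    have h2 : n * n ≤ (2 * Λ ^ 51 * #X) * n := by nlinarith
    have h3 : n ≤ 2 * Λ ^ 51 * #X := le_of_mul_le_mul_right h2 hn0
    calc n ≤ 2 * (Λ ^ 51 * #X) := by linarith
      _ ≤ Λ * (Λ ^ 51 * #X) := mul_le_mul_of_nonneg_right hΛ (by positivity)
      _ = _ := by ring
  have hYlow : n ≤ Λ ^ 52 * #Y := by
    have h1 : n ^ 2 ≤ Λ ^ 50 * ((2 * Λ * n) * #Y) :=
      hXYlow.trans (mul_le_mul_of_nonneg_left (mul_le_mul_of_nonneg_right hX hYpos.le)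
        (by positivity))
    have h2 : n * n ≤ (2 * Λ ^ 51 * #Y) * n := by nlinarith
    have h3 : n ≤ 2 * Λ ^ 51 * #Y := le_of_mul_le_mul_right h2 hn0
    calc n ≤ 2 * (Λ ^ 51 * #Y) := by linarith
      _ ≤ Λ * (Λ ^ 51 * #Y) := mul_le_mul_of_nonneg_right hΛ (by positivity)
      _ = _ := by ring
  have hAlow : n ≤ Λ ^ 109 * #A' := by
    calc n ≤ Λ ^ 52 * #X := hXlow
      _ ≤ Λ ^ 52 * (6 * Λ ^ 54 * #A') := mul_le_mul_of_nonneg_left hAl (by positivity)
      _ = 6 * (Λ ^ 106 * #A') := by ring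
      _ ≤ 2 ^ 3 * (Λ ^ 106 * #A') := mul_le_mul_of_nonneg_right (by norm_num)
            (mul_nonneg (pow_nonneg hΛ0.le _) (Nat.cast_nonneg _))
      _ ≤ Λ ^ 3 * (Λ ^ 106 * #A') := mul_le_mul_of_nonneg_right (h2pow 3)
            (mul_nonneg (pow_nonneg hΛ0.le _) (Nat.cast_nonneg _))
      _ = _ := by ring
  have hBlow : n ≤ Λ ^ 108 * #B' := by
    calc n ≤ Λ ^ 52 * #Y := hYlow
      _ ≤ Λ ^ 52 * (4 * Λ ^ 54 * #B') := mul_le_mul_of_nonneg_left hBl (by positivity)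
      _ = 2 ^ 2 * (Λ ^ 106 * #B') := by ring
      _ ≤ Λ ^ 2 * (Λ ^ 106 * #B') := mul_le_mul_of_nonneg_right (h2pow 2)
            (mul_nonneg (pow_nonneg hΛ0.le _) (Nat.cast_nonneg _))
      _ = _ := by ring
  have fin2 : ∀ (D V : ℝ), 0 ≤ D → 0 ≤ V → V ≤ Λ ^ 338 * n → D * #B' ≤ V * V →
      D ≤ Λ ^ 893 * #A' := by
    intro D V hD0 hV0 hV h
    have h1 : D * n ≤ Λ ^ 784 * n * n := by
      calc D * n ≤ D * (Λ ^ 108 * #B') := mul_le_mul_of_nonneg_left hBlow hD0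
        _ = Λ ^ 108 * (D * #B') := by ring
        _ ≤ Λ ^ 108 * (V * V) := mul_le_mul_of_nonneg_left h (by positivity)
        _ ≤ Λ ^ 108 * ((Λ ^ 338 * n) * (Λ ^ 338 * n)) :=
            mul_le_mul_of_nonneg_left (mul_le_mul hV hV hV0 (by positivity)) (by positivity)
        _ = _ := by ring
    have h2 : D ≤ Λ ^ 784 * n := le_of_mul_le_mul_right h1 hn0
    calc D ≤ Λ ^ 784 * n := h2
      _ ≤ Λ ^ 784 * (Λ ^ 109 * #A') := mul_le_mul_of_nonneg_left hAlow (by positivity)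
      _ = _ := by ring
  obtain ⟨K, hK⟩ : ∃ K : ℝ, K = Λ ^ 893 := ⟨_, rfl⟩
  rw [← hK] at fin2
  have hK0 : 0 < K := by rw [hK]; exact pow_pos hΛ0 _
  have hKge : ∀ j : ℕ, j ≤ 893 → Λ ^ j ≤ K := by
    intro j hj; rw [hK]; exact pow_le_pow_right₀ hΛ1 hj
  have hK1 : 1 ≤ K := by simpa using hKge 0 (by norm_num)
  have hsub : (#(A' - A') : ℝ) ≤ K * #A' := by
    refine fin2 _ (#(A' + B')) (by positivity) (by positivity) hsum ?_
    exact_mod_cast ruzsa_sub A' B'
  have hdiv : (#(A' / A') : ℝ) ≤ K * #A' := by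
    refine fin2 _ (#(B' / A')) (by positivity) (by positivity) hratio ?_
    exact_mod_cast ruzsa_div A' B' hA0 hB0
  have hAX : (#A' : ℝ) ≤ 2 * Λ * n := by
    refine le_trans ?_ hX
    exact_mod_cast card_le_card hA'
  have hlow : (Fintype.card F : ℝ) ≤ (K * #A') ^ 2 := by
    rw [← hn]
    refine pow_le_pow_left₀ hn0.le (hAlow.trans ?_) 2
    exact mul_le_mul_of_nonneg_right (hKge _ (by norm_num)) (by positivity)
  have hhigh : (#A' : ℝ) ^ 2 ≤ K ^ 2 * Fintype.card F := by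
    rw [← hn, ← mul_pow]
    refine pow_le_pow_left₀ (by positivity) (hAX.trans ?_) 2
    refine mul_le_mul_of_nonneg_right ?_ hn0.le
    calc 2 * Λ ≤ Λ * Λ := mul_le_mul_of_nonneg_right hΛ hΛ0.le
      _ = Λ ^ 2 := by ring
      _ ≤ K := hKge _ (by norm_num)
  have hfin := sum_product hns A' hA0 K hK1 hlow hhigh hsub hdiv
  calc (Fintype.card F : ℝ) ≤ 2 ^ 24 * K ^ 96 := hfin
    _ ≤ Λ ^ 24 * K ^ 96 := mul_le_mul_of_nonneg_right (h2pow 24) (by positivity)
    _ = Λ ^ (24 + 893 * 96) := by rw [hK, ← pow_mul, ← pow_add]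
    _ ≤ Λ ^ 90000 := pow_le_pow_right₀ hΛ1 (by norm_num)

end Crest.Agent.R034.BKT
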