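import Crest.Agent.R034.Defs

/-! Module interfaces of row 34. Each module proves one of these `Prop`s in its own file. -/

set_option autoImplicit false

namespace Crest.Agent.R034

open Finset

/-- `k` is the integer `N`-th root of `q` -/
def IsRoot (N k q : ℕ) : Prop := k ^ N ≤ q ∧ q < (k + 1) ^ N

/-- BKT-lite (helper922/helper358). Lines `l : Ln F` and positions `i` (= lines through the centre)
are the lines of the plane. -/
def SpecBKT : Prop :=
  ∃ C0 : ℕ, ∀ (F : Type) [Field F] [Fintype F] [DecidableEq F], ¬ IsSquare (ord F) →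
    ∀ L : ℕ, 2 ≤ L → ∀ S : Finset (Pt F), S.card ≤ ord F →
      (∀ l : Ln F, ((S.filter (fun z => On z l)).card : ℝ) ≤ L * Real.sqrt (ord F)) →
      (∀ i : Option F, ((S.filter (fun z => z.1 = i)).card : ℝ) ≤ L * Real.sqrt (ord F)) →
      ((ord F : ℝ) ^ 2 ≤ L * (((S ×ˢ S).filter (fun p => p.1.1 ≠ p.2.1 ∧
        Real.sqrt (ord F) ≤ L * ((S.filter (fun z => On z (thru p.1 p.2))).card : ℝ))).card : ℝ)) →
      ord F ≤ L ^ C0

/-- STAB: stability from degree regularity + grid property (+ BKT) -/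
def SpecStab : Prop :=
  ∃ N : ℕ, 1 ≤ N ∧ ∃ q0 : ℕ, ∀ (F : Type) [Field F] [Fintype F] [DecidableEq F],
    ¬ IsSquare (ord F) → q0 ≤ ord F → ∀ k : ℕ, IsRoot N k (ord F) →
    ∀ R : RR F, R1 R k → R3 R k → ∀ K : Finset (Pt F), K ⊆ Kset R → Stable K


/-- the five parts of `SpecR` in counting form (each fails for at most 1/10 of the `R`) -/
def SpecR1 : Prop :=
  ∀ N : ℕ, 1 ≤ N → ∃ q0 : ℕ, ∀ (F : Type) [Field F] [Fintype F] [DecidableEq F],
    q0 ≤ ord F → ∀ k : ℕ, IsRoot N k (ord F) →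
    ∃ B : Finset (RR F), (∀ R, R ∉ B → R1 R k) ∧ 10 * B.card ≤ Fintype.card (RR F)
def SpecR2 : Prop :=
  ∃ q0 : ℕ, ∀ (F : Type) [Field F] [Fintype F] [DecidableEq F], q0 ≤ ord F →
    ∃ B : Finset (RR F), (∀ R, R ∉ B → R2 R) ∧ 10 * B.card ≤ Fintype.card (RR F)
def SpecR3 : Prop :=
  ∀ N : ℕ, 1 ≤ N → ∃ q0 : ℕ, ∀ (F : Type) [Field F] [Fintype F] [DecidableEq F],
    q0 ≤ ord F → ∀ k : ℕ, IsRoot N k (ord F) →
    ∃ B : Finset (RR F), (∀ R, R ∉ B → R3 R k) ∧ 10 * B.card ≤ Fintype.card (RR F)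
def SpecR4 : Prop :=
  ∃ c : ℝ, 0 < c ∧ ∃ q0 : ℕ, ∀ (F : Type) [Field F] [Fintype F] [DecidableEq F], q0 ≤ ord F →
    ∃ B : Finset (RR F), (∀ R, R ∉ B → R4 R c) ∧ 10 * B.card ≤ Fintype.card (RR F)
def SpecR5 : Prop :=
  ∀ N : ℕ, 1 ≤ N → ∃ q0 : ℕ, ∀ (F : Type) [Field F] [Fintype F] [DecidableEq F],
    q0 ≤ ord F → ∀ k : ℕ, IsRoot N k (ord F) →
    ∃ B : Finset (RR F), (∀ R, R ∉ B → R5 R k) ∧ 10 * B.card ≤ Fintype.card (RR F)

/-- Selection 1 (Rosenfeld counting) -/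
def SpecX : Prop :=
  ∀ (F : Type) [Field F] [Fintype F] [DecidableEq F] (R : RR F), R2 R →
    ∃ X : Option F → Bool → Ln F, GoodX R X

/-- Selection 2 (choice of labels, first moment) -/
def SpecW : Prop :=
  ∀ c : ℝ, 0 < c → ∃ q0 : ℕ, ∀ (F : Type) [Field F] [Fintype F] [DecidableEq F],
    q0 ≤ ord F → ∀ k : ℕ, k ^ 20 ≤ ord F → ∀ (R : RR F) (X : Option F → Bool → Ln F),
    R4 R c → R5 R k → GoodX R X →
    ∃ (K : Finset (Pt F)) (lab : Option F → Bool → Option F → F) (U : Pt F → Finset (Ln F)),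
      K ⊆ Kset R ∧ Gadget K X lab U

/-- cover analysis -/
def SpecCover : Prop :=
  ∀ (F : Type) [Field F] [Fintype F] [DecidableEq F]
    (K : Finset (Pt F)) (X : Option F → Bool → Ln F) (lab : Option F → Bool → Option F → F)
    (U : Pt F → Finset (Ln F)), Gadget K X lab U → Stable K → GoodFamily F

end Crest.Agent.R034
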