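import Crest.Agent.R034.Plane
import Crest.Agent.R034.Spec
import Crest.Agent.R034.McDiarmid

-- ▼ part R034/BKTSel
section

/-! Incidence part of the BKT module of row 34: selection of four base points. -/

set_option autoImplicit false
set_option maxHeartbeats 1000000

namespace Crest.Agent.R034.BKT

open Finset Crest.Agent.R034
open scoped Classical in
theorem pigeon {α β : Type*} (T : Finset α) (Q : Finset β) (r : α → β → Prop)
    (M δ : ℝ) (hM : (#Q : ℝ) ≤ M) (hT : T.Nonempty) (hδ0 : 0 < δ)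
    (hδ : ∀ t ∈ T, δ ≤ #{p ∈ Q | r t p}) :
    ∃ p ∈ Q, (#T : ℝ) * δ ≤ M * #{t ∈ T | r t p} := by
  by_contra hcon
  push Not at hcon
  have h2 : (∑ t ∈ T, #{p ∈ Q | r t p}) = ∑ p ∈ Q, #{t ∈ T | r t p} :=
    sum_card_bipartiteAbove_eq_sum_card_bipartiteBelow r
  have h2' : ∑ t ∈ T, (#{p ∈ Q | r t p} : ℝ) = ∑ p ∈ Q, (#{t ∈ T | r t p} : ℝ) := by
    exact_mod_cast h2
  have h1 : (#T : ℝ) * δ ≤ ∑ t ∈ T, (#{p ∈ Q | r t p} : ℝ) := by
    rw [← nsmul_eq_mul, ← sum_const]
    exact sum_le_sum hδ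
  have hTpos : (0 : ℝ) < #T := by exact_mod_cast hT.card_pos
  have hpos : 0 < (#T : ℝ) * δ := mul_pos hTpos hδ0
  have hQ : Q.Nonempty := by
    obtain ⟨t, ht⟩ := hT
    have := lt_of_lt_of_le hδ0 (hδ t ht)
    have h3 : 0 < #{p ∈ Q | r t p} := by exact_mod_cast this
    exact (card_pos.mp h3).mono (filter_subset _ _)
  have hM0 : 0 < M := lt_of_lt_of_le (by exact_mod_cast hQ.card_pos) hM
  have h3 : ∑ p ∈ Q, M * (#{t ∈ T | r t p} : ℝ) < ∑ p ∈ Q, (#T : ℝ) * δ :=
    sum_lt_sum_of_nonempty hQ hcon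
  rw [← mul_sum, ← h2', sum_const, nsmul_eq_mul] at h3
  have h4 : (#Q : ℝ) * (#T * δ) ≤ M * (#T * δ) := mul_le_mul_of_nonneg_right hM hpos.le
  have h5 : M * (#T * δ) ≤ M * ∑ t ∈ T, (#{p ∈ Q | r t p} : ℝ) :=
    mul_le_mul_of_nonneg_left h1 hM0.le
  linarith

theorem card_image_le_of_factor {α β γ : Type*} [DecidableEq β] [DecidableEq γ]
    (G : Finset α) (f : α → β) (g : α → γ)
    (h : ∀ s ∈ G, ∀ s' ∈ G, g s = g s' → f s = f s') : #(G.image f) ≤ #(G.image g) := by
  classical
  rcases G.eq_empty_or_nonempty with rfl | ⟨s0, _⟩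
  · simp
  have : Nonempty α := ⟨s0⟩
  have hex : ∀ v ∈ G.image f, ∃ s, s ∈ G ∧ f s = v := by
    intro v hv
    obtain ⟨s, hs, h⟩ := mem_image.mp hv
    exact ⟨s, hs, h⟩
  choose! k hk1 hk2 using hex
  apply card_le_card_of_injOn (fun v => g (k v))
  · intro v hv
    exact mem_coe.mpr (mem_image_of_mem _ (hk1 v (mem_coe.mp hv)))
  · intro v hv v' hv' hvv'
    have := h _ (hk1 v (mem_coe.mp hv)) _ (hk1 v' (mem_coe.mp hv')) hvv'
    rw [hk2 v (mem_coe.mp hv), hk2 v' (mem_coe.mp hv')] at this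
    exact this

variable {F : Type} [Field F] [Fintype F] [DecidableEq F]

open scoped Classical in
/-- the rich lines -/
noncomputable def rich (S : Finset (Pt F)) (n Λ : ℝ) : Finset (Ln F) :=
  univ.filter (fun l => n ≤ Λ * #(S.filter (fun z => On z l)))

/-- adjacency: on a common rich line -/
def adj (S : Finset (Pt F)) (n Λ : ℝ) (s t : Pt F) : Prop := s.1 ≠ t.1 ∧ thru s t ∈ rich S n Λ

theorem mem_rich {S : Finset (Pt F)} {n Λ : ℝ} {l : Ln F} :
    l ∈ rich S n Λ ↔ n ≤ Λ * #(S.filter (fun z => On z l)) := by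
  simp [rich]


theorem rich_through (S : Finset (Pt F)) (n Λ : ℝ) (hΛ : 2 ≤ Λ) (hn : 2 * Λ ≤ n)
    (hS : (#S : ℝ) ≤ n ^ 2) (P : Pt F) :
    (#((rich S n Λ).filter (fun l => On P l)) : ℝ) ≤ 2 * Λ * n := by
  have hn0 : 0 < n := by linarith
  set RP := (rich S n Λ).filter (fun l => On P l) with hRP
  have hdisj : (RP : Set (Ln F)).PairwiseDisjoint
      (fun l => (S.filter (fun z => On z l)).erase P) := by
    intro l hl l' hl' hne
    rw [Function.onFun, disjoint_left]
    intro z hz hz'
    rw [mem_erase, mem_filter] at hz hz'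
    rw [hRP, mem_coe, mem_filter] at hl hl'
    exact hne (eq_of_on (pos_ne_of_on hz.2.2 hl.2 hz.1) hz.2.2 hz'.2.2 hl.2 hl'.2)
  have h1 : ∑ l ∈ RP, #((S.filter (fun z => On z l)).erase P) ≤ #S := by
    rw [← card_biUnion hdisj]
    exact card_le_card (biUnion_subset.mpr fun l _ => (erase_subset _ _).trans (filter_subset _ _))
  have h2 : ∀ l ∈ RP, n / (2 * Λ) ≤ (#((S.filter (fun z => On z l)).erase P) : ℝ) := by
    intro l hl
    rw [hRP, mem_filter, mem_rich] at hl
    have h3 : #(S.filter (fun z => On z l)) ≤ #((S.filter (fun z => On z l)).erase P) + 1 :=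
      Nat.le_add_of_sub_le pred_card_le_card_erase
    have h3' : (#(S.filter (fun z => On z l)) : ℝ) ≤
        #((S.filter (fun z => On z l)).erase P) + 1 := by exact_mod_cast h3
    rw [div_le_iff₀ (by linarith)]
    nlinarith [hl.1]
  have h4 : (#RP : ℝ) * (n / (2 * Λ)) ≤ n ^ 2 := by
    calc (#RP : ℝ) * (n / (2 * Λ)) = ∑ l ∈ RP, n / (2 * Λ) := by rw [sum_const, nsmul_eq_mul]
      _ ≤ ∑ l ∈ RP, (#((S.filter (fun z => On z l)).erase P) : ℝ) := sum_le_sum h2
      _ ≤ #S := by exact_mod_cast h1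
      _ ≤ n ^ 2 := hS
  rw [mul_div_assoc', div_le_iff₀ (by linarith)] at h4
  have h5 : (#RP : ℝ) * n ≤ (2 * Λ * n) * n := by nlinarith
  exact le_of_mul_le_mul_right h5 hn0

theorem rich_card (S : Finset (Pt F)) (n Λ : ℝ) (hΛ : 2 ≤ Λ) (hn : 2 * Λ ≤ n)
    (hS : (#S : ℝ) ≤ n ^ 2) : (#(rich S n Λ) : ℝ) ≤ 2 * Λ ^ 2 * n ^ 2 := by
  have hn0 : 0 < n := by linarith
  have h1 : (∑ l ∈ rich S n Λ, #(S.filter (fun z => On z l)))
      = ∑ P ∈ S, #((rich S n Λ).filter (fun l => On P l)) :=
    sum_card_bipartiteAbove_eq_sum_card_bipartiteBelow (fun (l : Ln F) (z : Pt F) => On z l)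
  have h1' : ∑ l ∈ rich S n Λ, (#(S.filter (fun z => On z l)) : ℝ)
      = ∑ P ∈ S, (#((rich S n Λ).filter (fun l => On P l)) : ℝ) := by exact_mod_cast h1
  have h2 : (#(rich S n Λ) : ℝ) * n ≤ Λ * (2 * Λ * n * n ^ 2) := by
    calc (#(rich S n Λ) : ℝ) * n = ∑ l ∈ rich S n Λ, n := by rw [sum_const, nsmul_eq_mul]
      _ ≤ ∑ l ∈ rich S n Λ, Λ * (#(S.filter (fun z => On z l)) : ℝ) :=
          sum_le_sum fun l hl => mem_rich.mp hl
      _ = Λ * ∑ P ∈ S, (#((rich S n Λ).filter (fun l => On P l)) : ℝ) := by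
          rw [← mul_sum, h1']
      _ ≤ Λ * ∑ P ∈ S, (2 * Λ * n) := by
          apply mul_le_mul_of_nonneg_left _ (by linarith)
          exact sum_le_sum fun P _ => rich_through S n Λ hΛ hn hS P
      _ = Λ * (#S * (2 * Λ * n)) := by rw [sum_const, nsmul_eq_mul]
      _ ≤ Λ * (n ^ 2 * (2 * Λ * n)) := by
          apply mul_le_mul_of_nonneg_left _ (by linarith)
          apply mul_le_mul_of_nonneg_right hS
          positivity
      _ = Λ * (2 * Λ * n * n ^ 2) := by ring
  have h3 : (#(rich S n Λ) : ℝ) * n ≤ (2 * Λ ^ 2 * n ^ 2) * n := by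
    calc _ ≤ _ := h2
      _ = _ := by ring
  exact le_of_mul_le_mul_right h3 hn0

open scoped Classical in
theorem deg_le (S : Finset (Pt F)) (n Λ : ℝ)
    (hl : ∀ l : Ln F, (#(S.filter (fun z => On z l)) : ℝ) ≤ Λ * n)
    (S1 : Finset (Pt F)) (hS1 : S1 ⊆ S) (P : Pt F) :
    (#(S1.filter (fun s => adj S n Λ s P)) : ℝ) ≤
      #((rich S n Λ).filter (fun l => On P l)) * (Λ * n) := by
  have h1 : S1.filter (fun s => adj S n Λ s P) ⊆
      ((rich S n Λ).filter (fun l => On P l)).biUnion (fun l => S.filter (fun z => On z l)) := by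
    intro s hs
    rw [mem_filter] at hs
    rw [mem_biUnion]
    refine ⟨thru s P, mem_filter.mpr ⟨hs.2.2, on_thru_right hs.2.1⟩, ?_⟩
    exact mem_filter.mpr ⟨hS1 hs.1, on_thru_left hs.2.1⟩
  have h2 : #(S1.filter (fun s => adj S n Λ s P)) ≤
      ∑ l ∈ (rich S n Λ).filter (fun l => On P l), #(S.filter (fun z => On z l)) :=
    (card_le_card h1).trans card_biUnion_le
  have h2' : (#(S1.filter (fun s => adj S n Λ s P)) : ℝ) ≤
      ∑ l ∈ (rich S n Λ).filter (fun l => On P l), (#(S.filter (fun z => On z l)) : ℝ) := by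
    exact_mod_cast h2
  calc _ ≤ _ := h2'
    _ ≤ ∑ l ∈ (rich S n Λ).filter (fun l => On P l), Λ * n := sum_le_sum fun l _ => hl l
    _ = _ := by rw [sum_const, nsmul_eq_mul]

open scoped Classical in
theorem select (S : Finset (Pt F)) (n Λ : ℝ) (hΛ : 2 ≤ Λ) (hn : Λ ^ 20 ≤ n)
    (hS : (#S : ℝ) ≤ n ^ 2) (hl : ∀ l : Ln F, (#(S.filter (fun z => On z l)) : ℝ) ≤ Λ * n)
    (hE : n ^ 4 ≤ Λ * #((S ×ˢ S).filter (fun p => adj S n Λ p.1 p.2))) :
    ∃ (l0 : Ln F) (P1 P2 P3 P4 : Pt F) (G : Finset (Pt F)), P1 ≠ P2 ∧ P1 ≠ P3 ∧ P2 ≠ P3 ∧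
      On P1 l0 ∧ On P2 l0 ∧ On P3 l0 ∧ ¬ On P4 l0 ∧
      (∀ s ∈ G, s ∈ S ∧ ¬ On s l0 ∧ adj S n Λ s P1 ∧ adj S n Λ s P2 ∧ adj S n Λ s P3 ∧
        adj S n Λ s P4) ∧ n ^ 2 ≤ Λ ^ 49 * #G := by
  have hΛ0 : 0 < Λ := by linarith
  have hΛ1 : 1 ≤ Λ := by linarith
  have h2pow : ∀ k : ℕ, (2 : ℝ) ^ k ≤ Λ ^ k := fun k => pow_le_pow_left₀ (by norm_num) hΛ k
  have hpown : ∀ k : ℕ, k ≤ 20 → Λ ^ k ≤ n := fun k hk => (pow_le_pow_right₀ hΛ1 hk).trans hn
  have hn0 : 0 < n := lt_of_lt_of_le (by positivity) hn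
  have hn2Λ : 2 * Λ ≤ n := by
    have := hpown 2 (by norm_num)
    nlinarith
  set deg : Pt F → ℝ := fun s => (#(S.filter (fun t => adj S n Λ s t)) : ℝ) with hdeg
  set S1 := S.filter (fun s => n ^ 2 / (2 * Λ) ≤ deg s) with hS1
  have hS1S : S1 ⊆ S := filter_subset _ _
  -- total degree
  have hdegsum : (#((S ×ˢ S).filter (fun p => adj S n Λ p.1 p.2)) : ℝ) = ∑ s ∈ S, deg s := by
    have : #((S ×ˢ S).filter (fun p => adj S n Λ p.1 p.2)) =
        ∑ s ∈ S, #(S.filter (fun t => adj S n Λ s t)) := by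
      rw [card_filter, sum_product]
      refine sum_congr rfl fun x _ => ?_
      rw [card_filter]
    rw [this, Nat.cast_sum]
  rw [hdegsum] at hE
  have hS1deg : n ^ 4 / (2 * Λ) ≤ ∑ s ∈ S1, deg s := by
    have hsplit : ∑ s ∈ S, deg s = ∑ s ∈ S1, deg s +
        ∑ s ∈ S.filter (fun s => ¬ (n ^ 2 / (2 * Λ) ≤ deg s)), deg s := by
      rw [hS1, sum_filter_add_sum_filter_not]
    have hrest : ∑ s ∈ S.filter (fun s => ¬ (n ^ 2 / (2 * Λ) ≤ deg s)), deg s
        ≤ n ^ 2 * (n ^ 2 / (2 * Λ)) := by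
      calc _ ≤ ∑ s ∈ S.filter (fun s => ¬ (n ^ 2 / (2 * Λ) ≤ deg s)), n ^ 2 / (2 * Λ) := by
            refine sum_le_sum fun x hx => ?_
            rw [mem_filter] at hx
            linarith [hx.2]
        _ = (#(S.filter (fun s => ¬ (n ^ 2 / (2 * Λ) ≤ deg s))) : ℝ) * (n ^ 2 / (2 * Λ)) := by
            rw [sum_const, nsmul_eq_mul]
        _ ≤ n ^ 2 * (n ^ 2 / (2 * Λ)) := by
            apply mul_le_mul_of_nonneg_right _ (by positivity)
            refine le_trans ?_ hS
            exact_mod_cast card_le_card (filter_subset _ _)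
    have h3 : n ^ 4 / Λ ≤ ∑ s ∈ S, deg s := by rw [div_le_iff₀ hΛ0]; linarith
    have h4 : n ^ 4 / Λ = n ^ 4 / (2 * Λ) + n ^ 2 * (n ^ 2 / (2 * Λ)) := by field_simp; ring
    linarith
  set deg1 : Pt F → ℝ := fun P => (#(S1.filter (fun s => adj S n Λ s P)) : ℝ) with hdeg1
  have hdeg1sum : ∑ P ∈ S, deg1 P = ∑ s ∈ S1, deg s := by
    have h1 : (∑ s ∈ S1, #(S.filter (fun t => adj S n Λ s t)))
        = ∑ P ∈ S, #(S1.filter (fun s => adj S n Λ s P)) :=
      sum_card_bipartiteAbove_eq_sum_card_bipartiteBelow (fun s t => adj S n Λ s t)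
    have h2 := congrArg (Nat.cast : ℕ → ℝ) h1
    rw [Nat.cast_sum, Nat.cast_sum] at h2
    exact h2.symm
  set rr : Pt F → ℝ := fun P => (#((rich S n Λ).filter (fun l => On P l)) : ℝ) with hrr
  have hdeg1le : ∀ P, deg1 P ≤ rr P * (Λ * n) := fun P => deg_le S n Λ hl S1 hS1S P
  have hdeg1nn : ∀ P, 0 ≤ deg1 P := fun P => by positivity
  have hCS : (∑ P ∈ S, deg1 P) ^ 2 ≤ #S * ∑ P ∈ S, deg1 P ^ 2 := sq_sum_le_card_mul_sum_sq
  have hsq : n ^ 6 / (4 * Λ ^ 2) ≤ ∑ P ∈ S, deg1 P ^ 2 := by
    have h1 : (n ^ 4 / (2 * Λ)) ^ 2 ≤ (∑ P ∈ S, deg1 P) ^ 2 := by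
      apply pow_le_pow_left₀ (by positivity)
      rw [hdeg1sum]; exact hS1deg
    have h2 : (n ^ 4 / (2 * Λ)) ^ 2 ≤ n ^ 2 * ∑ P ∈ S, deg1 P ^ 2 := by
      refine (h1.trans hCS).trans (mul_le_mul_of_nonneg_right hS ?_)
      exact sum_nonneg fun P _ => by positivity
    have h3 : n ^ 2 * (n ^ 6 / (4 * Λ ^ 2)) ≤ n ^ 2 * ∑ P ∈ S, deg1 P ^ 2 := by
      calc n ^ 2 * (n ^ 6 / (4 * Λ ^ 2)) = (n ^ 4 / (2 * Λ)) ^ 2 := by field_simp; ring
        _ ≤ _ := h2
    exact le_of_mul_le_mul_left h3 (by positivity)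
  have hsum5 : n ^ 5 / (4 * Λ ^ 3) ≤ ∑ P ∈ S, rr P * deg1 P := by
    have h1 : ∑ P ∈ S, deg1 P ^ 2 ≤ (Λ * n) * ∑ P ∈ S, rr P * deg1 P := by
      rw [mul_sum]
      refine sum_le_sum fun P _ => ?_
      have := mul_le_mul_of_nonneg_right (hdeg1le P) (hdeg1nn P)
      nlinarith
    have h2 : (Λ * n) * (n ^ 5 / (4 * Λ ^ 3)) ≤ (Λ * n) * ∑ P ∈ S, rr P * deg1 P := by
      calc (Λ * n) * (n ^ 5 / (4 * Λ ^ 3)) = n ^ 6 / (4 * Λ ^ 2) := by field_simp
        _ ≤ _ := hsq.trans h1
    exact le_of_mul_le_mul_left h2 (by positivity)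
  -- choose the line `l0`
  set ff : Ln F → ℝ := fun l => ∑ P ∈ S.filter (fun z => On z l), deg1 P with hff
  have hffsum : ∑ l ∈ rich S n Λ, ff l = ∑ P ∈ S, rr P * deg1 P := by
    simp only [hff, hrr]
    have : ∀ l, ∑ P ∈ S.filter (fun z => On z l), deg1 P
        = ∑ P ∈ S, if On P l then deg1 P else 0 := fun l => by rw [sum_filter]
    simp_rw [this]
    rw [sum_comm]
    refine sum_congr rfl fun P _ => ?_
    rw [← sum_filter, sum_const, nsmul_eq_mul]
  obtain ⟨l0, hl0, hffl0⟩ : ∃ l0 ∈ rich S n Λ, n ^ 5 / (4 * Λ ^ 3) ≤ 2 * Λ ^ 2 * n ^ 2 * ff l0 := by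
    by_contra hcon
    push Not at hcon
    have hpos : 0 < n ^ 5 / (4 * Λ ^ 3) := by positivity
    have hne : (rich S n Λ).Nonempty := by
      rw [nonempty_iff_ne_empty]
      intro h
      rw [← hffsum, h, sum_empty] at hsum5
      linarith
    have h1 : ∑ l ∈ rich S n Λ, 2 * Λ ^ 2 * n ^ 2 * ff l <
        ∑ l ∈ rich S n Λ, n ^ 5 / (4 * Λ ^ 3) := sum_lt_sum_of_nonempty hne hcon
    rw [← mul_sum, hffsum, sum_const, nsmul_eq_mul] at h1
    have h2 : (#(rich S n Λ) : ℝ) * (n ^ 5 / (4 * Λ ^ 3)) ≤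
        2 * Λ ^ 2 * n ^ 2 * (n ^ 5 / (4 * Λ ^ 3)) :=
      mul_le_mul_of_nonneg_right (rich_card S n Λ hΛ hn2Λ hS) hpos.le
    have h3 : 2 * Λ ^ 2 * n ^ 2 * (n ^ 5 / (4 * Λ ^ 3)) ≤
        2 * Λ ^ 2 * n ^ 2 * ∑ P ∈ S, rr P * deg1 P :=
      mul_le_mul_of_nonneg_left hsum5 (by positivity)
    linarith
  set Q1 := S.filter (fun z => On z l0) with hQ1
  have hQ1c : (#Q1 : ℝ) ≤ Λ * n := hl l0
  set dd : Pt F → ℝ := fun s => (#(Q1.filter (fun P => adj S n Λ s P)) : ℝ) with hdd
  have hddle : ∀ s, dd s ≤ Λ * n := by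
    intro s
    refine le_trans ?_ hQ1c
    simp only [hdd]
    exact_mod_cast card_le_card (filter_subset _ _)
  have hffdd : ff l0 = ∑ s ∈ S1, dd s := by
    have h1 : (∑ s ∈ S1, #(Q1.filter (fun t => adj S n Λ s t)))
        = ∑ P ∈ Q1, #(S1.filter (fun s => adj S n Λ s P)) :=
      sum_card_bipartiteAbove_eq_sum_card_bipartiteBelow (fun s t => adj S n Λ s t)
    have h2 := congrArg (Nat.cast : ℕ → ℝ) h1
    rw [Nat.cast_sum, Nat.cast_sum] at h2
    exact h2.symm
  have hff0 : n ^ 3 / (8 * Λ ^ 5) ≤ ∑ s ∈ S1, dd s := by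
    rw [← hffdd]
    have h2 : (2 * Λ ^ 2 * n ^ 2) * (n ^ 3 / (8 * Λ ^ 5)) ≤ (2 * Λ ^ 2 * n ^ 2) * ff l0 := by
      calc (2 * Λ ^ 2 * n ^ 2) * (n ^ 3 / (8 * Λ ^ 5)) = n ^ 5 / (4 * Λ ^ 3) := by field_simp; ring
        _ ≤ _ := hffl0
    exact le_of_mul_le_mul_left h2 (by positivity)
  -- the set `T0`
  set T0 := S1.filter (fun s => ¬ On s l0 ∧ n / Λ ^ 10 ≤ dd s) with hT0
  have hT0S1 : T0 ⊆ S1 := filter_subset _ _
  have hT0c : n ^ 2 ≤ Λ ^ 10 * #T0 := by
    have h1 : ∑ s ∈ S1, dd s ≤ #T0 * (Λ * n) + (Λ * n) * (Λ * n) + n ^ 2 * (n / Λ ^ 10) := by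
      have hb : ∀ s ∈ S1, dd s ≤ (if s ∈ T0 then Λ * n else 0) + (if On s l0 then Λ * n else 0)
          + n / Λ ^ 10 := by
        intro s hs
        have hp1 : 0 ≤ n / Λ ^ 10 := by positivity
        have hp2 : 0 ≤ Λ * n := by positivity
        by_cases h1 : On s l0
        · rw [if_pos h1]
          have : (0 : ℝ) ≤ if s ∈ T0 then Λ * n else 0 := by split_ifs <;> positivity
          linarith [hddle s]
        · by_cases h2 : n / Λ ^ 10 ≤ dd s
          · rw [if_pos (mem_filter.mpr ⟨hs, h1, h2⟩), if_neg h1]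
            linarith [hddle s]
          · push Not at h2
            have h3 : (0 : ℝ) ≤ if s ∈ T0 then Λ * n else 0 := by split_ifs <;> positivity
            rw [if_neg h1]
            linarith
      calc ∑ s ∈ S1, dd s ≤ ∑ s ∈ S1, ((if s ∈ T0 then Λ * n else 0) +
            (if On s l0 then Λ * n else 0) + n / Λ ^ 10) := sum_le_sum hb
        _ = #(S1.filter (fun s => s ∈ T0)) * (Λ * n) + #(S1.filter (fun s => On s l0)) * (Λ * n)
            + #S1 * (n / Λ ^ 10) := by
            rw [sum_add_distrib, sum_add_distrib, ← sum_filter, ← sum_filter, sum_const, sum_const,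
              sum_const, nsmul_eq_mul, nsmul_eq_mul, nsmul_eq_mul]
        _ ≤ _ := by
            have e1 : (#(S1.filter (fun s => s ∈ T0)) : ℝ) ≤ #T0 := by
              have : S1.filter (fun s => s ∈ T0) ⊆ T0 := fun x hx => (mem_filter.mp hx).2
              exact_mod_cast card_le_card this
            have e2 : (#(S1.filter (fun s => On s l0)) : ℝ) ≤ Λ * n := by
              refine le_trans ?_ hQ1c
              exact_mod_cast card_le_card (filter_subset_filter _ hS1S)
            have e3 : (#S1 : ℝ) ≤ n ^ 2 := by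
              refine le_trans ?_ hS
              exact_mod_cast card_le_card hS1S
            have p1 : 0 ≤ Λ * n := by positivity
            have p2 : 0 ≤ n / Λ ^ 10 := by positivity
            have f1 := mul_le_mul_of_nonneg_right e1 p1
            have f2 := mul_le_mul_of_nonneg_right e2 p1
            have f3 := mul_le_mul_of_nonneg_right e3 p2
            linarith
    -- numeric: the last two terms are at most half of `n^3/(8Λ^5)`
    have h2 : n ^ 2 * (n / Λ ^ 10) ≤ n ^ 3 / (32 * Λ ^ 5) := by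
      have : n ^ 2 * (n / Λ ^ 10) = n ^ 3 / Λ ^ 10 := by ring
      rw [this]
      apply div_le_div_of_nonneg_left (by positivity) (by positivity)
      calc 32 * Λ ^ 5 = 2 ^ 5 * Λ ^ 5 := by norm_num
        _ ≤ Λ ^ 5 * Λ ^ 5 := mul_le_mul_of_nonneg_right (h2pow 5) (by positivity)
        _ = Λ ^ 10 := by ring
    have h3 : (Λ * n) * (Λ * n) ≤ n ^ 3 / (32 * Λ ^ 5) := by
      rw [le_div_iff₀ (by positivity)]
      calc Λ * n * (Λ * n) * (32 * Λ ^ 5) = 2 ^ 5 * (Λ ^ 7 * n ^ 2) := by ring
        _ ≤ Λ ^ 5 * (Λ ^ 7 * n ^ 2) := mul_le_mul_of_nonneg_right (h2pow 5) (by positivity)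
        _ = Λ ^ 12 * n ^ 2 := by ring
        _ ≤ n * n ^ 2 := mul_le_mul_of_nonneg_right (hpown 12 (by norm_num)) (by positivity)
        _ = n ^ 3 := by ring
    have h4 : n ^ 3 / (16 * Λ ^ 5) ≤ #T0 * (Λ * n) := by
      have e : n ^ 3 / (8 * Λ ^ 5) = n ^ 3 / (16 * Λ ^ 5) + n ^ 3 / (32 * Λ ^ 5)
          + n ^ 3 / (32 * Λ ^ 5) := by field_simp; ring
      linarith
    rw [div_le_iff₀ (by positivity)] at h4
    have h5 : n * n ^ 2 ≤ n * (Λ ^ 10 * #T0) := by
      calc n * n ^ 2 = n ^ 3 := by ring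
        _ ≤ #T0 * (Λ * n) * (16 * Λ ^ 5) := h4
        _ = 2 ^ 4 * (Λ ^ 6 * #T0 * n) := by ring
        _ ≤ Λ ^ 4 * (Λ ^ 6 * #T0 * n) := mul_le_mul_of_nonneg_right (h2pow 4) (by positivity)
        _ = _ := by ring
    exact le_of_mul_le_mul_left h5 hn0
  have hne_of : ∀ (T : Finset (Pt F)) (c : ℝ), 0 ≤ c → n ^ 2 ≤ c * #T → T.Nonempty := by
    intro T c _ h
    rw [nonempty_iff_ne_empty]
    rintro rfl
    rw [card_empty, Nat.cast_zero, mul_zero] at h
    have : 0 < n ^ 2 := by positivity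
    linarith
  have hδ : n / Λ ^ 11 ≤ n / Λ ^ 10 - 2 := by
    have h1 : Λ ^ 11 * 2 ≤ n := by
      calc Λ ^ 11 * 2 ≤ Λ ^ 11 * Λ := mul_le_mul_of_nonneg_left hΛ (by positivity)
        _ = Λ ^ 12 := by ring
        _ ≤ n := hpown 12 (by norm_num)
    have h2 : 2 ≤ n / Λ ^ 11 := by rw [le_div_iff₀ (by positivity)]; linarith
    have h3 : n / Λ ^ 10 = Λ * (n / Λ ^ 11) := by field_simp
    rw [h3]
    nlinarith
  have hδ0 : 0 < n / Λ ^ 11 := by positivity
  -- P1
  obtain ⟨P1, hP1, hc1⟩ := pigeon T0 Q1 (fun s P => adj S n Λ s P) (Λ * n) (n / Λ ^ 11) hQ1c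
    (hne_of T0 _ (by positivity) hT0c) hδ0 (by
      intro t ht
      have := (mem_filter.mp ht).2.2
      simp only [hdd] at this
      linarith)
  set T1 := T0.filter (fun s => adj S n Λ s P1) with hT1
  have step : ∀ (A B : ℝ), A * (n / Λ ^ 11) ≤ Λ * n * B → A ≤ Λ ^ 12 * B := by
    intro A B h
    rw [mul_div_assoc', div_le_iff₀ (by positivity)] at h
    have h2 : A * n ≤ (Λ ^ 12 * B) * n := by
      calc A * n ≤ _ := h
        _ = _ := by ring
    exact le_of_mul_le_mul_right h2 hn0
  have hT1c : n ^ 2 ≤ Λ ^ 22 * #T1 := by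
    calc n ^ 2 ≤ Λ ^ 10 * #T0 := hT0c
      _ ≤ Λ ^ 10 * (Λ ^ 12 * #T1) := mul_le_mul_of_nonneg_left (step _ _ hc1) (by positivity)
      _ = _ := by ring
  have hT1T0 : T1 ⊆ T0 := filter_subset _ _
  -- P2
  have herase : ∀ (Q : Finset (Pt F)) (P s : Pt F), (#(Q.filter (fun t => adj S n Λ s t)) : ℝ) - 1 ≤
      #((Q.erase P).filter (fun t => adj S n Λ s t)) := by
    intro Q P s
    have h1 : (Q.erase P).filter (fun t => adj S n Λ s t) =
        (Q.filter (fun t => adj S n Λ s t)).erase P := by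
      ext t; simp only [mem_filter, mem_erase]; tauto
    rw [h1]
    have h3 : #(Q.filter (fun t => adj S n Λ s t)) ≤
      #((Q.filter (fun t => adj S n Λ s t)).erase P) + 1 :=
      Nat.le_add_of_sub_le pred_card_le_card_erase
    have h3' : (#(Q.filter (fun t => adj S n Λ s t)) : ℝ) ≤
        #((Q.filter (fun t => adj S n Λ s t)).erase P) + 1 := by exact_mod_cast h3
    linarith
  obtain ⟨P2, hP2, hc2⟩ := pigeon T1 (Q1.erase P1) (fun s P => adj S n Λ s P) (Λ * n) (n / Λ ^ 11)
    (le_trans (by exact_mod_cast card_le_card (erase_subset _ _)) hQ1c)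
    (hne_of T1 _ (by positivity) hT1c) hδ0 (by
      intro t ht
      have h1 := (mem_filter.mp (hT1T0 ht)).2.2
      simp only [hdd] at h1
      have h2 := herase Q1 P1 t
      linarith)
  set T2 := T1.filter (fun s => adj S n Λ s P2) with hT2
  have hT2T1 : T2 ⊆ T1 := filter_subset _ _
  have hT2c : n ^ 2 ≤ Λ ^ 34 * #T2 := by
    calc n ^ 2 ≤ Λ ^ 22 * #T1 := hT1c
      _ ≤ Λ ^ 22 * (Λ ^ 12 * #T2) := mul_le_mul_of_nonneg_left (step _ _ hc2) (by positivity)
      _ = _ := by ring
  -- P3
  obtain ⟨P3, hP3, hc3⟩ := pigeon T2 ((Q1.erase P1).erase P2) (fun s P => adj S n Λ s P) (Λ * n)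
    (n / Λ ^ 11)
    (le_trans (by exact_mod_cast card_le_card ((erase_subset _ _).trans (erase_subset _ _))) hQ1c)
    (hne_of T2 _ (by positivity) hT2c) hδ0 (by
      intro t ht
      have h1 := (mem_filter.mp (hT1T0 (hT2T1 ht))).2.2
      simp only [hdd] at h1
      have h2 := herase Q1 P1 t
      have h3 := herase (Q1.erase P1) P2 t
      linarith)
  set T3 := T2.filter (fun s => adj S n Λ s P3) with hT3
  have hT3T2 : T3 ⊆ T2 := filter_subset _ _
  have hT3c : n ^ 2 ≤ Λ ^ 46 * #T3 := by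
    calc n ^ 2 ≤ Λ ^ 34 * #T2 := hT2c
      _ ≤ Λ ^ 34 * (Λ ^ 12 * #T3) := mul_le_mul_of_nonneg_left (step _ _ hc3) (by positivity)
      _ = _ := by ring
  -- P4
  obtain ⟨P4, hP4, hc4⟩ := pigeon T3 (S.filter (fun z => ¬ On z l0)) (fun s P => adj S n Λ s P)
    (n ^ 2) (n ^ 2 / Λ ^ 3)
    (le_trans (by exact_mod_cast card_le_card (filter_subset _ _)) hS)
    (hne_of T3 _ (by positivity) hT3c) (by positivity) (by
      intro t ht
      have h0 := hT1T0 (hT2T1 (hT3T2 ht))
      have h1 : n ^ 2 / (2 * Λ) ≤ deg t := (mem_filter.mp (hT0S1 h0)).2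
      have h2 : deg t ≤ #((S.filter (fun z => ¬ On z l0)).filter (fun P => adj S n Λ t P)) + dd t := by
        simp only [hdeg, hdd, hQ1]
        have h3 : S.filter (fun P => adj S n Λ t P) =
            (S.filter (fun z => ¬ On z l0)).filter (fun P => adj S n Λ t P) ∪
            (S.filter (fun z => On z l0)).filter (fun P => adj S n Λ t P) := by
          ext z
          simp only [mem_filter, mem_union]
          tauto
        rw [h3]
        exact_mod_cast card_union_le _ _
      have h3 := hddle t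
      have h4 : n ^ 2 / Λ ^ 3 ≤ n ^ 2 / (2 * Λ) - Λ * n := by
        have e1 : n ^ 2 / (2 * Λ) ≥ 2 * (n ^ 2 / Λ ^ 3) := by
          have : 2 * (n ^ 2 / Λ ^ 3) = n ^ 2 / (Λ ^ 3 / 2) := by field_simp
          rw [this]
          apply div_le_div_of_nonneg_left (by positivity) (by positivity)
          have : (2 : ℝ) ^ 2 ≤ Λ ^ 2 := h2pow 2
          nlinarith
        have e2 : Λ * n ≤ n ^ 2 / Λ ^ 3 := by
          rw [le_div_iff₀ (by positivity)]
          calc Λ * n * Λ ^ 3 = Λ ^ 4 * n := by ring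
            _ ≤ n * n := mul_le_mul_of_nonneg_right (hpown 4 (by norm_num)) hn0.le
            _ = n ^ 2 := by ring
        linarith
      linarith)
  set T4 := T3.filter (fun s => adj S n Λ s P4) with hT4
  have hT4c : n ^ 2 ≤ Λ ^ 49 * #T4 := by
    have h1 : (#T3 : ℝ) ≤ Λ ^ 3 * #T4 := by
      rw [mul_div_assoc', div_le_iff₀ (by positivity)] at hc4
      have h2 : (#T3 : ℝ) * n ^ 2 ≤ (Λ ^ 3 * #T4) * n ^ 2 := by
        calc _ ≤ _ := hc4
          _ = _ := by ring
      exact le_of_mul_le_mul_right h2 (by positivity)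
    calc n ^ 2 ≤ Λ ^ 46 * #T3 := hT3c
      _ ≤ Λ ^ 46 * (Λ ^ 3 * #T4) := mul_le_mul_of_nonneg_left h1 (by positivity)
      _ = _ := by ring
  rw [mem_erase] at hP2 hP3
  rw [mem_erase] at hP3
  refine ⟨l0, P1, P2, P3, P4, T4, hP2.1.symm, hP3.2.1.symm, hP3.1.symm, (mem_filter.mp hP1).2,
    (mem_filter.mp hP2.2).2, (mem_filter.mp hP3.2.2).2, (mem_filter.mp hP4).2, ?_, hT4c⟩
  intro s hs
  rw [hT4, mem_filter, hT3, mem_filter, hT2, mem_filter, hT1, mem_filter, hT0, mem_filter] at hs
  obtain ⟨⟨⟨⟨⟨h1, h2, _⟩, a1⟩, a2⟩, a3⟩, a4⟩ := hs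
  exact ⟨hS1S h1, h2, a1, a2, a3, a4⟩

end Crest.Agent.R034.BKT
end

-- ▼ part R034/R1
section

/-! Row 34, module M5: `SpecR1` (degree regularity). -/

set_option autoImplicit false
set_option linter.unusedSectionVars false

namespace Crest.Agent.R034.M5

open Finset Crest.Agent.R034

variable {F : Type} [Field F] [Fintype F] [DecidableEq F]

/-- lines through `z` -/
def linesOn (z : Pt F) : Finset (Ln F) := univ.filter (fun l => On z l)

theorem mem_linesOn {z : Pt F} {l : Ln F} : l ∈ linesOn z ↔ On z l := by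
  simp [linesOn]

theorem card_linesOn (z : Pt F) : (linesOn z).card = ord F := by
  obtain ⟨i, y⟩ := z
  have : (linesOn (i, y)).card = (univ : Finset F).card := by
    symm
    cases i with
    | none =>
      refine Finset.card_bij (fun b _ => ((y, b) : Ln F)) ?_ ?_ ?_
      · intro b _
        rw [mem_linesOn]
        rfl
      · intro b _ b' _ h
        exact (Prod.ext_iff.1 h).2
      · intro l hl
        rw [mem_linesOn] at hl
        have hl' : l.1 = y := hl
        exact ⟨l.2, Finset.mem_univ _, by rw [← hl']⟩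
    | some x =>
      refine Finset.card_bij (fun m _ => ((m, y - m * x) : Ln F)) ?_ ?_ ?_
      · intro b _
        rw [mem_linesOn]
        show b * x + (y - b * x) = y
        ring
      · intro b _ b' _ h
        exact (Prod.ext_iff.1 h).1
      · intro l hl
        rw [mem_linesOn] at hl
        have hl' : l.1 * x + l.2 = y := hl
        exact ⟨l.1, Finset.mem_univ _, by rw [← hl']; ext <;> simp⟩
  rw [this, Finset.card_univ]

/-- two distinct lines through `z` differ in every other position -/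
theorem val_injOn (z : Pt F) {i : Option F} (hi : i ≠ z.1) {l l' : Ln F} (hl : On z l)
    (hl' : On z l') (h : val l i = val l' i) : l = l' := by
  obtain ⟨j, y⟩ := z
  obtain ⟨m, b⟩ := l
  obtain ⟨m', b'⟩ := l'
  cases i with
  | none =>
    cases j with
    | none => exact (hi rfl).elim
    | some x =>
      simp only [On, val] at hl hl' h
      subst h
      have : b = b' := by linear_combination hl - hl'
      rw [this]
  | some x' =>
    cases j with
    | none =>
      simp only [On, val] at hl hl' h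
      subst hl
      subst hl'
      have : b = b' := by linear_combination h
      rw [this]
    | some x =>
      have hx : x' - x ≠ 0 := fun e => hi (by rw [sub_eq_zero.1 e])
      simp only [On, val] at hl hl' h
      have h1 : (m - m') * (x' - x) = 0 := by linear_combination h - hl + hl'
      have h2 : m = m' := by
        rcases mul_eq_zero.1 h1 with h3 | h3
        · exact sub_eq_zero.1 h3
        · exact (hx h3).elim
      subst h2
      have : b = b' := by linear_combination hl - hl'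
      rw [this]

theorem avoidsOff_iff (R : RR F) (z : Pt F) (l : Ln F) :
    AvoidsOff (Kset R) z l ↔ ∀ i, i ≠ z.1 → ∀ r, R i r ≠ val l i := by
  unfold AvoidsOff Kset
  simp

/-- number of `R` for which a fixed line is good off the position of `z` -/
theorem card_avoid (z : Pt F) (l : Ln F) :
    (univ.filter (fun R : RR F => AvoidsOff (Kset R) z l)).card =
      (ord F) ^ kap * ((ord F - 1) ^ kap) ^ (ord F) := by
  classical
  have h1 : (univ.filter (fun R : RR F => AvoidsOff (Kset R) z l)) =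
      Fintype.piFinset (fun i : Option F =>
        Fintype.piFinset (fun _ : Fin kap => if i = z.1 then univ else univ.erase (val l i))) := by
    ext R
    simp only [Finset.mem_filter, Finset.mem_univ, true_and, avoidsOff_iff,
      Fintype.mem_piFinset]
    constructor
    · intro h i r
      by_cases hi : i = z.1
      · simp [hi]
      · simp [hi, h i hi r]
    · intro h i hi r
      have := h i r
      simpa [hi] using this
  rw [h1, Fintype.card_piFinset]
  have h2 : ∀ i : Option F, (Fintype.piFinset (fun _ : Fin kap =>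
      if i = z.1 then (univ : Finset F) else univ.erase (val l i))).card =
      if i = z.1 then (ord F) ^ kap else (ord F - 1) ^ kap := by
    intro i
    rw [Fintype.card_piFinset]
    by_cases hi : i = z.1
    · simp [hi]
    · simp [hi, Finset.card_erase_of_mem]
  rw [Finset.prod_congr rfl (fun i _ => h2 i)]
  rw [← Finset.mul_prod_erase univ _ (Finset.mem_univ z.1)]
  rw [if_pos rfl]
  congr 1
  rw [Finset.prod_congr rfl (g := fun _ => (ord F - 1) ^ kap)
    (fun i hi => by rw [if_neg (Finset.ne_of_mem_erase hi)])]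
  rw [Finset.prod_const, Finset.card_erase_of_mem (Finset.mem_univ _)]
  simp

theorem one_lt_ord : 1 < ord F := Fintype.one_lt_card

/-- the mean of `N0` -/
theorem mean_N0 (z : Pt F) :
    McD.mean (X := fun _ : Option F => Fin kap → F) (fun R => (N0 R z : ℝ)) = D0 (ord F) := by
  classical
  have hq : (0 : ℝ) < ord F := by exact_mod_cast (zero_lt_one.trans one_lt_ord)
  have hq1 : 1 ≤ ord F := one_lt_ord.le
  have h1 : ∑ R : RR F, (N0 R z : ℝ) =
      (ord F : ℝ) * ((ord F : ℝ) ^ kap * (((ord F : ℝ) - 1) ^ kap) ^ (ord F)) := by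
    have h2 : ∀ R : RR F, (N0 R z : ℝ) =
        ∑ l ∈ linesOn z, if AvoidsOff (Kset R) z l then (1 : ℝ) else 0 := by
      intro R
      rw [← Finset.sum_filter, Finset.sum_const, nsmul_eq_mul, mul_one]
      congr 2
      unfold N0 linesOn
      rw [Finset.filter_filter]
    simp_rw [h2]
    rw [Finset.sum_comm]
    have h3 : ∀ l ∈ linesOn z, ∑ R : RR F, (if AvoidsOff (Kset R) z l then (1 : ℝ) else 0) =
        ((ord F : ℝ) ^ kap * (((ord F : ℝ) - 1) ^ kap) ^ (ord F)) := by
      intro l _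
      rw [← Finset.sum_filter, Finset.sum_const, nsmul_eq_mul, mul_one, card_avoid]
      push_cast [Nat.cast_sub hq1]
      rfl
    rw [Finset.sum_congr rfl h3, Finset.sum_const, card_linesOn, nsmul_eq_mul]
  have hcard : (Fintype.card (∀ _ : Option F, Fin kap → F) : ℝ) =
      ((ord F : ℝ) ^ kap) ^ (ord F + 1) := by
    rw [Fintype.card_fun, Fintype.card_fun, Fintype.card_option, Fintype.card_fin]
    push_cast
    rfl
  unfold McD.mean
  rw [hcard]
  have h4 : ∑ R : (∀ _ : Option F, Fin kap → F), (N0 R z : ℝ) = _ := h1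
  rw [h4]
  unfold D0
  have h5 : (1 - 1 / (ord F : ℝ)) = ((ord F : ℝ) - 1) / ord F := by field_simp
  rw [h5, div_pow, pow_succ ((ord F : ℝ) ^ kap), ← pow_mul, ← pow_mul]
  have h6 : (ord F : ℝ) ^ (kap * ord F) ≠ 0 := pow_ne_zero _ hq.ne'
  have h7 : (ord F : ℝ) ^ kap ≠ 0 := pow_ne_zero _ hq.ne'
  field_simp

/-- bounded differences -/
theorem N0_diff (z : Pt F) (i : Option F) (R : RR F) (y : Fin kap → F) :
    |(N0 R z : ℝ) - (N0 (Function.update R i y) z : ℝ)| ≤ kap := by
  classical
  set G : Finset (Ln F) := univ.filter (fun l : Ln F =>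
    On z l ∧ ∀ j, j ≠ z.1 → j ≠ i → ∀ r, R j r ≠ val l j) with hG
  have key : ∀ S : RR F, (∀ j, j ≠ i → S j = R j) → N0 S z ≤ G.card ∧ G.card ≤ N0 S z + kap := by
    intro S hS
    have hsub : (univ.filter (fun l : Ln F => On z l ∧ AvoidsOff (Kset S) z l)) ⊆ G := by
      intro l hl
      rw [Finset.mem_filter] at hl
      rw [hG, Finset.mem_filter]
      refine ⟨Finset.mem_univ _, hl.2.1, fun j hj hji r => ?_⟩
      have := (avoidsOff_iff S z l).1 hl.2.2 j hj r
      rwa [hS j hji] at this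
    refine ⟨Finset.card_le_card hsub, ?_⟩
    -- the bad lines
    have hbad : (G \ (univ.filter (fun l : Ln F => On z l ∧ AvoidsOff (Kset S) z l))).card ≤
        kap := by
      by_cases hi : i = z.1
      · have : G \ (univ.filter (fun l : Ln F => On z l ∧ AvoidsOff (Kset S) z l)) = ∅ := by
          rw [Finset.sdiff_eq_empty_iff_subset]
          intro l hl
          rw [hG, Finset.mem_filter] at hl
          rw [Finset.mem_filter]
          refine ⟨Finset.mem_univ _, hl.2.1, (avoidsOff_iff S z l).2 fun j hj r => ?_⟩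
          have hji : j ≠ i := by rw [hi]; exact hj
          rw [hS j hji]
          exact hl.2.2 j hj hji r
        rw [this]
        simp
      · have hmap : ∀ l ∈ G \ (univ.filter (fun l : Ln F => On z l ∧ AvoidsOff (Kset S) z l)),
            val l i ∈ (univ : Finset (Fin kap)).image (S i) := by
          intro l hl
          rw [Finset.mem_sdiff, hG, Finset.mem_filter, Finset.mem_filter] at hl
          obtain ⟨⟨_, hon, hl1⟩, hl2⟩ := hl
          by_contra hne
          apply hl2
          refine ⟨Finset.mem_univ _, hon, (avoidsOff_iff S z l).2 fun j hj r => ?_⟩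
          by_cases hji : j = i
          · subst hji
            intro he
            apply hne
            rw [Finset.mem_image]
            exact ⟨r, Finset.mem_univ _, he⟩
          · rw [hS j hji]
            exact hl1 j hj hji r
        have hinj : Set.InjOn (fun l : Ln F => val l i)
            (G \ (univ.filter (fun l : Ln F => On z l ∧ AvoidsOff (Kset S) z l)) :
              Finset (Ln F)) := by
          intro l hl l' hl' h
          have h1 : On z l := by
            have := (Finset.mem_sdiff.1 (Finset.mem_coe.1 hl)).1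
            rw [hG, Finset.mem_filter] at this
            exact this.2.1
          have h2 : On z l' := by
            have := (Finset.mem_sdiff.1 (Finset.mem_coe.1 hl')).1
            rw [hG, Finset.mem_filter] at this
            exact this.2.1
          exact val_injOn z hi h1 h2 h
        have := Finset.card_le_card_of_injOn (fun l : Ln F => val l i) hmap hinj
        refine this.trans (Finset.card_image_le.trans ?_)
        simp
    have := Finset.card_sdiff_add_card_eq_card hsub
    have h3 : (univ.filter (fun l : Ln F => On z l ∧ AvoidsOff (Kset S) z l)).card = N0 S z := rfl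
    omega
  have k1 := key R (fun _ _ => rfl)
  have k2 := key (Function.update R i y) (fun j hj => Function.update_of_ne hj _ _)
  rw [abs_le]
  have a1 : (N0 R z : ℝ) ≤ G.card := by exact_mod_cast k1.1
  have a2 : (G.card : ℝ) ≤ N0 R z + kap := by exact_mod_cast k1.2
  have a3 : (N0 (Function.update R i y) z : ℝ) ≤ G.card := by exact_mod_cast k2.1
  have a4 : (G.card : ℝ) ≤ N0 (Function.update R i y) z + kap := by exact_mod_cast k2.2
  constructor <;> linarith

theorem exists_k0 (N : ℕ) : ∃ k0 : ℕ, 1 ≤ k0 ∧ ∀ k : ℕ, k0 ≤ k →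
    40 * ((k : ℝ) + 1) ^ (2 * N) * Real.exp (-((k : ℝ) ^ 2 / 1000000)) ≤ 1 := by
  have h1 : Filter.Tendsto (fun k : ℕ => (k : ℝ) / 1000000) Filter.atTop Filter.atTop :=
    Filter.Tendsto.atTop_div_const (by norm_num) tendsto_natCast_atTop_atTop
  have h2 := (Real.tendsto_pow_mul_exp_neg_atTop_nhds_zero (2 * N)).comp h1
  have hc : (0 : ℝ) < 1 / (40 * 2000000 ^ (2 * N)) := by positivity
  have h3 := h2.eventually (ge_mem_nhds hc)
  obtain ⟨k1, hk1⟩ := Filter.eventually_atTop.1 h3
  refine ⟨max 1 k1, le_max_left _ _, fun k hk => ?_⟩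
  have hk1' := hk1 k ((le_max_right _ _).trans hk)
  have hk0 : (1 : ℝ) ≤ k := by exact_mod_cast (le_max_left _ _).trans hk
  simp only [Function.comp_apply] at hk1'
  have e1 : ((k : ℝ) + 1) ^ (2 * N) ≤ 2000000 ^ (2 * N) * ((k : ℝ) / 1000000) ^ (2 * N) := by
    rw [← mul_pow]
    apply pow_le_pow_left₀ (by positivity)
    linarith
  have e2 : Real.exp (-((k : ℝ) ^ 2 / 1000000)) ≤ Real.exp (-((k : ℝ) / 1000000)) := by
    apply Real.exp_le_exp.2
    have : (k : ℝ) ≤ (k : ℝ) ^ 2 := by nlinarith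
    linarith [div_le_div_of_nonneg_right this (by norm_num : (0 : ℝ) ≤ 1000000)]
  calc 40 * ((k : ℝ) + 1) ^ (2 * N) * Real.exp (-((k : ℝ) ^ 2 / 1000000))
      ≤ 40 * (2000000 ^ (2 * N) * ((k : ℝ) / 1000000) ^ (2 * N)) *
          Real.exp (-((k : ℝ) / 1000000)) := by
        apply mul_le_mul _ e2 (Real.exp_pos _).le (by positivity)
        exact mul_le_mul_of_nonneg_left e1 (by norm_num)
    _ = (40 * 2000000 ^ (2 * N)) * (((k : ℝ) / 1000000) ^ (2 * N) *
          Real.exp (-((k : ℝ) / 1000000))) := by ring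
    _ ≤ (40 * 2000000 ^ (2 * N)) * (1 / (40 * 2000000 ^ (2 * N))) :=
        mul_le_mul_of_nonneg_left hk1' (by positivity)
    _ = 1 := by field_simp

/-- the bad set for one point -/
theorem card_bad (z : Pt F) (s : ℝ) (hs : 0 ≤ s) :
    ((univ.filter (fun R : RR F => ¬ |(N0 R z : ℝ) - D0 (ord F)| ≤ s)).card : ℝ) ≤
      2 * Real.exp (-2 * s ^ 2 / ((ord F + 1) * (kap : ℝ) ^ 2)) * Fintype.card (RR F) := by
  classical
  have hd : ∀ (i : Option F) (R : ∀ _ : Option F, Fin kap → F) (y : Fin kap → F),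
      |(fun R : (∀ _ : Option F, Fin kap → F) => (N0 R z : ℝ)) R -
        (fun R : (∀ _ : Option F, Fin kap → F) => (N0 R z : ℝ)) (Function.update R i y)| ≤
        (fun _ : Option F => (kap : ℝ)) i := fun i R y => N0_diff z i R y
  have hu := McD.card_upper_tail (X := fun _ : Option F => Fin kap → F)
    (fun R => (N0 R z : ℝ)) (fun _ => (kap : ℝ)) hd s hs
  have hl := McD.card_lower_tail (X := fun _ : Option F => Fin kap → F)
    (fun R => (N0 R z : ℝ)) (fun _ => (kap : ℝ)) hd s hs
  rw [mean_N0] at hu hl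
  have hsum : ∑ _i : Option F, (kap : ℝ) ^ 2 = (ord F + 1) * (kap : ℝ) ^ 2 := by
    rw [Finset.sum_const, nsmul_eq_mul, Finset.card_univ, Fintype.card_option]
    push_cast
    rfl
  rw [hsum] at hu hl
  have hsub : (univ.filter (fun R : RR F => ¬ |(N0 R z : ℝ) - D0 (ord F)| ≤ s)) ⊆
      (univ.filter (fun R : RR F => D0 (ord F) + s ≤ (N0 R z : ℝ))) ∪
        (univ.filter (fun R : RR F => (N0 R z : ℝ) ≤ D0 (ord F) - s)) := by
    intro R hR
    rw [Finset.mem_filter, not_le, lt_abs] at hR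
    rw [Finset.mem_union, Finset.mem_filter, Finset.mem_filter]
    rcases hR.2 with h | h
    · left; exact ⟨Finset.mem_univ _, by linarith⟩
    · right; exact ⟨Finset.mem_univ _, by linarith⟩
  have h1 := (Finset.card_le_card hsub).trans (Finset.card_union_le _ _)
  have h2 : ((univ.filter (fun R : RR F => ¬ |(N0 R z : ℝ) - D0 (ord F)| ≤ s)).card : ℝ) ≤
      ((univ.filter (fun R : RR F => D0 (ord F) + s ≤ (N0 R z : ℝ))).card : ℝ) +
        ((univ.filter (fun R : RR F => (N0 R z : ℝ) ≤ D0 (ord F) - s)).card : ℝ) := by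
    exact_mod_cast h1
  refine h2.trans ?_
  have h3 : 2 * Real.exp (-2 * s ^ 2 / ((ord F + 1) * (kap : ℝ) ^ 2)) * (Fintype.card (RR F) : ℝ) =
      Real.exp (-2 * s ^ 2 / ((ord F + 1) * (kap : ℝ) ^ 2)) * (Fintype.card (RR F) : ℝ) +
      Real.exp (-2 * s ^ 2 / ((ord F + 1) * (kap : ℝ) ^ 2)) * (Fintype.card (RR F) : ℝ) := by ring
  rw [h3]
  exact add_le_add hu hl

end Crest.Agent.R034.M5

namespace Crest.Agent.R034

open Finset M5

theorem specR1 : SpecR1 := by
  classical
  intro N hN
  obtain ⟨k0, hk01, hk0⟩ := exists_k0 N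
  refine ⟨(k0 + 1) ^ N, ?_⟩
  intro F _ _ _ hq k hk
  have hkk : k0 ≤ k := by
    by_contra hlt
    rw [not_le] at hlt
    have h1 : (k + 1) ^ N ≤ (k0 + 1) ^ N := Nat.pow_le_pow_left (by omega) N
    have h2 := hk.2
    omega
  have hkb := hk0 k hkk
  have hk1 : 1 ≤ k := hk01.trans hkk
  refine ⟨univ.biUnion (fun z : Pt F => univ.filter (fun R : RR F =>
    ¬ |(N0 R z : ℝ) - D0 (ord F)| ≤ k * Real.sqrt (ord F))), ?_, ?_⟩
  · intro R hR z
    by_contra h
    exact hR (Finset.mem_biUnion.2 ⟨z, Finset.mem_univ _,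
      Finset.mem_filter.2 ⟨Finset.mem_univ _, h⟩⟩)
  · have hq1 : (1 : ℝ) ≤ ord F := by exact_mod_cast (one_lt_ord (F := F)).le
    have hs : 0 ≤ (k : ℝ) * Real.sqrt (ord F) := by positivity
    have hcardPt : (Fintype.card (Pt F) : ℝ) = (ord F + 1) * ord F := by
      rw [Fintype.card_prod, Fintype.card_option]
      push_cast
      rfl
    have h1 : ((univ.biUnion (fun z : Pt F => univ.filter (fun R : RR F =>
        ¬ |(N0 R z : ℝ) - D0 (ord F)| ≤ k * Real.sqrt (ord F)))).card : ℝ) ≤
        ∑ z : Pt F, (2 * Real.exp (-2 * (k * Real.sqrt (ord F)) ^ 2 /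
          ((ord F + 1) * (kap : ℝ) ^ 2)) * Fintype.card (RR F)) := by
      have h0 : ((univ.biUnion (fun z : Pt F => univ.filter (fun R : RR F =>
          ¬ |(N0 R z : ℝ) - D0 (ord F)| ≤ k * Real.sqrt (ord F)))).card : ℝ) ≤
          ∑ z : Pt F, ((univ.filter (fun R : RR F =>
            ¬ |(N0 R z : ℝ) - D0 (ord F)| ≤ k * Real.sqrt (ord F))).card : ℝ) := by
        have := Finset.card_biUnion_le (s := (univ : Finset (Pt F)))
          (t := fun z : Pt F => univ.filter (fun R : RR F =>
            ¬ |(N0 R z : ℝ) - D0 (ord F)| ≤ k * Real.sqrt (ord F)))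
        exact_mod_cast this
      exact h0.trans (Finset.sum_le_sum fun z _ => card_bad z _ hs)
    rw [Finset.sum_const, nsmul_eq_mul, Finset.card_univ, hcardPt] at h1
    have hexp : Real.exp (-2 * (k * Real.sqrt (ord F)) ^ 2 / ((ord F + 1) * (kap : ℝ) ^ 2)) ≤
        Real.exp (-((k : ℝ) ^ 2 / 1000000)) := by
      apply Real.exp_le_exp.2
      rw [mul_pow, Real.sq_sqrt (by positivity)]
      have hkap : (kap : ℝ) ^ 2 = 1000000 := by norm_num [kap]
      rw [hkap, ← neg_div, div_le_div_iff₀ (by positivity) (by norm_num)]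
      have hk2 : 0 ≤ (k : ℝ) ^ 2 := by positivity
      nlinarith [mul_nonneg hk2 (sub_nonneg.2 hq1)]
    have hqk : (ord F : ℝ) ≤ ((k : ℝ) + 1) ^ N := by
      exact_mod_cast hk.2.le
    have h2 : 10 * ((univ.biUnion (fun z : Pt F => univ.filter (fun R : RR F =>
        ¬ |(N0 R z : ℝ) - D0 (ord F)| ≤ k * Real.sqrt (ord F)))).card : ℝ) ≤
        Fintype.card (RR F) := by
      have hE := (Real.exp_pos (-((k : ℝ) ^ 2 / 1000000))).le
      have hC : (0 : ℝ) ≤ Fintype.card (RR F) := by positivity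
      calc 10 * ((univ.biUnion (fun z : Pt F => univ.filter (fun R : RR F =>
              ¬ |(N0 R z : ℝ) - D0 (ord F)| ≤ k * Real.sqrt (ord F)))).card : ℝ)
          ≤ 10 * (((ord F + 1) * ord F) * (2 * Real.exp (-((k : ℝ) ^ 2 / 1000000)) *
              Fintype.card (RR F))) := by
            refine mul_le_mul_of_nonneg_left (h1.trans ?_) (by norm_num)
            refine mul_le_mul_of_nonneg_left ?_ (by positivity)
            exact mul_le_mul_of_nonneg_right (mul_le_mul_of_nonneg_left hexp (by norm_num)) hC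
        _ ≤ 40 * ((k : ℝ) + 1) ^ (2 * N) * Real.exp (-((k : ℝ) ^ 2 / 1000000)) *
              Fintype.card (RR F) := by
            have e1 : ((ord F : ℝ) + 1) * ord F ≤ 2 * ((k : ℝ) + 1) ^ (2 * N) := by
              have e2 : ((k : ℝ) + 1) ^ (2 * N) = ((k : ℝ) + 1) ^ N * ((k : ℝ) + 1) ^ N := by
                rw [two_mul, pow_add]
              rw [e2]
              have e3 : (ord F : ℝ) * ord F ≤ ((k : ℝ) + 1) ^ N * ((k : ℝ) + 1) ^ N :=
                mul_le_mul hqk hqk (by positivity) (by positivity)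
              nlinarith
            have e4 : 10 * (((ord F + 1) * ord F) * (2 * Real.exp (-((k : ℝ) ^ 2 / 1000000)) *
              (Fintype.card (RR F) : ℝ))) = (20 * (((ord F : ℝ) + 1) * ord F)) *
              (Real.exp (-((k : ℝ) ^ 2 / 1000000)) * Fintype.card (RR F)) := by ring
            have e5 : 40 * ((k : ℝ) + 1) ^ (2 * N) * Real.exp (-((k : ℝ) ^ 2 / 1000000)) *
              (Fintype.card (RR F) : ℝ) = (20 * (2 * ((k : ℝ) + 1) ^ (2 * N))) *
              (Real.exp (-((k : ℝ) ^ 2 / 1000000)) * Fintype.card (RR F)) := by ring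
            rw [e4, e5]
            exact mul_le_mul_of_nonneg_right (mul_le_mul_of_nonneg_left e1 (by norm_num))
              (by positivity)
        _ ≤ 1 * Fintype.card (RR F) := mul_le_mul_of_nonneg_right hkb hC
        _ = Fintype.card (RR F) := one_mul _
    exact_mod_cast h2

end Crest.Agent.R034
end

-- ▼ part R034/R2
section

/-! # Row 34, module M6: `SpecR2` (the number `N1` of candidate lines is large, the number `N2` of
conflicting lines is small) -/

set_option autoImplicit false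
set_option linter.unusedSectionVars false

namespace Crest.Agent.R034.R2M

open Finset Crest.Agent.R034

variable {F : Type} [Field F] [Fintype F] [DecidableEq F]

/-! ### Elementary geometry -/

theorem line_eq {i j : Option F} (hij : i ≠ j) {l l' : Ln F}
    (h1 : val l i = val l' i) (h2 : val l j = val l' j) : l = l' := by
  obtain ⟨m, b⟩ := l
  obtain ⟨m', b'⟩ := l'
  cases i with
  | none =>
    cases j with
    | none => exact absurd rfl hij
    | some x =>
      simp only [val] at h1 h2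
      subst h1
      have : b = b' := by linear_combination h2
      rw [this]
  | some x =>
    cases j with
    | none =>
      simp only [val] at h1 h2
      subst h2
      have : b = b' := by linear_combination h1
      rw [this]
    | some y =>
      simp only [val] at h1 h2
      have hxy : x - y ≠ 0 := by
        intro h
        exact hij (by rw [sub_eq_zero.mp h])
      have h3 : (m - m') * (x - y) = 0 := by linear_combination h1 - h2
      have h4 : m = m' := by
        rcases mul_eq_zero.mp h3 with h | h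
        · exact sub_eq_zero.mp h
        · exact absurd h hxy
      subst h4
      have : b = b' := by linear_combination h1
      rw [this]

/-- lines through a point -/
def pen (z : Pt F) : Finset (Ln F) := univ.filter (fun l => On z l)

theorem mem_pen {z : Pt F} {l : Ln F} : l ∈ pen z ↔ val l z.1 = z.2 := by
  unfold pen
  rw [mem_filter]
  exact ⟨fun h => h.2, fun h => ⟨mem_univ _, h⟩⟩

theorem card_pen (z : Pt F) : (pen z).card = ord F := by
  obtain ⟨i, y⟩ := z
  cases i with
  | none =>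
    have : pen ((none, y) : Pt F) = univ.image (fun b : F => ((y, b) : Ln F)) := by
      ext ⟨m, b⟩
      simp only [mem_pen, val, mem_image, mem_univ, true_and, Prod.mk.injEq]
      constructor
      · rintro rfl; exact ⟨b, rfl, rfl⟩
      · rintro ⟨b', h, rfl⟩; exact h.symm
    rw [this, card_image_of_injective]
    · exact card_univ
    · intro b b' h
      simpa using h
  | some x =>
    have : pen ((some x, y) : Pt F) = univ.image (fun m : F => ((m, y - m * x) : Ln F)) := by
      ext ⟨m, b⟩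
      simp only [mem_pen, val, mem_image, mem_univ, true_and, Prod.mk.injEq]
      constructor
      · rintro rfl; exact ⟨m, rfl, by ring⟩
      · rintro ⟨b', rfl, rfl⟩; ring
    rw [this, card_image_of_injective]
    · exact card_univ
    · intro b b' h
      simp only [Prod.mk.injEq] at h
      exact h.1

theorem mem_Kset {R : RR F} {j : Option F} {v : F} : (j, v) ∈ Kset R ↔ ∃ r, R j r = v := by
  simp [Kset]

/-! ### bounded differences -/

theorem hits_congr {R R' : RR F} {l : Ln F} {i j0 : Option F} (hoff : ∀ j, j ≠ j0 → R j = R' j)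
    (h : j0 = i ∨ ((∀ r, R j0 r ≠ val l j0) ∧ (∀ r, R' j0 r ≠ val l j0))) :
    hits R l i = hits R' l i := by
  ext j
  simp only [hits, mem_filter, mem_univ, true_and, mem_Kset]
  by_cases hj : j = j0
  · subst hj
    rcases h with h | ⟨h1, h2⟩
    · simp [h]
    · simp [h1, h2]
  · rw [hoff j hj]

theorem mhits_congr {R R' : RR F} {l : Ln F} {i j0 : Option F} (hoff : ∀ j, j ≠ j0 → R j = R' j)
    (h : j0 = i ∨ ((∀ r, R j0 r ≠ val l j0) ∧ (∀ r, R' j0 r ≠ val l j0))) :
    mhits R l i = mhits R' l i := by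
  ext j
  simp only [mhits, mem_filter, mem_univ, true_and]
  by_cases hj : j = j0
  · subst hj
    rcases h with h | ⟨h1, h2⟩
    · simp [h]
    · simp [(h1 0).symm, (h2 0).symm]
  · rw [hoff j hj]

/-- a counting function of lines through `z` -/
def NN (a b : ℕ) (R : RR F) (z : Pt F) : ℕ :=
  ((pen z).filter (fun l => (hits R l z.1).card = a ∧ (mhits R l z.1).card = b)).card

theorem N1_eq (R : RR F) (z : Pt F) : N1 R z = NN 9 0 R z := by
  unfold N1 NN pen
  rw [filter_filter]

theorem N2_eq (R : RR F) (z : Pt F) : N2 R z = NN 9 1 R z := by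
  unfold N2 NN pen
  rw [filter_filter]

theorem NN_le (a b : ℕ) (R R' : RR F) (z : Pt F) (j0 : Option F)
    (hoff : ∀ j, j ≠ j0 → R j = R' j) : NN a b R z ≤ NN a b R' z + 2 * kap := by
  classical
  by_cases hj : j0 = z.1
  · have key : NN a b R z = NN a b R' z := by
      unfold NN
      refine congrArg Finset.card (filter_congr (fun l _ => ?_))
      have e1 : hits R l z.1 = hits R' l z.1 := hits_congr hoff (Or.inl hj)
      have e2 : mhits R l z.1 = mhits R' l z.1 := mhits_congr hoff (Or.inl hj)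
      rw [e1, e2]
    rw [key]
    exact Nat.le_add_right _ _
  · set bad : Finset (Ln F) := (pen z).filter
      (fun l => val l j0 ∈ univ.image (R j0) ∪ univ.image (R' j0)) with hbad
    have h1 : (pen z).filter (fun l => (hits R l z.1).card = a ∧ (mhits R l z.1).card = b) ⊆
        (pen z).filter (fun l => (hits R' l z.1).card = a ∧ (mhits R' l z.1).card = b) ∪ bad := by
      intro l hl
      rw [mem_filter] at hl
      by_cases hb : val l j0 ∈ univ.image (R j0) ∪ univ.image (R' j0)
      · exact mem_union_right _ (mem_filter.mpr ⟨hl.1, hb⟩)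
      · apply mem_union_left
        rw [mem_filter]
        refine ⟨hl.1, ?_⟩
        have h2 : (∀ r, R j0 r ≠ val l j0) ∧ (∀ r, R' j0 r ≠ val l j0) := by
          simp only [mem_union, mem_image, mem_univ, true_and, not_or, not_exists] at hb
          exact hb
        rw [← hits_congr hoff (Or.inr h2), ← mhits_congr hoff (Or.inr h2)]
        exact hl.2
    have h3 : bad.card ≤ 2 * kap := by
      have h4 : bad.card ≤ (univ.image (R j0) ∪ univ.image (R' j0)).card := by
        apply card_le_card_of_injOn (fun l => val l j0)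
        · intro l hl
          exact (mem_filter.mp hl).2
        · intro l hl l' hl' h
          have hl1 := (mem_filter.mp (mem_coe.mp hl)).1
          have hl1' := (mem_filter.mp (mem_coe.mp hl')).1
          rw [mem_pen] at hl1 hl1'
          exact line_eq hj h (by rw [hl1, hl1'])
      calc bad.card ≤ _ := h4
        _ ≤ (univ.image (R j0)).card + (univ.image (R' j0)).card := card_union_le _ _
        _ ≤ kap + kap := by
            apply add_le_add
            · calc (univ.image (R j0)).card ≤ (univ : Finset (Fin kap)).card := card_image_le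
                _ = kap := by rw [card_univ, Fintype.card_fin]
            · calc (univ.image (R' j0)).card ≤ (univ : Finset (Fin kap)).card := card_image_le
                _ = kap := by rw [card_univ, Fintype.card_fin]
        _ = 2 * kap := by ring
    calc NN a b R z ≤ _ := card_le_card h1
      _ ≤ _ := card_union_le _ _
      _ ≤ NN a b R' z + 2 * kap := by
        unfold NN
        omega

theorem NN_diff (a b : ℕ) (z : Pt F) (j0 : Option F) (R : RR F) (y : Fin kap → F) :
    |(NN a b R z : ℝ) - (NN a b (Function.update R j0 y) z : ℝ)| ≤ 2000 := by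
  have h1 := NN_le a b R (Function.update R j0 y) z j0 (by
    intro j hj; rw [Function.update_of_ne hj])
  have h2 := NN_le a b (Function.update R j0 y) R z j0 (by
    intro j hj; rw [Function.update_of_ne hj])
  have h1' : (NN a b R z : ℝ) ≤ NN a b (Function.update R j0 y) z + 2000 := by
    have := h1
    norm_num [kap] at this
    exact_mod_cast this
  have h2' : (NN a b (Function.update R j0 y) z : ℝ) ≤ NN a b R z + 2000 := by
    have := h2
    norm_num [kap] at this
    exact_mod_cast this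
  rw [abs_le]
  constructor <;> linarith

/-! ### one coordinate -/

section OneCoord

variable {n : ℕ} [NeZero n]

def SM (n : ℕ) (v : F) : Finset (Fin n → F) := univ.filter (fun f => ∀ r, f r ≠ v)
def SG (n : ℕ) [NeZero n] (v : F) : Finset (Fin n → F) := univ.filter (fun f => f 0 = v)
def SH (n : ℕ) [NeZero n] (v : F) : Finset (Fin n → F) :=
  univ.filter (fun f => (∃ r, f r = v) ∧ f 0 ≠ v)

theorem card_SM (n : ℕ) (v : F) : (SM n v).card = (ord F - 1) ^ n := by
  have : SM n v = Fintype.piFinset (fun _ : Fin n => (univ : Finset F).erase v) := by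
    ext f
    simp [SM, Fintype.mem_piFinset]
  rw [this, Fintype.card_piFinset]
  simp [card_erase_of_mem]

theorem card_SG (v : F) : (SG n v).card = (ord F) ^ (n - 1) := by
  have : SG n v = Fintype.piFinset
      (fun r : Fin n => if r = 0 then ({v} : Finset F) else univ) := by
    ext f
    simp only [SG, mem_filter, mem_univ, true_and, Fintype.mem_piFinset]
    constructor
    · intro h r
      by_cases hr : r = 0
      · simp [hr, h]
      · simp [hr]
    · intro h
      simpa using h 0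
  rw [this, Fintype.card_piFinset]
  have h1 : ∀ r : Fin n, (if r = 0 then ({v} : Finset F) else univ).card
      = if r = 0 then 1 else ord F := by
    intro r
    split_ifs
    · simp
    · simp
  rw [Finset.prod_congr rfl (fun r _ => h1 r), Finset.prod_ite]
  rw [prod_const_one, one_mul, prod_const]
  congr 1
  have h2 : (univ.filter (fun r : Fin n => ¬ r = 0)) = univ.erase 0 := by
    ext r; simp
  rw [h2, card_erase_of_mem (mem_univ _), card_univ, Fintype.card_fin]

theorem card_SH (v : F) : ((SH n v).card : ℝ) =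
    (ord F : ℝ) ^ n - (ord F : ℝ) ^ (n - 1) - ((ord F : ℝ) - 1) ^ n := by
  have hq : 1 ≤ ord F := Fintype.card_pos
  have h1 : SH n v ∪ SM n v ∪ SG n v = univ := by
    ext f
    simp only [SH, SM, SG, mem_union, mem_filter, mem_univ, true_and, iff_true]
    by_cases h : f 0 = v
    · exact Or.inr h
    · left
      by_cases h' : ∃ r, f r = v
      · exact Or.inl ⟨h', h⟩
      · right
        intro r hr
        exact h' ⟨r, hr⟩
  have h2 : Disjoint (SH n v) (SM n v) := by
    rw [disjoint_left]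
    intro f hf hf'
    simp only [SH, SM, mem_filter, mem_univ, true_and] at hf hf'
    obtain ⟨⟨r, hr⟩, _⟩ := hf
    exact hf' r hr
  have h3 : Disjoint (SH n v ∪ SM n v) (SG n v) := by
    rw [disjoint_left]
    intro f hf hf'
    simp only [SH, SM, SG, mem_union, mem_filter, mem_univ, true_and] at hf hf'
    rcases hf with hf | hf
    · exact hf.2 hf'
    · exact hf 0 hf'
  have h4 : (SH n v ∪ SM n v ∪ SG n v).card = (ord F) ^ n := by
    rw [h1, card_univ, Fintype.card_pi, prod_const, card_univ, Fintype.card_fin]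
  rw [card_union_of_disjoint h3, card_union_of_disjoint h2, card_SM, card_SG] at h4
  have h5 : ((SH n v).card : ℝ) + ((ord F - 1 : ℕ) : ℝ) ^ n + (ord F : ℝ) ^ (n - 1)
      = (ord F : ℝ) ^ n := by exact_mod_cast h4
  rw [Nat.cast_sub hq, Nat.cast_one] at h5
  linarith

end OneCoord

/-! ### product sets -/

def S1 (l : Ln F) (i : Option F) (A : Finset (Option F)) : Finset (RR F) :=
  Fintype.piFinset (fun j => if j = i then univ else if j ∈ A then SH kap (val l j)
    else SM kap (val l j))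

def S2 (l : Ln F) (i : Option F) (A : Finset (Option F)) (a : Option F) : Finset (RR F) :=
  Fintype.piFinset (fun j => if j = i then univ else if j = a then SG kap (val l j)
    else if j ∈ A then SH kap (val l j) else SM kap (val l j))

theorem mem_hits {R : RR F} {l : Ln F} {i j : Option F} :
    j ∈ hits R l i ↔ j ≠ i ∧ ∃ r, R j r = val l j := by
  simp only [hits, mem_filter, mem_univ, true_and, mem_Kset]

theorem mem_mhits {R : RR F} {l : Ln F} {i j : Option F} :
    j ∈ mhits R l i ↔ j ≠ i ∧ val l j = R j 0 := by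
  simp only [mhits, mem_filter, mem_univ, true_and]

theorem mem_SH {n : ℕ} [NeZero n] {v : F} {f : Fin n → F} :
    f ∈ SH n v ↔ (∃ r, f r = v) ∧ f 0 ≠ v := by simp [SH]
theorem mem_SM {n : ℕ} {v : F} {f : Fin n → F} :
    f ∈ SM n v ↔ ∀ r, f r ≠ v := by simp [SM]

theorem mem_SH' {v : F} {f : Fin kap → F} :
    f ∈ SH kap v ↔ (∃ r, f r = v) ∧ f 0 ≠ v := by simp [SH]
theorem mem_SG' {v : F} {f : Fin kap → F} :
    f ∈ SG kap v ↔ f 0 = v := by simp [SG]

theorem S1_hits {l : Ln F} {i : Option F} {A : Finset (Option F)} (hA : A ⊆ univ.erase i)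
    {R : RR F} (hR : R ∈ S1 l i A) : hits R l i = A ∧ mhits R l i = ∅ := by
  rw [S1, Fintype.mem_piFinset] at hR
  constructor
  · ext j
    rw [mem_hits]
    have h := hR j
    constructor
    · rintro ⟨hj, hr⟩
      by_contra hjA
      rw [if_neg hj, if_neg hjA, mem_SM] at h
      obtain ⟨r, hr⟩ := hr
      exact h r hr
    · intro hj
      have hji : j ≠ i := (mem_erase.mp (hA hj)).1
      rw [if_neg hji, if_pos hj, mem_SH] at h
      exact ⟨hji, h.1⟩
  · rw [eq_empty_iff_forall_notMem]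
    intro j hj
    rw [mem_mhits] at hj
    have h := hR j
    rw [if_neg hj.1] at h
    split_ifs at h with hjA
    · rw [mem_SH'] at h
      have h3 := hj.2.symm
      exact h.2 h3
    · rw [mem_SM] at h
      exact h _ hj.2.symm

theorem lower_count (l : Ln F) (i : Option F) :
    ∑ A ∈ powersetCard 9 ((univ : Finset (Option F)).erase i), (S1 l i A).card ≤
      (univ.filter (fun R : RR F => (hits R l i).card = 9 ∧ (mhits R l i).card = 0)).card := by
  classical
  rw [← card_biUnion]
  · apply card_le_card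
    intro R hR
    rw [mem_biUnion] at hR
    obtain ⟨A, hA, hR⟩ := hR
    rw [mem_powersetCard] at hA
    obtain ⟨h1, h2⟩ := S1_hits hA.1 hR
    rw [mem_filter]
    refine ⟨mem_univ _, ?_, ?_⟩
    · rw [h1]; exact hA.2
    · rw [h2]; rfl
  · intro A hA B hB hAB
    rw [Function.onFun, disjoint_left]
    intro R hRA hRB
    have h1 := (S1_hits (mem_powersetCard.mp hA).1 hRA).1
    have h2 := (S1_hits (mem_powersetCard.mp hB).1 hRB).1
    exact hAB (h1.symm.trans h2)

theorem upper_count (l : Ln F) (i : Option F) :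
    (univ.filter (fun R : RR F => (hits R l i).card = 9 ∧ (mhits R l i).card = 1)).card ≤
    ∑ A ∈ powersetCard 9 ((univ : Finset (Option F)).erase i), ∑ a ∈ A, (S2 l i A a).card := by
  classical
  have h1 : univ.filter (fun R : RR F => (hits R l i).card = 9 ∧ (mhits R l i).card = 1) ⊆
      (powersetCard 9 ((univ : Finset (Option F)).erase i)).biUnion
        (fun A => A.biUnion (fun a => S2 l i A a)) := by
    intro R hR
    rw [mem_filter] at hR
    obtain ⟨_, h9, h1⟩ := hR
    obtain ⟨a, ha⟩ := card_eq_one.mp h1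
    have haA : a ∈ hits R l i := by
      have : a ∈ mhits R l i := by rw [ha]; exact mem_singleton_self a
      rw [mem_mhits] at this
      rw [mem_hits]
      exact ⟨this.1, 0, this.2.symm⟩
    rw [mem_biUnion]
    refine ⟨hits R l i, ?_, ?_⟩
    · rw [mem_powersetCard]
      refine ⟨?_, h9⟩
      intro j hj
      rw [mem_erase]
      exact ⟨(mem_hits.mp hj).1, mem_univ _⟩
    · rw [mem_biUnion]
      refine ⟨a, haA, ?_⟩
      rw [S2, Fintype.mem_piFinset]
      intro j
      by_cases hji : j = i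
      · rw [if_pos hji]; simp only [mem_univ]
      rw [if_neg hji]
      by_cases hja : j = a
      · rw [if_pos hja, mem_SG']
        have : a ∈ mhits R l i := by rw [ha]; exact mem_singleton_self a
        rw [mem_mhits] at this
        rw [hja]; exact this.2.symm
      rw [if_neg hja]
      have hj0 : R j 0 ≠ val l j := by
        intro h
        have : j ∈ mhits R l i := by rw [mem_mhits]; exact ⟨hji, h.symm⟩
        rw [ha, mem_singleton] at this
        exact hja this
      by_cases hjA : j ∈ hits R l i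
      · rw [if_pos hjA, mem_SH']
        exact ⟨(mem_hits.mp hjA).2, hj0⟩
      · rw [if_neg hjA, mem_SM]
        intro r hr
        exact hjA (mem_hits.mpr ⟨hji, r, hr⟩)
  calc _ ≤ _ := card_le_card h1
    _ ≤ ∑ A ∈ powersetCard 9 ((univ : Finset (Option F)).erase i),
        (A.biUnion (fun a => S2 l i A a)).card := card_biUnion_le
    _ ≤ _ := sum_le_sum (fun A _ => card_biUnion_le)

/-! ### products -/

theorem prod_ite_subset {ι : Type} [DecidableEq ι] (s A : Finset ι) (hA : A ⊆ s) (H M : ℝ) :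
    ∏ j ∈ s, (if j ∈ A then H else M) = H ^ A.card * M ^ (s.card - A.card) := by
  rw [prod_ite, prod_const, prod_const]
  congr 2
  · congr 1
    ext j
    rw [mem_filter]
    exact ⟨fun h => h.2, fun h => ⟨hA h, h⟩⟩
  · rw [← card_sdiff_of_subset hA]
    congr 1
    ext j
    rw [mem_filter, mem_sdiff]

theorem card_erase_univ (i : Option F) : ((univ : Finset (Option F)).erase i).card = ord F := by
  rw [card_erase_of_mem (mem_univ _), card_univ, Fintype.card_option]
  rfl

theorem card_S1 (l : Ln F) (i : Option F) (A : Finset (Option F))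
    (hA : A ∈ powersetCard 9 ((univ : Finset (Option F)).erase i)) :
    ((S1 l i A).card : ℝ) = (ord F : ℝ) ^ kap *
      (((ord F : ℝ) ^ kap - (ord F : ℝ) ^ (kap - 1) - ((ord F : ℝ) - 1) ^ kap) ^ 9 *
      (((ord F : ℝ) - 1) ^ kap) ^ (ord F - 9)) := by
  have hq : 1 ≤ ord F := Fintype.card_pos
  rw [mem_powersetCard] at hA
  rw [S1, Fintype.card_piFinset, Nat.cast_prod, ← mul_prod_erase univ _ (mem_univ i)]
  congr 1
  · rw [if_pos rfl, card_univ, Fintype.card_pi, prod_const, card_univ, Fintype.card_fin,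
      Nat.cast_pow]
  · have h1 : ∀ j ∈ (univ : Finset (Option F)).erase i,
        (((if j = i then (univ : Finset (Fin kap → F)) else if j ∈ A then SH kap (val l j)
          else SM kap (val l j)).card : ℕ) : ℝ) =
        if j ∈ A then ((ord F : ℝ) ^ kap - (ord F : ℝ) ^ (kap - 1) - ((ord F : ℝ) - 1) ^ kap)
          else ((ord F : ℝ) - 1) ^ kap := by
      intro j hj
      rw [if_neg (mem_erase.mp hj).1]
      by_cases hjA : j ∈ A
      · rw [if_pos hjA, if_pos hjA, card_SH]
      · rw [if_neg hjA, if_neg hjA, card_SM, Nat.cast_pow, Nat.cast_sub hq, Nat.cast_one]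
    rw [prod_congr rfl h1, prod_ite_subset _ _ hA.1, hA.2, card_erase_univ]

theorem card_S2 (l : Ln F) (i : Option F) (A : Finset (Option F))
    (hA : A ∈ powersetCard 9 ((univ : Finset (Option F)).erase i)) (a : Option F) (ha : a ∈ A) :
    ((S2 l i A a).card : ℝ) = (ord F : ℝ) ^ kap * ((ord F : ℝ) ^ (kap - 1) *
      (((ord F : ℝ) ^ kap - (ord F : ℝ) ^ (kap - 1) - ((ord F : ℝ) - 1) ^ kap) ^ 8 *
      (((ord F : ℝ) - 1) ^ kap) ^ (ord F - 9))) := by
  have hq : 1 ≤ ord F := Fintype.card_pos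
  rw [mem_powersetCard] at hA
  have hai : a ∈ (univ : Finset (Option F)).erase i := hA.1 ha
  have hai' : a ≠ i := (mem_erase.mp hai).1
  rw [S2, Fintype.card_piFinset, Nat.cast_prod, ← mul_prod_erase univ _ (mem_univ i),
    ← mul_prod_erase (univ.erase i) _ hai]
  congr 1
  · rw [if_pos rfl, card_univ, Fintype.card_pi, prod_const, card_univ, Fintype.card_fin,
      Nat.cast_pow]
  · congr 1
    · rw [if_neg hai', if_pos rfl, card_SG, Nat.cast_pow]
    · have h1 : ∀ j ∈ ((univ : Finset (Option F)).erase i).erase a,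
          (((if j = i then (univ : Finset (Fin kap → F)) else if j = a then SG kap (val l j)
            else if j ∈ A then SH kap (val l j) else SM kap (val l j)).card : ℕ) : ℝ) =
          if j ∈ A.erase a then
            ((ord F : ℝ) ^ kap - (ord F : ℝ) ^ (kap - 1) - ((ord F : ℝ) - 1) ^ kap)
          else ((ord F : ℝ) - 1) ^ kap := by
        intro j hj
        rw [mem_erase, mem_erase] at hj
        rw [if_neg hj.2.1, if_neg hj.1]
        by_cases hjA : j ∈ A
        · rw [if_pos hjA, if_pos (mem_erase.mpr ⟨hj.1, hjA⟩), card_SH]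
        · rw [if_neg hjA, if_neg (fun h => hjA (mem_erase.mp h).2), card_SM, Nat.cast_pow,
            Nat.cast_sub hq, Nat.cast_one]
      rw [prod_congr rfl h1, prod_ite_subset _ _ (erase_subset_erase a hA.1),
        card_erase_of_mem ha, hA.2, card_erase_of_mem hai, card_erase_univ]
      have e1 : ord F - 1 - (9 - 1) = ord F - 9 := by omega
      rw [e1]

/-! ### means -/

noncomputable def TT (q : ℕ) : ℝ := (q : ℝ) ^ kap
noncomputable def GG (q : ℕ) : ℝ := (q : ℝ) ^ (kap - 1)
noncomputable def MM (q : ℕ) : ℝ := ((q : ℝ) - 1) ^ kap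
noncomputable def HH (q : ℕ) : ℝ := (q : ℝ) ^ kap - (q : ℝ) ^ (kap - 1) - ((q : ℝ) - 1) ^ kap

theorem sum_NN (a b : ℕ) (z : Pt F) :
    ∑ R : RR F, (NN a b R z : ℝ) = ∑ l ∈ pen z,
      ((univ.filter (fun R : RR F => (hits R l z.1).card = a ∧ (mhits R l z.1).card = b)).card
        : ℝ) := by
  unfold NN
  simp only [card_filter, Nat.cast_sum]
  rw [sum_comm]

theorem card_RR : ((Fintype.card (RR F) : ℕ) : ℝ) = TT (ord F) ^ (ord F + 1) := by
  have h1 : Fintype.card (RR F) = ((ord F) ^ kap) ^ (ord F + 1) := by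
    rw [Fintype.card_pi, prod_const, card_univ, Fintype.card_option, Fintype.card_pi, prod_const,
      card_univ, Fintype.card_fin]
  rw [h1, TT]
  push_cast
  rfl

theorem mean1 (z : Pt F) :
    (ord F : ℝ) * (((ord F).choose 9 : ℕ) * (TT (ord F) * (HH (ord F) ^ 9 *
      MM (ord F) ^ (ord F - 9)))) ≤ ∑ R : RR F, (NN 9 0 R z : ℝ) := by
  rw [sum_NN]
  have h1 : ∀ l ∈ pen z, (((ord F).choose 9 : ℕ) * (TT (ord F) * (HH (ord F) ^ 9 *
      MM (ord F) ^ (ord F - 9)))) ≤ ((univ.filter (fun R : RR F =>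
        (hits R l z.1).card = 9 ∧ (mhits R l z.1).card = 0)).card : ℝ) := by
    intro l _
    have h2 := lower_count l z.1
    have h3 : ((∑ A ∈ powersetCard 9 ((univ : Finset (Option F)).erase z.1),
        (S1 l z.1 A).card : ℕ) : ℝ) ≤ ((univ.filter (fun R : RR F =>
        (hits R l z.1).card = 9 ∧ (mhits R l z.1).card = 0)).card : ℝ) := by exact_mod_cast h2
    refine le_trans (le_of_eq ?_) h3
    rw [Nat.cast_sum, sum_congr rfl (fun A hA => card_S1 l z.1 A hA), sum_const,
      card_powersetCard, card_erase_univ, nsmul_eq_mul]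
    rfl
  calc _ = ∑ l ∈ pen z, (((ord F).choose 9 : ℕ) * (TT (ord F) * (HH (ord F) ^ 9 *
      MM (ord F) ^ (ord F - 9)))) := by rw [sum_const, card_pen, nsmul_eq_mul]
    _ ≤ _ := sum_le_sum h1

theorem mean2 (z : Pt F) :
    ∑ R : RR F, (NN 9 1 R z : ℝ) ≤
    (ord F : ℝ) * (((ord F).choose 9 : ℕ) * (9 * (TT (ord F) * (GG (ord F) * (HH (ord F) ^ 8 *
      MM (ord F) ^ (ord F - 9)))))) := by
  rw [sum_NN]
  have h1 : ∀ l ∈ pen z, ((univ.filter (fun R : RR F =>
        (hits R l z.1).card = 9 ∧ (mhits R l z.1).card = 1)).card : ℝ) ≤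
      (((ord F).choose 9 : ℕ) * (9 * (TT (ord F) * (GG (ord F) * (HH (ord F) ^ 8 *
      MM (ord F) ^ (ord F - 9)))))) := by
    intro l _
    have h2 := upper_count l z.1
    have h3 : ((univ.filter (fun R : RR F =>
        (hits R l z.1).card = 9 ∧ (mhits R l z.1).card = 1)).card : ℝ) ≤
        ((∑ A ∈ powersetCard 9 ((univ : Finset (Option F)).erase z.1),
        ∑ a ∈ A, (S2 l z.1 A a).card : ℕ) : ℝ) := by exact_mod_cast h2
    refine le_trans h3 (le_of_eq ?_)
    have h4 : ∀ A ∈ powersetCard 9 ((univ : Finset (Option F)).erase z.1),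
        ((∑ a ∈ A, (S2 l z.1 A a).card : ℕ) : ℝ) = 9 * (TT (ord F) * (GG (ord F) *
          (HH (ord F) ^ 8 * MM (ord F) ^ (ord F - 9)))) := by
      intro A hA
      rw [Nat.cast_sum, sum_congr rfl (fun a ha => card_S2 l z.1 A hA a ha), sum_const,
        (mem_powersetCard.mp hA).2, nsmul_eq_mul]
      norm_num [TT, GG, HH, MM]
    rw [Nat.cast_sum, sum_congr rfl h4, sum_const, card_powersetCard, card_erase_univ,
      nsmul_eq_mul]
  calc _ ≤ ∑ l ∈ pen z, (((ord F).choose 9 : ℕ) * (9 * (TT (ord F) * (GG (ord F) *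
      (HH (ord F) ^ 8 * MM (ord F) ^ (ord F - 9)))))) := sum_le_sum h1
    _ = _ := by rw [sum_const, card_pen, nsmul_eq_mul]

/-! ### analysis -/

theorem pow_upper (x : ℝ) (h0 : 0 ≤ x) (h1 : x ≤ 1) (n : ℕ) :
    (1 - x) ^ n ≤ 1 - n * x + (n : ℝ) ^ 2 * x ^ 2 / 2 := by
  induction n with
  | zero => simp
  | succ n ih =>
    have h2 : (1 - x) ^ (n + 1) ≤ (1 - n * x + (n : ℝ) ^ 2 * x ^ 2 / 2) * (1 - x) := by
      rw [pow_succ]
      exact mul_le_mul_of_nonneg_right ih (by linarith)
    refine le_trans h2 ?_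
    push_cast
    have h3 : 0 ≤ (n : ℝ) ^ 2 * x ^ 3 := by positivity
    have h4 : 0 ≤ x ^ 2 := by positivity
    nlinarith

theorem TT_pos {q : ℕ} (hq : 1 ≤ q) : 0 < TT q := by
  unfold TT
  have : (0 : ℝ) < q := by exact_mod_cast hq
  positivity

theorem GG_eq {q : ℕ} (hq : 1 ≤ q) : GG q = TT q * (1 / (q : ℝ)) := by
  have h : (q : ℝ) ≠ 0 := by
    have : (0 : ℝ) < q := by exact_mod_cast hq
    exact this.ne'
  unfold GG TT
  have : (q : ℝ) ^ kap = (q : ℝ) ^ (kap - 1) * q := (pow_succ (q : ℝ) 999)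
  rw [this, mul_assoc, mul_one_div_cancel h, mul_one]

theorem MM_eq {q : ℕ} (hq : 1 ≤ q) : MM q = TT q * (1 - 1 / (q : ℝ)) ^ kap := by
  have h : (q : ℝ) ≠ 0 := by
    have : (0 : ℝ) < q := by exact_mod_cast hq
    exact this.ne'
  unfold MM TT
  rw [← mul_pow]
  congr 1
  field_simp

theorem HH_eq (q : ℕ) : HH q = TT q - GG q - MM q := rfl

theorem GG_le {q : ℕ} (hq : 6000 ≤ q) : 900 * GG q ≤ HH q := by
  have hq1 : 1 ≤ q := by omega
  have hq' : (6000 : ℝ) ≤ q := by exact_mod_cast hq
  have hT := TT_pos hq1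
  rw [HH_eq, GG_eq hq1, MM_eq hq1]
  set x : ℝ := 1 / (q : ℝ) with hx
  have hx0 : 0 < x := by positivity
  have hx1 : x ≤ 1 / 6000 := by
    rw [hx]
    exact one_div_le_one_div_of_le (by norm_num) hq'
  have h1 := pow_upper x hx0.le (by linarith) kap
  have h2 : (kap : ℝ) = 1000 := by norm_num [kap]
  rw [h2] at h1
  generalize (1 - x) ^ kap = p at h1 ⊢
  have h5 : x ^ 2 ≤ x * (1 / 6000) := by
    rw [pow_two]
    exact mul_le_mul_of_nonneg_left hx1 hx0.le
  have h3 : p ≤ 1 - 901 * x := by linarith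
  have h4 : 0 ≤ TT q * (1 - 901 * x - p) := mul_nonneg hT.le (by linarith)
  linarith

theorem one_sub_ge (x : ℝ) (h0 : 0 ≤ x) (h1 : x ≤ 1 / 2) : Real.exp (-(2 * x)) ≤ 1 - x := by
  have h2 : 1 + 2 * x ≤ Real.exp (2 * x) := by
    have := Real.add_one_le_exp (2 * x)
    linarith
  have h3 : 1 ≤ (1 - x) * Real.exp (2 * x) := by
    have : 1 ≤ (1 - x) * (1 + 2 * x) := by nlinarith
    refine le_trans this ?_
    exact mul_le_mul_of_nonneg_left h2 (by linarith)
  rw [Real.exp_neg]
  have h4 := Real.exp_pos (2 * x)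
  rw [inv_le_iff_one_le_mul₀ h4]
  linarith

theorem MM_ge {q : ℕ} (hq : 9 ≤ q) :
    TT q ^ (q - 9) * Real.exp (-2000) ≤ MM q ^ (q - 9) := by
  have hq1 : 1 ≤ q := by omega
  have hq' : (9 : ℝ) ≤ q := by exact_mod_cast hq
  have hT := TT_pos hq1
  rw [MM_eq hq1, mul_pow]
  refine mul_le_mul_of_nonneg_left ?_ (by positivity)
  set x : ℝ := 1 / (q : ℝ) with hx
  have hx0 : 0 < x := by positivity
  have hx1 : x ≤ 1 / 9 := by
    rw [hx]
    exact one_div_le_one_div_of_le (by norm_num) hq'
  have h1 := one_sub_ge x hx0.le (by linarith)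
  have h2 : Real.exp (-(2 * x)) ^ (kap * (q - 9)) ≤ (1 - x) ^ (kap * (q - 9)) :=
    pow_le_pow_left₀ (Real.exp_pos _).le h1 _
  rw [← pow_mul]
  refine le_trans ?_ h2
  rw [← Real.exp_nat_mul]
  apply Real.exp_le_exp.mpr
  have h3 : ((kap * (q - 9) : ℕ) : ℝ) = 1000 * ((q : ℝ) - 9) := by
    rw [Nat.cast_mul, Nat.cast_sub hq]
    norm_num [kap]
  rw [h3]
  have h4 : (q : ℝ) * x = 1 := by
    rw [hx]; field_simp
  nlinarith

theorem mu_ge {q : ℕ} (hq : 6000 ≤ q) :
    Real.exp (-2000) * q * TT q ^ (q + 1) ≤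
      (q : ℝ) * ((q.choose 9 : ℕ) * (TT q * (HH q ^ 9 * MM q ^ (q - 9)))) := by
  have hq1 : 1 ≤ q := by omega
  have hq' : (6000 : ℝ) ≤ q := by exact_mod_cast hq
  have hT := TT_pos hq1
  have hG : GG q = TT q * (1 / (q : ℝ)) := GG_eq hq1
  have hH : 900 * GG q ≤ HH q := GG_le hq
  have hM := MM_ge (q := q) (by omega)
  have hch : (((q + 1 - 9 : ℕ) : ℝ) ^ 9) / (Nat.factorial 9 : ℕ) ≤ (q.choose 9 : ℕ) :=
    Nat.pow_le_choose (α := ℝ) 9 q
  have hch2 : ((q : ℝ) / 2) ^ 9 / 362880 ≤ (q.choose 9 : ℕ) := by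
    have e1 : ((Nat.factorial 9 : ℕ) : ℝ) = 362880 := by norm_num [Nat.factorial]
    rw [e1] at hch
    refine le_trans ?_ hch
    have e2 : ((q + 1 - 9 : ℕ) : ℝ) = q - 8 := by
      rw [Nat.cast_sub (by omega)]
      push_cast
      ring
    rw [e2]
    have e3 : (q : ℝ) / 2 ≤ q - 8 := by linarith
    gcongr
  have hH2 : (900 * (TT q * (1 / (q : ℝ)))) ^ 9 ≤ HH q ^ 9 := by
    rw [← hG]
    have hG0 : 0 ≤ GG q := by rw [hG]; positivity
    exact pow_le_pow_left₀ (mul_nonneg (by norm_num) hG0) hH 9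
  have key : TT q ^ 9 ≤ (q.choose 9 : ℕ) * HH q ^ 9 := by
    calc TT q ^ 9 ≤ (((q : ℝ) / 2) ^ 9 / 362880) * (900 * (TT q * (1 / (q : ℝ)))) ^ 9 := by
          generalize TT q = t at hT ⊢
          have e4 : (((q : ℝ) / 2) ^ 9 / 362880) * (900 * (t * (1 / (q : ℝ)))) ^ 9
              = (450 ^ 9 / 362880) * t ^ 9 := by
            have : (q : ℝ) ≠ 0 := by positivity
            field_simp
            norm_num
          rw [e4]
          have : (0 : ℝ) < t ^ 9 := by positivity
          nlinarith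
      _ ≤ _ := by
          have hpos : (0 : ℝ) ≤ (900 * (TT q * (1 / (q : ℝ)))) ^ 9 := by positivity
          exact mul_le_mul hch2 hH2 hpos (by positivity)
  have e5 : TT q ^ (q + 1) = TT q * (TT q ^ 9 * TT q ^ (q - 9)) := by
    rw [← pow_add, ← pow_succ']
    congr 1
    omega
  calc Real.exp (-2000) * q * TT q ^ (q + 1)
      = q * (TT q * (TT q ^ 9 * (TT q ^ (q - 9) * Real.exp (-2000)))) := by rw [e5]; ring
    _ ≤ q * (TT q * (((q.choose 9 : ℕ) * HH q ^ 9) * MM q ^ (q - 9))) := by
        have hpos : (0 : ℝ) ≤ (q.choose 9 : ℕ) * HH q ^ 9 :=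
          le_trans (by positivity) key
        have hpos2 : (0 : ℝ) ≤ TT q ^ (q - 9) * Real.exp (-2000) := by positivity
        refine mul_le_mul_of_nonneg_left ?_ (by positivity)
        refine mul_le_mul_of_nonneg_left ?_ (by positivity)
        exact mul_le_mul key hM hpos2 hpos
    _ = _ := by ring

theorem mu2_le {q : ℕ} (hq : 6000 ≤ q) :
    (q : ℝ) * ((q.choose 9 : ℕ) * (9 * (TT q * (GG q * (HH q ^ 8 * MM q ^ (q - 9)))))) ≤
    (1 / 100) * ((q : ℝ) * ((q.choose 9 : ℕ) * (TT q * (HH q ^ 9 * MM q ^ (q - 9))))) := by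
  have hq1 : 1 ≤ q := by omega
  have hT := TT_pos hq1
  have hG : GG q = TT q * (1 / (q : ℝ)) := GG_eq hq1
  have hH : 900 * GG q ≤ HH q := GG_le hq
  have hM : 0 ≤ MM q ^ (q - 9) := le_trans (by positivity) (MM_ge (q := q) (by omega))
  have hG0 : 0 ≤ GG q := by rw [hG]; positivity
  have hH0 : 0 ≤ HH q := le_trans (mul_nonneg (by norm_num) hG0) hH
  have h1 : (1 / 100) * ((q : ℝ) * ((q.choose 9 : ℕ) * (TT q * (HH q ^ 9 * MM q ^ (q - 9)))))
      - (q : ℝ) * ((q.choose 9 : ℕ) * (9 * (TT q * (GG q * (HH q ^ 8 * MM q ^ (q - 9))))))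
      = (q : ℝ) * (q.choose 9 : ℕ) * TT q * HH q ^ 8 * MM q ^ (q - 9) *
        ((1 / 100) * (HH q - 900 * GG q)) := by
    generalize MM q ^ (q - 9) = m
    generalize TT q = t
    generalize HH q = h
    generalize GG q = g
    ring
  have h2 : 0 ≤ (q : ℝ) * (q.choose 9 : ℕ) * TT q * HH q ^ 8 * MM q ^ (q - 9) *
        ((1 / 100) * (HH q - 900 * GG q)) := by
    have h3 : 0 ≤ (1 / 100) * (HH q - 900 * GG q) := by
      have : 0 ≤ HH q - 900 * GG q := by linarith
      positivity
    exact mul_nonneg (mul_nonneg (mul_nonneg (mul_nonneg (mul_nonneg (Nat.cast_nonneg _)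
      (Nat.cast_nonneg _)) hT.le) (pow_nonneg hH0 8)) hM) h3
  linarith

/-- eventually small tail -/
theorem tail_small (η : ℝ) (hη : 0 < η) :
    ∃ q0 : ℕ, ∀ q : ℕ, q0 ≤ q → 40 * (q : ℝ) ^ 2 * Real.exp (-(η * q)) ≤ 1 := by
  have h1 := Real.tendsto_pow_mul_exp_neg_atTop_nhds_zero 2
  have h2 : Filter.Tendsto (fun q : ℕ => η * (q : ℝ)) Filter.atTop Filter.atTop :=
    Filter.Tendsto.const_mul_atTop hη tendsto_natCast_atTop_atTop
  have h3 := h1.comp h2
  have h4 := h3.eventually (Iio_mem_nhds (show (0 : ℝ) < η ^ 2 / 40 by positivity))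
  obtain ⟨q0, hq0⟩ := Filter.eventually_atTop.mp h4
  refine ⟨q0, fun q hq => ?_⟩
  have h5 := hq0 q hq
  simp only [Function.comp_apply] at h5
  have h6 : (η * (q : ℝ)) ^ 2 * Real.exp (-(η * q)) * 40 < η ^ 2 := by linarith
  have h7 : η ^ 2 * (40 * (q : ℝ) ^ 2 * Real.exp (-(η * q))) < η ^ 2 * 1 := by
    calc η ^ 2 * (40 * (q : ℝ) ^ 2 * Real.exp (-(η * q)))
        = (η * (q : ℝ)) ^ 2 * Real.exp (-(η * q)) * 40 := by ring
      _ < η ^ 2 * 1 := by linarith
  exact (lt_of_mul_lt_mul_left h7 (by positivity)).le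

theorem specR2 : SpecR2 := by
  classical
  set c0 : ℝ := Real.exp (-2000) with hc0
  have hc0pos : 0 < c0 := Real.exp_pos _
  set δ : ℝ := c0 * (3 / 1000) with hδ
  have hδpos : 0 < δ := by positivity
  set η : ℝ := δ ^ 2 / 4000000 with hη
  have hηpos : 0 < η := by positivity
  obtain ⟨q1, hq1⟩ := tail_small η hηpos
  obtain ⟨q2, hq2⟩ := exists_nat_ge (36000 / (c0 * (61 / 1000)))
  refine ⟨max 6000 (max q1 q2), ?_⟩
  intro F _ _ _ hq
  have hqA : 6000 ≤ ord F := le_trans (le_max_left _ _) hq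
  have hqB : q1 ≤ ord F := le_trans (le_trans (le_max_left _ _) (le_max_right _ _)) hq
  have hqC : q2 ≤ ord F := le_trans (le_trans (le_max_right _ _) (le_max_right _ _)) hq
  have hq1' : 1 ≤ ord F := by omega
  set q : ℕ := ord F with hqdef
  have hqr : (6000 : ℝ) ≤ (q : ℝ) := by exact_mod_cast hqA
  set μ : ℝ := ((q : ℝ) * ((q.choose 9 : ℕ) * (TT q * (HH q ^ 9 * MM q ^ (q - 9))))) /
    TT q ^ (q + 1) with hμ
  have hTpos : 0 < TT q ^ (q + 1) := pow_pos (TT_pos hq1') _
  have hμge : c0 * q ≤ μ := by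
    rw [hμ, le_div_iff₀ hTpos]
    exact mu_ge hqA
  have hlarge : 36000 ≤ (c0 * (61 / 1000)) * q := by
    have h1 : 36000 / (c0 * (61 / 1000)) ≤ (q : ℝ) := le_trans hq2 (by exact_mod_cast hqC)
    rw [div_le_iff₀ (by positivity)] at h1
    linarith
  have hcard : ((Fintype.card (RR F) : ℕ) : ℝ) = TT q ^ (q + 1) := card_RR
  have hm1 : ∀ z : Pt F, μ ≤ McD.mean (fun R : RR F => (NN 9 0 R z : ℝ)) := by
    intro z
    rw [McD.mean, hcard, hμ]
    exact div_le_div_of_nonneg_right (mean1 z) hTpos.le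
  have hm2 : ∀ z : Pt F, McD.mean (fun R : RR F => (NN 9 1 R z : ℝ)) ≤ (1 / 100) * μ := by
    intro z
    rw [McD.mean, hcard, hμ, ← mul_div_assoc]
    exact div_le_div_of_nonneg_right (le_trans (mean2 z) (mu2_le hqA)) hTpos.le
  set s : ℝ := δ * q with hs
  have hs0 : 0 ≤ s := by positivity
  set B1 : Pt F → Finset (RR F) := fun z => univ.filter (fun R : RR F =>
    (NN 9 0 R z : ℝ) ≤ McD.mean (fun R : RR F => (NN 9 0 R z : ℝ)) - s) with hB1
  set B2 : Pt F → Finset (RR F) := fun z => univ.filter (fun R : RR F =>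
    McD.mean (fun R : RR F => (NN 9 1 R z : ℝ)) + s ≤ (NN 9 1 R z : ℝ)) with hB2
  have hexp : Real.exp (-2 * s ^ 2 / ∑ _i : Option F, (2000 : ℝ) ^ 2) ≤ Real.exp (-(η * q)) := by
    apply Real.exp_le_exp.mpr
    rw [sum_const, card_univ, Fintype.card_option, nsmul_eq_mul]
    have h1 : ((Fintype.card F + 1 : ℕ) : ℝ) = q + 1 := by
      rw [hqdef]; push_cast; rfl
    rw [h1, hs, hη]
    have h2 : (0 : ℝ) < ((q : ℝ) + 1) * 2000 ^ 2 := by positivity
    rw [div_le_iff₀ h2]
    have h3 : (0 : ℝ) ≤ δ ^ 2 * q * (q - 1) := by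
      have : (0 : ℝ) ≤ (q : ℝ) - 1 := by linarith
      positivity
    nlinarith
  have hb1 : ∀ z, ((B1 z).card : ℝ) ≤ Real.exp (-(η * q)) * TT q ^ (q + 1) := by
    intro z
    have h := McD.card_lower_tail (fun R : RR F => (NN 9 0 R z : ℝ)) (fun _ => 2000)
      (fun i R y => NN_diff 9 0 z i R y) s hs0
    refine le_trans h ?_
    have hc : ((Fintype.card ((i : Option F) → (fun _ => Fin kap → F) i) : ℕ) : ℝ)
      = TT q ^ (q + 1) := hcard
    rw [hc]
    exact mul_le_mul_of_nonneg_right hexp hTpos.le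
  have hb2 : ∀ z, ((B2 z).card : ℝ) ≤ Real.exp (-(η * q)) * TT q ^ (q + 1) := by
    intro z
    have h := McD.card_upper_tail (fun R : RR F => (NN 9 1 R z : ℝ)) (fun _ => 2000)
      (fun i R y => NN_diff 9 1 z i R y) s hs0
    refine le_trans h ?_
    have hc : ((Fintype.card ((i : Option F) → (fun _ => Fin kap → F) i) : ℕ) : ℝ)
      = TT q ^ (q + 1) := hcard
    rw [hc]
    exact mul_le_mul_of_nonneg_right hexp hTpos.le
  refine ⟨univ.biUnion (fun z => B1 z ∪ B2 z), ?_, ?_⟩
  · intro R hR z z'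
    have hR' : ∀ z, R ∉ B1 z ∧ R ∉ B2 z := by
      intro z
      constructor
      · intro h
        exact hR (mem_biUnion.mpr ⟨z, mem_univ _, mem_union_left _ h⟩)
      · intro h
        exact hR (mem_biUnion.mpr ⟨z, mem_univ _, mem_union_right _ h⟩)
    have h1 := (hR' z).1
    have h2 := (hR' z').2
    simp only [hB1, hB2, mem_filter, mem_univ, true_and, not_le] at h1 h2
    have h3 := hm1 z
    have h4 := hm2 z'
    have key : (4 * (18 * (NN 9 1 R z' : ℝ) + 9000)) ≤ (NN 9 0 R z : ℝ) := by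
      have e1 : s = 3 / 1000 * (c0 * q) := by rw [hs, hδ]; ring
      nlinarith
    rw [N1_eq, N2_eq]
    exact_mod_cast key
  · have h1 : ((univ.biUnion (fun z => B1 z ∪ B2 z)).card : ℝ) ≤
        4 * (q : ℝ) ^ 2 * (Real.exp (-(η * q)) * TT q ^ (q + 1)) := by
      have h2 : ((univ.biUnion (fun z => B1 z ∪ B2 z)).card : ℝ) ≤
          ∑ z : Pt F, (((B1 z).card : ℝ) + ((B2 z).card : ℝ)) := by
        have h3 : (univ.biUnion (fun z => B1 z ∪ B2 z)).card ≤
            ∑ z : Pt F, ((B1 z).card + (B2 z).card) :=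
          le_trans card_biUnion_le (sum_le_sum (fun z _ => card_union_le _ _))
        exact_mod_cast h3
      refine le_trans h2 ?_
      have h4 : ∑ z : Pt F, (((B1 z).card : ℝ) + ((B2 z).card : ℝ)) ≤
          ∑ _z : Pt F, (2 * (Real.exp (-(η * q)) * TT q ^ (q + 1))) := by
        apply sum_le_sum
        intro z _
        have := hb1 z
        have := hb2 z
        linarith
      refine le_trans h4 ?_
      rw [sum_const, card_univ, Fintype.card_prod, Fintype.card_option, nsmul_eq_mul]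
      have h5 : (((Fintype.card F + 1) * Fintype.card F : ℕ) : ℝ) = (q + 1) * q := by
        rw [hqdef]; push_cast; rfl
      rw [h5]
      have h6 : 0 ≤ Real.exp (-(η * q)) * TT q ^ (q + 1) := by positivity
      have h7 : ((q : ℝ) + 1) * q * 2 ≤ 4 * (q : ℝ) ^ 2 := by nlinarith
      calc ((q : ℝ) + 1) * q * (2 * (Real.exp (-(η * q)) * TT q ^ (q + 1)))
          = ((q : ℝ) + 1) * q * 2 * (Real.exp (-(η * q)) * TT q ^ (q + 1)) := by ring
        _ ≤ _ := mul_le_mul_of_nonneg_right h7 h6
    have h8 := hq1 q hqB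
    have h9 : (10 * ((univ.biUnion (fun z => B1 z ∪ B2 z)).card : ℝ)) ≤
        ((Fintype.card (RR F) : ℕ) : ℝ) := by
      rw [hcard]
      calc (10 * ((univ.biUnion (fun z => B1 z ∪ B2 z)).card : ℝ)) ≤
          10 * (4 * (q : ℝ) ^ 2 * (Real.exp (-(η * q)) * TT q ^ (q + 1))) := by linarith
        _ = (40 * (q : ℝ) ^ 2 * Real.exp (-(η * q))) * TT q ^ (q + 1) := by ring
        _ ≤ 1 * TT q ^ (q + 1) := mul_le_mul_of_nonneg_right h8 hTpos.le
        _ = TT q ^ (q + 1) := one_mul _
    exact_mod_cast h9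

end Crest.Agent.R034.R2M
end

-- ▼ part R034/R3
section

/-!
# Row 34, module M7: `SpecR3` (grid property)

Potential-function argument (no concentration inequality): every draw hits at most two lines of the
grid, `E (1/2)^{#unhit} ≤ lam^{#lines}` with `lam ≤ 1 - exp (-12000)/2`, and a union bound over all
grids.
-/

set_option autoImplicit false

namespace Crest.Agent.R034

open Finset

/-- the base of the potential after `n` draws -/
noncomputable def lam (q : ℝ) (n : ℕ) : ℝ := 1 - (1 / 2) * (1 - 3 / q) ^ n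

lemma lam_zero (q : ℝ) : lam q 0 = 1 / 2 := by norm_num [lam]

lemma lam_lt_one {q : ℝ} (hq : 6 ≤ q) (n : ℕ) : lam q n < 1 := by
  have h1 : 0 < 1 - 3 / q := by
    have : 3 / q ≤ 1 / 2 := by rw [div_le_iff₀ (by linarith)]; linarith
    linarith
  have := pow_pos h1 n
  unfold lam; linarith

lemma half_le_lam {q : ℝ} (hq : 6 ≤ q) (n : ℕ) : 1 / 2 ≤ lam q n := by
  have h0 : 0 ≤ 1 - 3 / q := by
    have : 3 / q ≤ 1 / 2 := by rw [div_le_iff₀ (by linarith)]; linarith
    linarith
  have h1 : 1 - 3 / q ≤ 1 := by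
    have : 0 ≤ 3 / q := by positivity
    linarith
  have := pow_le_one₀ (n := n) h0 h1
  unfold lam; linarith

lemma lam_succ {q : ℝ} (n : ℕ) : lam q (n + 1) = lam q n + (1 - lam q n) * (3 / q) := by
  unfold lam; ring

/-- one step of the potential -/
lemma lam_step {q : ℝ} (hq : 6 ≤ q) (n x : ℕ) :
    lam q n ^ x * (q + x * (((lam q n)⁻¹ ^ 2 - 1) / 2)) ≤ q * lam q (n + 1) ^ x := by
  have hl := half_le_lam hq n
  have hl1 := lam_lt_one hq n
  set l := lam q n with hldef
  have hl0 : 0 < l := by linarith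
  have hq0 : 0 < q := by linarith
  have hmu : ((l)⁻¹ ^ 2 - 1) / 2 ≤ 3 * (1 - l) := by
    have h1 : l⁻¹ * l = 1 := inv_mul_cancel₀ hl0.ne'
    have h2 : l⁻¹ ≤ 2 := by
      rw [inv_le_comm₀ hl0 (by norm_num)]; linarith
    have h3 : 0 < l⁻¹ := by positivity
    -- l⁻¹^2 - 1 = (l⁻¹ - 1)(l⁻¹+1) = (1-l) l⁻¹ (l⁻¹+1)
    have h4 : l⁻¹ ^ 2 - 1 = (1 - l) * (l⁻¹ * (l⁻¹ + 1)) := by
      have : (1 - l) * (l⁻¹ * (l⁻¹ + 1)) = (l⁻¹ - l⁻¹ * l) * (l⁻¹ + 1) := by ring
      rw [this, h1]; ring
    rw [h4]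
    have h5 : l⁻¹ * (l⁻¹ + 1) ≤ 6 := by nlinarith
    nlinarith [mul_le_mul_of_nonneg_left h5 (by linarith : (0:ℝ) ≤ 1 - l)]
  have hx : (0:ℝ) ≤ x := Nat.cast_nonneg x
  have hbase : l * (1 + 3 * (1 - l) / q) ≤ lam q (n + 1) := by
    rw [lam_succ, ← hldef]
    have : 0 ≤ (1 - l) * (3 / q) := mul_nonneg (by linarith) (by positivity)
    have h6 : l * (1 + 3 * (1 - l) / q) = l + l * ((1 - l) * (3 / q)) := by ring
    rw [h6]
    nlinarith
  have hbern : 1 + (x:ℝ) * (3 * (1 - l) / q) ≤ (1 + 3 * (1 - l) / q) ^ x := by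
    apply one_add_mul_le_pow
    have : 0 ≤ 3 * (1 - l) / q := div_nonneg (by linarith) hq0.le
    linarith
  calc l ^ x * (q + x * (((l)⁻¹ ^ 2 - 1) / 2))
      ≤ l ^ x * (q + x * (3 * (1 - l))) := by
        apply mul_le_mul_of_nonneg_left _ (by positivity)
        have := mul_le_mul_of_nonneg_left hmu hx
        linarith
    _ = q * (l ^ x * (1 + x * (3 * (1 - l) / q))) := by field_simp
    _ ≤ q * (l ^ x * (1 + 3 * (1 - l) / q) ^ x) := by
        apply mul_le_mul_of_nonneg_left _ hq0.le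
        apply mul_le_mul_of_nonneg_left hbern (by positivity)
    _ = q * (l * (1 + 3 * (1 - l) / q)) ^ x := by rw [mul_pow]
    _ ≤ q * lam q (n + 1) ^ x := by
        apply mul_le_mul_of_nonneg_left _ hq0.le
        apply pow_le_pow_left₀ _ hbase
        have : 0 ≤ 3 * (1 - l) / q := div_nonneg (by linarith) hq0.le
        positivity

/-- The potential lemma. -/
lemma potential {α : Type} [DecidableEq α] {F : Type} [Fintype F] [DecidableEq F]
    (hq : 6 ≤ Fintype.card F) (n : ℕ) :
    ∀ (h : Fin n → F → Finset α), (∀ d y, (h d y).card ≤ 2) →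
      (∀ d y y', y ≠ y' → Disjoint (h d y) (h d y')) → ∀ L : Finset α,
      ∑ R : Fin n → F, (1 / 2 : ℝ) ^ (L \ univ.biUnion (fun d => h d (R d))).card ≤
        (Fintype.card F : ℝ) ^ n * lam (Fintype.card F) n ^ L.card := by
  have hq' : (6:ℝ) ≤ (Fintype.card F : ℝ) := by exact_mod_cast hq
  induction n with
  | zero =>
    intro h _ _ L
    simp [lam_zero]
  | succ n ih =>
    intro h h2 hd L
    set l := lam (Fintype.card F : ℝ) n with hldef
    have hl := half_le_lam hq' n
    have hl1 := lam_lt_one hq' n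
    rw [← hldef] at hl hl1
    have hl0 : 0 < l := by linarith
    rw [← (Fin.consEquiv (fun _ : Fin (n+1) => F)).sum_comp, Fintype.sum_prod_type]
    have hset : ∀ (y : F) (R : Fin n → F),
        L \ univ.biUnion (fun d => h d ((Fin.consEquiv (fun _ : Fin (n+1) => F)) (y, R) d)) =
        (L \ h 0 y) \ univ.biUnion (fun d : Fin n => h d.succ (R d)) := by
      intro y R
      ext c
      simp only [mem_sdiff, mem_biUnion, mem_univ, true_and, Fin.exists_fin_succ, Fin.consEquiv_apply,
        Fin.cons_zero, Fin.cons_succ, not_or]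
      tauto
    have h1 : ∀ y : F, ∑ R : Fin n → F, (1 / 2 : ℝ) ^ (L \ univ.biUnion
        (fun d => h d ((Fin.consEquiv (fun _ : Fin (n+1) => F)) (y, R) d))).card ≤
        (Fintype.card F : ℝ) ^ n * (l ^ L.card * (1 + (L ∩ h 0 y).card * (((l)⁻¹ ^ 2 - 1) / 2))) := by
      intro y
      simp_rw [hset]
      refine (ih (fun d => h d.succ) (fun d => h2 d.succ) (fun d => hd d.succ) (L \ h 0 y)).trans ?_
      apply mul_le_mul_of_nonneg_left _ (by positivity)
      have hc : (L \ h 0 y).card + (L ∩ h 0 y).card = L.card := by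
        rw [add_comm]; exact card_inter_add_card_sdiff L (h 0 y)
      have ha : (L ∩ h 0 y).card ≤ 2 := (card_le_card inter_subset_right).trans (h2 0 y)
      rw [← hc, pow_add]
      generalize (L ∩ h 0 y).card = a at ha
      have hpos : 0 ≤ l ^ (L \ h 0 y).card := by positivity
      rw [mul_assoc]
      apply le_mul_of_one_le_right hpos
      have hinv : l * l⁻¹ = 1 := mul_inv_cancel₀ hl0.ne'
      interval_cases a
      · simp
      · simp only [Nat.cast_one, pow_one, one_mul]
        have : l * (1 + (l⁻¹ ^ 2 - 1) / 2) - 1 = l * (l⁻¹ - 1) ^ 2 / 2 + (l * l⁻¹ - 1) := by ring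
        have h3 : 0 ≤ l * (l⁻¹ - 1) ^ 2 / 2 := by positivity
        rw [hinv] at this
        linarith
      · have : l ^ 2 * (1 + ((2:ℕ):ℝ) * ((l⁻¹ ^ 2 - 1) / 2)) = (l * l⁻¹) ^ 2 := by push_cast; ring
        rw [this, hinv]; norm_num
    refine (sum_le_sum fun y _ => h1 y).trans ?_
    rw [← mul_sum, ← mul_sum, sum_add_distrib, ← sum_mul]
    have hs : ∑ y : F, ((L ∩ h 0 y).card : ℝ) ≤ L.card := by
      have : (univ.biUnion (fun y => L ∩ h 0 y)).card = ∑ y : F, (L ∩ h 0 y).card := by
        apply card_biUnion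
        intro y _ y' _ hne
        exact (hd 0 y y' hne).mono inter_subset_right inter_subset_right
      have h4 : (univ.biUnion (fun y => L ∩ h 0 y)).card ≤ L.card := by
        apply card_le_card
        intro c hc
        simp only [mem_biUnion, mem_inter] at hc
        obtain ⟨_, _, h5, _⟩ := hc
        exact h5
      rw [this] at h4
      exact_mod_cast h4
    have hmu : 0 ≤ ((l)⁻¹ ^ 2 - 1) / 2 := by
      have : 1 ≤ l⁻¹ := (one_le_inv₀ hl0).2 hl1.le
      have : 1 ≤ l⁻¹ ^ 2 := one_le_pow₀ this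
      linarith
    have hstep := lam_step hq' n L.card
    rw [← hldef] at hstep
    calc (Fintype.card F : ℝ) ^ n * (l ^ L.card * (∑ _y : F, (1:ℝ) +
          (∑ y : F, ((L ∩ h 0 y).card : ℝ)) * (((l)⁻¹ ^ 2 - 1) / 2)))
        ≤ (Fintype.card F : ℝ) ^ n * (l ^ L.card * ((Fintype.card F : ℝ) +
          (L.card : ℝ) * (((l)⁻¹ ^ 2 - 1) / 2))) := by
          apply mul_le_mul_of_nonneg_left _ (by positivity)
          apply mul_le_mul_of_nonneg_left _ (by positivity)
          have := mul_le_mul_of_nonneg_right hs hmu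
          simp only [sum_const, card_univ, nsmul_eq_mul, mul_one]
          linarith
      _ ≤ (Fintype.card F : ℝ) ^ n * ((Fintype.card F : ℝ) * lam (Fintype.card F : ℝ) (n + 1) ^ L.card) :=
          mul_le_mul_of_nonneg_left hstep (by positivity)
      _ = _ := by rw [pow_succ]; ring

section
variable {F : Type} [Field F] [Fintype F] [DecidableEq F]

/-- the bad event of one grid -/
def badGrid (k : ℕ) (T W : Fin k → Pt F) : Finset (RR F) :=
  univ.filter (fun R => (∀ i, T i ∉ Kset R) ∧ (∀ j, W j ∉ Kset R) ∧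
    ∀ i j, ¬ Avoids (Kset R) (thru (T i) (W j)))

/-- number of draws -/
lemma card_RR (F : Type) [Fintype F] [DecidableEq F] :
    Fintype.card (RR F) = Fintype.card F ^ ((Fintype.card F + 1) * kap) := by
  simp only [RR, Fintype.card_pi, prod_const, Fintype.card_fin, card_univ, Fintype.card_option]
  rw [← pow_mul, mul_comm]

lemma badGrid_card (hq : 6 ≤ Fintype.card F) (k : ℕ) (T W : Fin k → Pt F) (hG : Grid k T W) :
    ((badGrid k T W).card : ℝ) ≤ (Fintype.card (RR F) : ℝ) *
      lam (Fintype.card F) ((Fintype.card F + 1) * kap) ^ (k * k) := by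
  classical
  set M := (Fintype.card F + 1) * kap with hM
  have hcard : Fintype.card (Option F × Fin kap) = M := by
    simp [hM]
  let e : Fin M ≃ Option F × Fin kap := (finCongr hcard.symm).trans (Fintype.equivFin _).symm
  let h : Fin M → F → Finset (Fin k × Fin k) := fun d y =>
    univ.filter (fun c => val (thru (T c.1) (W c.2)) (e d).1 = y ∧
      (∀ i, T i ≠ ((e d).1, y)) ∧ (∀ j, W j ≠ ((e d).1, y)))
  have h2 : ∀ d y, (h d y).card ≤ 2 := by
    intro d y
    by_cases hTW : (∀ i, T i ≠ ((e d).1, y)) ∧ (∀ j, W j ≠ ((e d).1, y))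
    · refine (card_le_card ?_).trans (hG.two ((e d).1, y) hTW.1 hTW.2)
      intro c hc
      simp only [h, mem_filter, mem_univ, true_and] at hc ⊢
      exact hc.1
    · have : h d y = ∅ := by
        ext c
        simp only [h, mem_filter, mem_univ, true_and, notMem_empty, iff_false]
        intro hc
        exact hTW hc.2
      rw [this]; simp
  have hd : ∀ d y y', y ≠ y' → Disjoint (h d y) (h d y') := by
    intro d y y' hne
    rw [disjoint_left]
    intro c hc hc'
    simp only [h, mem_filter, mem_univ, true_and] at hc hc'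
    exact hne (hc.1.symm.trans hc'.1)
  have hpot := potential hq M h h2 hd univ
  have hinj : (badGrid k T W).card ≤
      (univ.filter (fun R' : Fin M → F => univ \ univ.biUnion (fun d => h d (R' d)) = ∅)).card := by
    apply card_le_card_of_injOn (fun R d => R (e d).1 (e d).2)
    · intro R hR
      simp only [badGrid, coe_filter, mem_univ, true_and, Set.mem_ofPred_eq] at hR
      obtain ⟨hT, hW, hL⟩ := hR
      simp only [coe_filter, mem_univ, true_and, Set.mem_ofPred_eq]
      rw [sdiff_eq_empty_iff_subset]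
      intro c _
      have hc := hL c.1 c.2
      unfold Avoids at hc
      push Not at hc
      obtain ⟨j, hj⟩ := hc
      have hj' := hj
      simp only [Kset, mem_filter, mem_univ, true_and] at hj
      obtain ⟨r, hr⟩ := hj
      simp only [mem_biUnion, mem_univ, true_and]
      refine ⟨e.symm (j, r), ?_⟩
      simp only [h, Equiv.apply_symm_apply, mem_filter, mem_univ, true_and]
      refine ⟨hr.symm, ?_, ?_⟩
      · intro i hi
        rw [hr] at hi
        exact hT i (hi ▸ hj')
      · intro i hi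
        rw [hr] at hi
        exact hW i (hi ▸ hj')
    · intro R _ R' _ hRR
      funext j r
      have := congrFun hRR (e.symm (j, r))
      simpa using this
  have hsum : (((univ.filter (fun R' : Fin M → F =>
      univ \ univ.biUnion (fun d => h d (R' d)) = ∅)).card : ℕ) : ℝ) ≤
      ∑ R : Fin M → F, (1 / 2 : ℝ) ^ (univ \ univ.biUnion (fun d => h d (R d))).card := by
    rw [card_filter]
    push_cast
    apply sum_le_sum
    intro R _
    split_ifs with h0
    · rw [h0]; simp
    · positivity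
  have hu : (univ : Finset (Fin k × Fin k)).card = k * k := by simp
  rw [hu] at hpot
  calc ((badGrid k T W).card : ℝ) ≤ _ := by exact_mod_cast hinj
    _ ≤ _ := hsum
    _ ≤ _ := hpot
    _ = _ := by
      rw [card_RR]; push_cast; rfl

/-- the constant -/
noncomputable def c1 : ℝ := (1 / 2) * Real.exp (-12000)

lemma c1_pos : 0 < c1 := by unfold c1; positivity

lemma lam_le_aux {q M : ℕ} (hq : 6 ≤ q) (hM : (M:ℝ) = ((q:ℝ) + 1) * 1000) :
    lam q M ≤ Real.exp (-c1) := by
  have hq' : (6:ℝ) ≤ q := by exact_mod_cast hq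
  have hx : (3:ℝ) / q ≤ 1 / 2 := by rw [div_le_iff₀ (by linarith)]; linarith
  have h1 : Real.exp (-(6 / q)) ≤ 1 - 3 / (q:ℝ) := by
    have h2 := Real.add_one_le_exp (6 / (q:ℝ))
    rw [Real.exp_neg, inv_le_comm₀ (Real.exp_pos _) (by linarith)]
    refine le_trans ?_ h2
    rw [inv_le_comm₀ (by linarith) (by positivity)]
    have h3 : (6:ℝ) / q = 2 * (3 / q) := by ring
    rw [h3]
    set x := (3:ℝ) / q with hxdef
    have hx0 : 0 < x := by positivity
    rw [inv_eq_one_div, div_le_iff₀ (by linarith)]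
    nlinarith
  have h4 : Real.exp (-12000) ≤ (1 - 3 / (q:ℝ)) ^ M := by
    have h5 : Real.exp (-(6 / (q:ℝ))) ^ M ≤ (1 - 3 / (q:ℝ)) ^ M :=
      pow_le_pow_left₀ (Real.exp_pos _).le h1 _
    refine le_trans ?_ h5
    rw [← Real.exp_nat_mul]
    apply Real.exp_le_exp.2
    rw [hM]
    have : ((q:ℝ) + 1) * 1000 * (-(6 / q)) = -6000 - 6000 / q := by field_simp; ring
    rw [this]
    have : (6000:ℝ) / q ≤ 6000 := by
      rw [div_le_iff₀ (by linarith)]; linarith
    linarith
  have h6 := Real.add_one_le_exp (-c1)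
  unfold lam
  unfold c1 at h6 ⊢
  linarith

lemma lam_le {q : ℕ} (hq : 6 ≤ q) : lam q ((q + 1) * kap) ≤ Real.exp (-c1) := by
  apply lam_le_aux hq
  rw [Nat.cast_mul, Nat.cast_add, Nat.cast_one]
  congr 1

/-- elementary growth comparison -/
lemma growth (N : ℕ) : ∃ K0 : ℕ, 1 ≤ K0 ∧ ∀ k : ℕ, K0 ≤ k →
    Real.log 10 + 4 * N * Real.log (k + 1) ≤ c1 * k := by
  have h1 : Filter.Tendsto (fun x : ℝ => Real.log x / x) Filter.atTop (nhds 0) := by
    have := Real.isLittleO_log_id_atTop.tendsto_div_nhds_zero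
    simpa using this
  have h2 : Filter.Tendsto (fun k : ℕ => Real.log ((k:ℝ) + 1) / ((k:ℝ) + 1)) Filter.atTop (nhds 0) :=
    h1.comp (Filter.tendsto_atTop_add_const_right _ _ tendsto_natCast_atTop_atTop)
  have hc := c1_pos
  have h3 := h2.eventually (gt_mem_nhds (show (0:ℝ) < c1 / (4 * (4 * N + 1)) by positivity))
  have h4 : ∀ᶠ k : ℕ in Filter.atTop, (2 * Real.log 10 / c1 : ℝ) ≤ k :=
    tendsto_natCast_atTop_atTop.eventually (Filter.eventually_ge_atTop _)
  obtain ⟨K0, hK0⟩ := Filter.eventually_atTop.1 (h3.and (h4.and (Filter.eventually_ge_atTop 1)))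
  refine ⟨max K0 1, le_max_right _ _, fun k hk => ?_⟩
  obtain ⟨h5, h6, h7⟩ := hK0 k ((le_max_left _ _).trans hk)
  have hk1 : (1:ℝ) ≤ k := by exact_mod_cast h7
  have h8 : Real.log ((k:ℝ) + 1) ≤ c1 / (4 * (4 * N + 1)) * (k + 1) := by
    rw [div_lt_iff₀ (by positivity)] at h5
    exact h5.le
  have h9 : 4 * N * Real.log ((k:ℝ)+1) ≤ c1 * k / 2 := by
    have hN : (0:ℝ) ≤ 4 * N := by positivity
    calc 4 * N * Real.log ((k:ℝ)+1) ≤ 4 * N * (c1 / (4 * (4 * N + 1)) * (k + 1)) :=
          mul_le_mul_of_nonneg_left h8 hN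
      _ ≤ (4 * N + 1) * (c1 / (4 * (4 * N + 1)) * (k + 1)) := by
          apply mul_le_mul_of_nonneg_right (by linarith) (by positivity)
      _ = c1 * (k + 1) / 4 := by field_simp
      _ ≤ c1 * k / 2 := by nlinarith
  have h10 : Real.log 10 ≤ c1 * k / 2 := by
    rw [div_le_iff₀ hc] at h6
    linarith
  linarith

end

theorem specR3 : SpecR3 := by
  classical
  intro N hN
  obtain ⟨K0, hK01, hK0⟩ := growth N
  refine ⟨(K0 + 1) ^ N + 6, ?_⟩
  intro F _ _ _ hqF k hk
  have hq6 : 6 ≤ Fintype.card F := by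
    have : 0 ≤ (K0 + 1) ^ N := Nat.zero_le _
    simp only [ord] at hqF
    omega
  have hkK : K0 ≤ k := by
    by_contra hlt
    push Not at hlt
    have h1 : (k + 1) ^ N ≤ (K0 + 1) ^ N := Nat.pow_le_pow_left (by omega) N
    have h2 := hk.2
    omega
  have hk1 : 1 ≤ k := hK01.trans hkK
  have hgr := hK0 k hkK
  refine ⟨univ.filter (fun R => ¬ R3 R k), ?_, ?_⟩
  · intro R hR
    simpa using hR
  · -- union bound
    set q := Fintype.card F with hqdef
    have hsub : (univ.filter (fun R : RR F => ¬ R3 R k)) ⊆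
        (univ.filter (fun p : (Fin k → Pt F) × (Fin k → Pt F) => Grid k p.1 p.2)).biUnion
          (fun p => badGrid k p.1 p.2) := by
      intro R hR
      rw [mem_filter] at hR
      have hR := hR.2
      unfold R3 at hR
      push Not at hR
      obtain ⟨T, W, hG, hT, hW, hL⟩ := hR
      simp only [mem_biUnion, mem_filter, mem_univ, true_and, badGrid]
      exact ⟨(T, W), hG, hT, hW, hL⟩
    have hcard := (card_le_card hsub).trans card_biUnion_le
    have hsum : ((∑ p ∈ (univ.filter (fun p : (Fin k → Pt F) × (Fin k → Pt F) => Grid k p.1 p.2)),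
        (badGrid k p.1 p.2).card : ℕ) : ℝ) ≤
        (((q + 1) * q : ℕ) : ℝ) ^ (2 * k) * ((Fintype.card (RR F) : ℝ) *
          Real.exp (-c1) ^ (k * k)) := by
      push_cast
      calc (∑ p ∈ (univ.filter (fun p : (Fin k → Pt F) × (Fin k → Pt F) => Grid k p.1 p.2)),
            ((badGrid k p.1 p.2).card : ℝ))
          ≤ ∑ _p ∈ (univ.filter (fun p : (Fin k → Pt F) × (Fin k → Pt F) => Grid k p.1 p.2)),
            ((Fintype.card (RR F) : ℝ) * Real.exp (-c1) ^ (k * k)) := by
            apply sum_le_sum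
            intro p hp
            simp only [mem_filter, mem_univ, true_and] at hp
            refine (badGrid_card hq6 k p.1 p.2 hp).trans ?_
            apply mul_le_mul_of_nonneg_left _ (by positivity)
            apply pow_le_pow_left₀
            · have := half_le_lam (q := (Fintype.card F : ℝ)) (by exact_mod_cast hq6)
                ((Fintype.card F + 1) * kap)
              linarith
            · exact lam_le hq6
        _ = ((univ.filter (fun p : (Fin k → Pt F) × (Fin k → Pt F) => Grid k p.1 p.2)).card : ℝ) *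
            ((Fintype.card (RR F) : ℝ) * Real.exp (-c1) ^ (k * k)) := by
            rw [sum_const, nsmul_eq_mul]
        _ ≤ _ := by
            apply mul_le_mul_of_nonneg_right _ (by positivity)
            have h1 : (univ.filter (fun p : (Fin k → Pt F) × (Fin k → Pt F) => Grid k p.1 p.2)).card
                ≤ ((q + 1) * q) ^ (2 * k) := by
              refine (card_le_univ _).trans ?_
              simp only [Fintype.card_prod, Fintype.card_pi, prod_const, card_univ, Fintype.card_fin,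
                Fintype.card_option]
              rw [two_mul, pow_add]
            exact_mod_cast h1
    have hreal : (10 : ℝ) * ((((q + 1) * q : ℕ) : ℝ) ^ (2 * k) * Real.exp (-c1) ^ (k * k)) ≤ 1 := by
      have hkq : q + 1 ≤ (k + 1) ^ N := hk.2
      have h1 : (((q + 1) * q : ℕ) : ℝ) ≤ ((k:ℝ) + 1) ^ (2 * N) := by
        have : (q + 1) * q ≤ (k + 1) ^ (2 * N) := by
          rw [two_mul, pow_add]
          exact Nat.mul_le_mul hkq (by omega)
        exact_mod_cast this
      have hk1' : (0:ℝ) < (k:ℝ) + 1 := by positivity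
      calc (10 : ℝ) * ((((q + 1) * q : ℕ) : ℝ) ^ (2 * k) * Real.exp (-c1) ^ (k * k))
          ≤ 10 * ((((k:ℝ) + 1) ^ (2 * N)) ^ (2 * k) * Real.exp (-c1) ^ (k * k)) := by
            apply mul_le_mul_of_nonneg_left _ (by norm_num)
            apply mul_le_mul_of_nonneg_right _ (by positivity)
            exact pow_le_pow_left₀ (by positivity) h1 _
        _ = Real.exp (Real.log 10 + (k:ℝ) * (4 * N * Real.log (k + 1)) - c1 * k * k) := by
            rw [← pow_mul, Real.exp_sub, Real.exp_add, Real.exp_log (by norm_num), ← Real.exp_nat_mul,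
              div_eq_mul_inv, ← Real.exp_neg]
            have h2 : Real.exp ((k:ℝ) * (4 * N * Real.log (k + 1))) = ((k:ℝ) + 1) ^ (2 * N * (2 * k)) := by
              rw [← Real.exp_log (pow_pos hk1' _), Real.log_pow]
              congr 1
              push_cast; ring
            have h3 : Real.exp (((k * k : ℕ):ℝ) * -c1) = Real.exp (-(c1 * k * k)) := by
              congr 1; push_cast; ring
            rw [h2, h3]; ring
        _ ≤ 1 := by
            rw [Real.exp_le_one_iff]
            have hk1'' : (1:ℝ) ≤ k := by exact_mod_cast hk1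
            have hl10 : 0 ≤ Real.log 10 := Real.log_nonneg (by norm_num)
            nlinarith
    have hfin : (10:ℝ) * ((univ.filter (fun R : RR F => ¬ R3 R k)).card : ℝ) ≤
        (Fintype.card (RR F) : ℝ) := by
      have h1 : ((univ.filter (fun R : RR F => ¬ R3 R k)).card : ℝ) ≤ _ :=
        (Nat.cast_le.2 hcard).trans hsum
      calc (10:ℝ) * ((univ.filter (fun R : RR F => ¬ R3 R k)).card : ℝ)
          ≤ 10 * ((((q + 1) * q : ℕ) : ℝ) ^ (2 * k) * ((Fintype.card (RR F) : ℝ) *
          Real.exp (-c1) ^ (k * k))) := mul_le_mul_of_nonneg_left h1 (by norm_num)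
        _ = (Fintype.card (RR F) : ℝ) * ((10 : ℝ) * ((((q + 1) * q : ℕ) : ℝ) ^ (2 * k) *
          Real.exp (-c1) ^ (k * k))) := by ring
        _ ≤ (Fintype.card (RR F) : ℝ) * 1 := mul_le_mul_of_nonneg_left hreal (by positivity)
        _ = _ := mul_one _
    exact_mod_cast hfin

end Crest.Agent.R034
end

-- ▼ part R034/R4

/-!
# Module M8 of row 34: `SpecR4` (many label choices)
-/

set_option autoImplicit false

namespace Crest.Agent.R034

open Finset

namespace R4

section abstract

variable {I F : Type} [Fintype I] [DecidableEq I] [Fintype F] [DecidableEq F] {κ : ℕ}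

/-- the number of labels `y` all of whose forbidden sets are avoided by `R` -/
def cnt (S : I → F → Finset F) (R : I → Fin κ → F) : ℕ :=
  (univ.filter (fun y : F => ∀ i r, R i r ∉ S i y)).card

omit [DecidableEq I] in
theorem cnt_le_add (S : I → F → Finset F) (s : ℕ)
    (hS : ∀ i w, (univ.filter (fun y : F => w ∈ S i y)).card ≤ s)
    (R R' : I → Fin κ → F) (i : I) (h : ∀ j, j ≠ i → R j = R' j) :
    cnt S R ≤ cnt S R' + κ * s := by
  classical
  have hsub : (univ.filter (fun y : F => ∀ i r, R i r ∉ S i y)) ⊆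
      (univ.filter (fun y : F => ∀ i r, R' i r ∉ S i y)) ∪
        (univ : Finset (Fin κ)).biUnion
          (fun r => univ.filter (fun y : F => R' i r ∈ S i y)) := by
    intro y hy
    simp only [mem_filter, mem_univ, true_and, mem_union, mem_biUnion] at hy ⊢
    by_cases hc : ∃ r, R' i r ∈ S i y
    · exact Or.inr hc
    · left
      intro j r
      by_cases hj : j = i
      · subst hj
        exact fun h' => hc ⟨r, h'⟩
      · rw [← h j hj]
        exact hy j r
  calc cnt S R ≤ _ := card_le_card hsub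
    _ ≤ _ := card_union_le _ _
    _ ≤ cnt S R' + κ * s := by
        refine Nat.add_le_add le_rfl ?_
        refine card_biUnion_le.trans ?_
        calc _ ≤ ∑ _r : Fin κ, s := sum_le_sum (fun r _ => hS i (R' i r))
          _ = κ * s := by simp

theorem cnt_diff (S : I → F → Finset F) (s : ℕ)
    (hS : ∀ i w, (univ.filter (fun y : F => w ∈ S i y)).card ≤ s)
    (i : I) (R : I → Fin κ → F) (x : Fin κ → F) :
    |(cnt S R : ℝ) - (cnt S (Function.update R i x) : ℝ)| ≤ κ * s := by
  have h1 := cnt_le_add S s hS R (Function.update R i x) i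
    (fun j hj => (Function.update_of_ne hj x R).symm)
  have h2 := cnt_le_add S s hS (Function.update R i x) R i
    (fun j hj => (Function.update_of_ne hj x R))
  have h1' : (cnt S R : ℝ) ≤ cnt S (Function.update R i x) + κ * s := by exact_mod_cast h1
  have h2' : (cnt S (Function.update R i x) : ℝ) ≤ cnt S R + κ * s := by exact_mod_cast h2
  rw [abs_le]
  constructor <;> linarith

theorem sum_cnt (S : I → F → Finset F) :
    ∑ R : I → Fin κ → F, cnt S R =
      ∑ y : F, ∏ i : I, (Fintype.card F - (S i y).card) ^ κ := by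
  classical
  have h1 : ∀ R : I → Fin κ → F, cnt S R =
      ∑ y : F, if (∀ i r, R i r ∉ S i y) then 1 else 0 := by
    intro R
    unfold cnt
    rw [card_filter]
  simp only [h1]
  rw [sum_comm]
  refine sum_congr rfl fun y _ => ?_
  rw [← card_filter]
  have h2 : (univ.filter (fun R : I → Fin κ → F => ∀ i r, R i r ∉ S i y)) =
      Fintype.piFinset (fun i => Fintype.piFinset (fun _ : Fin κ => (S i y)ᶜ)) := by
    ext R
    simp [Fintype.mem_piFinset]
  rw [h2, Fintype.card_piFinset]
  refine prod_congr rfl fun i _ => ?_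
  rw [Fintype.card_piFinset]
  simp [card_compl]

theorem one_sub_ge_exp (x : ℝ) (h0 : 0 ≤ x) (h1 : x ≤ 1 / 2) : Real.exp (-(2 * x)) ≤ 1 - x := by
  have h := Real.add_one_le_exp (2 * x)
  have hpos := Real.exp_pos (2 * x)
  rw [Real.exp_neg, inv_le_iff_one_le_mul₀ hpos]
  nlinarith

theorem mean_cnt (S : I → F → Finset F) (s : ℕ)
    (hS : ∀ i y, (S i y).card ≤ s) (hq : 2 * s ≤ Fintype.card F) (hq0 : 0 < Fintype.card F) :
    (Fintype.card F : ℝ) * Real.exp (-(2 * s * κ * Fintype.card I / Fintype.card F)) ≤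
      McD.mean (fun R : I → Fin κ → F => (cnt S R : ℝ)) := by
  set q := Fintype.card F with hqdef
  have hqpos : (0 : ℝ) < q := by exact_mod_cast hq0
  have hcard : Fintype.card (I → Fin κ → F) = (q ^ κ) ^ Fintype.card I := by
    simp [hqdef]
  unfold McD.mean
  rw [hcard]
  have hsum : (∑ R : I → Fin κ → F, (cnt S R : ℝ)) =
      ((∑ y : F, ∏ i : I, (q - (S i y).card) ^ κ : ℕ) : ℝ) := by
    rw [← sum_cnt S]
    push_cast
    rfl
  rw [hsum]
  have hle : q * ((q - s) ^ κ) ^ Fintype.card I ≤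
      ∑ y : F, ∏ i : I, (q - (S i y).card) ^ κ := by
    calc q * ((q - s) ^ κ) ^ Fintype.card I = ∑ _y : F, ((q - s) ^ κ) ^ Fintype.card I := by
          simp [hqdef]
      _ ≤ _ := by
          refine sum_le_sum fun y _ => ?_
          calc ((q - s) ^ κ) ^ Fintype.card I = ∏ _i : I, (q - s) ^ κ := by simp
            _ ≤ _ := by
                refine prod_le_prod' fun i _ => ?_
                exact Nat.pow_le_pow_left (Nat.sub_le_sub_left (hS i y) q) κ
  have hle' : ((q * ((q - s) ^ κ) ^ Fintype.card I : ℕ) : ℝ) ≤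
      ((∑ y : F, ∏ i : I, (q - (S i y).card) ^ κ : ℕ) : ℝ) := by exact_mod_cast hle
  have hsq : s ≤ q := by omega
  rw [le_div_iff₀ (by positivity)]
  refine le_trans ?_ hle'
  push_cast [Nat.cast_sub hsq]
  have hx : Real.exp (-(2 * ((s : ℝ) / q))) ≤ 1 - (s : ℝ) / q := by
    apply one_sub_ge_exp
    · positivity
    · rw [div_le_iff₀ hqpos]
      have : (2 * s : ℝ) ≤ q := by exact_mod_cast hq
      linarith
  have h3 : Real.exp (-(2 * s * κ * Fintype.card I / q)) ≤
      ((1 - (s : ℝ) / q) ^ κ) ^ Fintype.card I := by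
    calc Real.exp (-(2 * s * κ * Fintype.card I / q))
        = (Real.exp (-(2 * ((s : ℝ) / q)))) ^ (κ * Fintype.card I) := by
          rw [← Real.exp_nat_mul]
          congr 1
          push_cast
          ring
      _ ≤ (1 - (s : ℝ) / q) ^ (κ * Fintype.card I) :=
          pow_le_pow_left₀ (Real.exp_pos _).le hx _
      _ = _ := by rw [pow_mul]
  calc (q : ℝ) * Real.exp (-(2 * s * κ * Fintype.card I / q)) * ((q : ℝ) ^ κ) ^ Fintype.card I
      ≤ (q : ℝ) * ((1 - (s : ℝ) / q) ^ κ) ^ Fintype.card I *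
          ((q : ℝ) ^ κ) ^ Fintype.card I := by
        gcongr
    _ = (q : ℝ) * ((((1 - (s : ℝ) / q) * q)) ^ κ) ^ Fintype.card I := by
        rw [mul_pow, mul_pow]
        ring
    _ = (q : ℝ) * (((q : ℝ) - s) ^ κ) ^ Fintype.card I := by
        congr 3
        field_simp

/-- the tail bound -/
theorem card_bad (S : I → F → Finset F) (s : ℕ)
    (hS2 : ∀ i w, (univ.filter (fun y : F => w ∈ S i y)).card ≤ s)
    (c : ℝ) (hc : 0 ≤ c) (hmean : 2 * c * Fintype.card F ≤
      McD.mean (fun R : I → Fin κ → F => (cnt S R : ℝ))) [Nonempty F] :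
    ((univ.filter (fun R : I → Fin κ → F => (cnt S R : ℝ) < c * Fintype.card F)).card : ℝ) ≤
      Real.exp (-2 * (c * Fintype.card F) ^ 2 / (Fintype.card I * (κ * s : ℝ) ^ 2)) *
        Fintype.card (I → Fin κ → F) := by
  have h := McD.card_lower_tail (X := fun _ : I => Fin κ → F)
    (fun R : I → Fin κ → F => (cnt S R : ℝ)) (fun _ => (κ * s : ℝ))
    (fun i R x => cnt_diff S s hS2 i R x) (c * Fintype.card F) (by positivity)
  have hs : (∑ _i : I, ((κ : ℝ) * s) ^ 2) = Fintype.card I * (κ * s : ℝ) ^ 2 := by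
    simp
  rw [hs] at h
  refine le_trans ?_ h
  have : (univ.filter (fun R : I → Fin κ → F => (cnt S R : ℝ) < c * Fintype.card F)) ⊆
      (univ.filter (fun R : I → Fin κ → F => (cnt S R : ℝ) ≤
        McD.mean (fun R : I → Fin κ → F => (cnt S R : ℝ)) - c * Fintype.card F)) := by
    intro R hR
    simp only [mem_filter, mem_univ, true_and] at hR ⊢
    linarith
  exact_mod_cast card_le_card this

end abstract


/-! ### The plane -/

section plane

variable {F : Type} [Field F]

theorem val_thru_left (z z' : Pt F) (h : z.1 ≠ z'.1) : val (thru z z') z.1 = z.2 := by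
  obtain ⟨i, y⟩ := z
  obtain ⟨i', y'⟩ := z'
  cases i with
  | none =>
    cases i' with
    | none => exact absurd rfl h
    | some x' => rfl
  | some x =>
    cases i' with
    | none => simp [thru, val]
    | some x' => simp [thru, val]

theorem val_thru_right (z z' : Pt F) (h : z.1 ≠ z'.1) : val (thru z z') z'.1 = z'.2 := by
  obtain ⟨i, y⟩ := z
  obtain ⟨i', y'⟩ := z'
  cases i with
  | none =>
    cases i' with
    | none => exact absurd rfl h
    | some x' => simp [thru, val]
  | some x =>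
    cases i' with
    | none => simp [thru, val]
    | some x' =>
      have hx : x' - x ≠ 0 := by
        intro h'
        apply h
        simp only [sub_eq_zero] at h'
        simp [h']
      simp only [thru, val]
      field_simp
      ring

theorem eq_of_val_eq (l l' : Ln F) (i j : Option F) (hij : i ≠ j) (h1 : val l i = val l' i)
    (h2 : val l j = val l' j) : l = l' := by
  obtain ⟨m, b⟩ := l
  obtain ⟨m', b'⟩ := l'
  cases i with
  | none =>
    cases j with
    | none => exact absurd rfl hij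
    | some x =>
      simp only [val] at h1 h2
      subst h1
      simpa using h2
  | some x =>
    cases j with
    | none =>
      simp only [val] at h1 h2
      subst h2
      simpa using h1
    | some x' =>
      simp only [val] at h1 h2
      have hx : x - x' ≠ 0 := by
        intro h'
        apply hij
        rw [sub_eq_zero] at h'
        rw [h']
      have h3 : (m - m') * (x - x') = 0 := by linear_combination h1 - h2
      rcases mul_eq_zero.mp h3 with h4 | h4
      · have hm : m = m' := sub_eq_zero.mp h4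
        subst hm
        simp only [Prod.mk.injEq, true_and]
        exact add_left_cancel h1
      · exact absurd h4 hx

theorem inj_thru (a : Pt F) (j i : Option F) (hj : a.1 ≠ j) (hi : i ≠ a.1) :
    Function.Injective (fun y : F => val (thru a (j, y)) i) := by
  intro y y' h
  have h1 := val_thru_left a (j, y) hj
  have h2 := val_thru_left a (j, y') hj
  have h3 : thru a (j, y) = thru a (j, y') :=
    eq_of_val_eq _ _ i a.1 hi h (h1.trans h2.symm)
  have h4 := val_thru_right a (j, y) hj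
  have h5 := val_thru_right a (j, y') hj
  rw [h3] at h4
  exact h4.symm.trans h5

variable [Fintype F] [DecidableEq F]

theorem notMem_Kset (R : RR F) (i : Option F) (w : F) :
    (i, w) ∉ Kset R ↔ ∀ r, R i r ≠ w := by
  simp [Kset]

/-- the forbidden values -/
def SS (j j' : Option F) (v : Pt F) (A A' : Finset (Pt F)) (i : Option F) (y : F) : Finset F :=
  ((({v} : Finset (Pt F)).filter (fun a => i ≠ a.1)).image (fun a => val (thru a (j, y)) i)) ∪
  ((A.filter (fun a => i ≠ a.1)).image (fun a => val (thru a (j, y)) i)) ∪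
  ((A'.filter (fun a => i ≠ a.1)).image
    (fun a => val (thru a (j', val (thru v (j, y)) j')) i))

theorem card_SS (j j' : Option F) (v : Pt F) (A A' : Finset (Pt F)) (hA : A.card ≤ 8)
    (hA' : A'.card ≤ 8) (i : Option F) (y : F) : (SS j j' v A A' i y).card ≤ 17 := by
  unfold SS
  refine (card_union_le _ _).trans ?_
  have h1 : ((({v} : Finset (Pt F)).filter (fun a => i ≠ a.1)).image
      (fun a => val (thru a (j, y)) i)).card ≤ 1 :=
    card_image_le.trans ((card_filter_le _ _).trans (by simp))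
  have h2 : ((A.filter (fun a => i ≠ a.1)).image (fun a => val (thru a (j, y)) i)).card ≤ 8 :=
    card_image_le.trans ((card_filter_le _ _).trans hA)
  have h3 : ((A'.filter (fun a => i ≠ a.1)).image
      (fun a => val (thru a (j', val (thru v (j, y)) j')) i)).card ≤ 8 :=
    card_image_le.trans ((card_filter_le _ _).trans hA')
  have h4 := card_union_le ((({v} : Finset (Pt F)).filter (fun a => i ≠ a.1)).image
      (fun a => val (thru a (j, y)) i))
      ((A.filter (fun a => i ≠ a.1)).image (fun a => val (thru a (j, y)) i))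
  omega

theorem card_part (A : Finset (Pt F)) (i : Option F) (w : F) (g : Pt F → F → F)
    (hg : ∀ a ∈ A, i ≠ a.1 → Function.Injective (g a)) :
    (univ.filter (fun y : F => w ∈ (A.filter (fun a => i ≠ a.1)).image (fun a => g a y))).card
      ≤ A.card := by
  have hsub : (univ.filter (fun y : F => w ∈ (A.filter (fun a => i ≠ a.1)).image
      (fun a => g a y))) ⊆
      (A.filter (fun a => i ≠ a.1)).biUnion (fun a => univ.filter (fun y : F => g a y = w)) := by
    intro y hy
    simp only [mem_filter, mem_univ, true_and, mem_image, mem_biUnion] at hy ⊢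
    obtain ⟨a, ha, hw⟩ := hy
    exact ⟨a, ha, hw⟩
  refine (card_le_card hsub).trans (card_biUnion_le.trans ?_)
  calc ∑ a ∈ A.filter (fun a => i ≠ a.1), (univ.filter (fun y : F => g a y = w)).card
      ≤ ∑ _a ∈ A.filter (fun a => i ≠ a.1), 1 := by
        refine sum_le_sum fun a ha => ?_
        rw [mem_filter] at ha
        rw [card_le_one]
        intro y hy y' hy'
        simp only [mem_filter, mem_univ, true_and] at hy hy'
        exact hg a ha.1 ha.2 (hy.trans hy'.symm)
    _ = (A.filter (fun a => i ≠ a.1)).card := by simp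
    _ ≤ A.card := card_filter_le _ _

theorem card_SS' (j j' : Option F) (v : Pt F) (A A' : Finset (Pt F)) (hv : v.1 ≠ j)
    (hv' : v.1 ≠ j') (hAj : ∀ a ∈ A, a.1 ≠ j) (hAj' : ∀ a ∈ A', a.1 ≠ j')
    (hA : A.card ≤ 8) (hA' : A'.card ≤ 8) (i : Option F) (w : F) :
    (univ.filter (fun y : F => w ∈ SS j j' v A A' i y)).card ≤ 17 := by
  have hsub : (univ.filter (fun y : F => w ∈ SS j j' v A A' i y)) ⊆
      (univ.filter (fun y : F => w ∈ ((({v} : Finset (Pt F)).filter (fun a => i ≠ a.1)).image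
        (fun a => val (thru a (j, y)) i)))) ∪
      (univ.filter (fun y : F => w ∈ ((A.filter (fun a => i ≠ a.1)).image
        (fun a => val (thru a (j, y)) i)))) ∪
      (univ.filter (fun y : F => w ∈ ((A'.filter (fun a => i ≠ a.1)).image
        (fun a => val (thru a (j', val (thru v (j, y)) j')) i)))) := by
    intro y hy
    simp only [SS, mem_filter, mem_univ, true_and, mem_union] at hy ⊢
    exact hy
  have h1 := card_part ({v} : Finset (Pt F)) i w (fun a y => val (thru a (j, y)) i)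
    (fun a ha hi => by
      rw [mem_singleton] at ha
      subst ha
      exact inj_thru a j i hv hi)
  have h2 := card_part A i w (fun a y => val (thru a (j, y)) i)
    (fun a ha hi => inj_thru a j i (hAj a ha) hi)
  have h3 := card_part A' i w (fun a y => val (thru a (j', val (thru v (j, y)) j')) i)
    (fun a ha hi => (inj_thru a j' i (hAj' a ha) hi).comp (inj_thru v j j' hv hv'.symm))
  rw [card_singleton] at h1
  refine (card_le_card hsub).trans ((card_union_le _ _).trans ?_)
  have h4 := card_union_le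
    (univ.filter (fun y : F => w ∈ ((({v} : Finset (Pt F)).filter (fun a => i ≠ a.1)).image
        (fun a => val (thru a (j, y)) i))))
    (univ.filter (fun y : F => w ∈ ((A.filter (fun a => i ≠ a.1)).image
        (fun a => val (thru a (j, y)) i))))
  omega

theorem count_eq (R : RR F) (j j' : Option F) (v : Pt F) (A A' : Finset (Pt F)) :
    (univ.filter (fun y : F =>
      AvoidsOff (Kset R) v (thru v (j, y)) ∧
      (∀ a ∈ A, AvoidsOff (Kset R) a (thru a (j, y))) ∧
      (∀ a ∈ A', AvoidsOff (Kset R) a (thru a (j', val (thru v (j, y)) j'))))).card =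
    cnt (SS j j' v A A') R := by
  unfold cnt
  congr 1
  apply filter_congr
  intro y _
  simp only [AvoidsOff, notMem_Kset, SS, mem_union, mem_image, mem_filter, mem_singleton,
    not_or, not_exists, not_and, and_imp]
  constructor
  · rintro ⟨h1, h2, h3⟩ i r
    refine ⟨⟨fun a ha hi h => ?_, fun a ha hi h => ?_⟩, fun a ha hi h => ?_⟩
    · subst ha
      exact h1 i hi r h.symm
    · exact h2 a ha i hi r h.symm
    · exact h3 a ha i hi r h.symm
  · intro h
    refine ⟨fun i hi r h' => ?_, fun a ha i hi r h' => ?_, fun a ha i hi r h' => ?_⟩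
    · exact (h i r).1.1 v rfl hi h'.symm
    · exact (h i r).1.2 a ha hi h'.symm
    · exact (h i r).2 a ha hi h'.symm

end plane

theorem card_small_sets {α : Type} [Fintype α] [DecidableEq α] (n : ℕ) :
    (univ.filter (fun A : Finset α => A.card ≤ n)).card ≤ (Fintype.card α + 1) ^ n := by
  induction n with
  | zero =>
    have : (univ.filter (fun A : Finset α => A.card ≤ 0)) = {∅} := by
      ext A
      simp
    rw [this]
    simp
  | succ n ih =>
    have hsub : (univ.filter (fun A : Finset α => A.card ≤ n + 1)) ⊆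
        ((univ : Finset (Option α)) ×ˢ (univ.filter (fun A : Finset α => A.card ≤ n))).image
          (fun p => p.1.elim p.2 (fun a => insert a p.2)) := by
      intro A hA
      simp only [mem_filter, mem_univ, true_and] at hA
      rw [mem_image]
      by_cases h : A.card ≤ n
      · exact ⟨(none, A), by simp [h], rfl⟩
      · have hpos : A.Nonempty := by
          rw [← card_pos]
          omega
        obtain ⟨a, ha⟩ := hpos
        refine ⟨(some a, A.erase a), ?_, ?_⟩
        · simp only [mem_product, mem_univ, mem_filter, true_and]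
          rw [card_erase_of_mem ha]
          omega
        · simp [insert_erase ha]
    refine (card_le_card hsub).trans (card_image_le.trans ?_)
    rw [card_product, pow_succ, mul_comm]
    simp only [card_univ, Fintype.card_option]
    exact Nat.mul_le_mul_right _ ih


theorem final_num (κ : ℝ) (hκ : 0 < κ) :
    ∃ q0 : ℕ, ∀ q : ℕ, q0 ≤ q → 10 * (2 * (q : ℝ)) ^ 36 * Real.exp (-(κ * q)) ≤ 1 := by
  have h := Real.tendsto_pow_mul_exp_neg_atTop_nhds_zero 36
  have hε : (0 : ℝ) < 1 / (10 * (2 / κ) ^ 36) := by positivity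
  have h2 := (h.eventually (gt_mem_nhds hε))
  rw [Filter.eventually_atTop] at h2
  obtain ⟨X, hX⟩ := h2
  refine ⟨⌈X / κ⌉₊, fun q hq => ?_⟩
  have hq' : X / κ ≤ q := (Nat.le_ceil _).trans (by exact_mod_cast hq)
  have hx : X ≤ κ * q := by
    rw [div_le_iff₀ hκ] at hq'
    linarith
  have h3 := (hX (κ * q) hx).le
  have hrew : (2 * (q : ℝ)) ^ 36 = (2 / κ) ^ 36 * (κ * q) ^ 36 := by
    rw [← mul_pow]
    congr 1
    field_simp
  rw [hrew]
  rw [le_div_iff₀ (by positivity)] at h3
  calc 10 * ((2 / κ) ^ 36 * (κ * q) ^ 36) * Real.exp (-(κ * q))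
      = (κ * q) ^ 36 * Real.exp (-(κ * q)) * (10 * (2 / κ) ^ 36) := by ring
    _ ≤ 1 := h3

/-- the bad set of one tuple of parameters -/
noncomputable def badSet (F : Type) [Field F] [Fintype F] [DecidableEq F] (c : ℝ)
    (p : Option F × Option F × Pt F × Finset (Pt F) × Finset (Pt F)) : Finset (RR F) :=
  open Classical in
  univ.filter (fun R : RR F => (p.2.2.1.1 ≠ p.1 ∧ p.2.2.1.1 ≠ p.2.1 ∧
    (∀ a ∈ p.2.2.2.1, a.1 ≠ p.1) ∧ (∀ a ∈ p.2.2.2.2, a.1 ≠ p.2.1) ∧
    p.2.2.2.1.card ≤ 8 ∧ p.2.2.2.2.card ≤ 8) ∧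
    (cnt (SS p.1 p.2.1 p.2.2.1 p.2.2.2.1 p.2.2.2.2) R : ℝ) < c * Fintype.card F)

theorem card_badSet (F : Type) [Field F] [Fintype F] [DecidableEq F]
    (hq : 34 ≤ Fintype.card F) (c : ℝ) (hc : c = Real.exp (-(68 * kap : ℝ)) / 2)
    (p : Option F × Option F × Pt F × Finset (Pt F) × Finset (Pt F)) :
    ((badSet F c p).card : ℝ) ≤
      Real.exp (-(c ^ 2 / (kap * 17 : ℝ) ^ 2 * Fintype.card F)) * Fintype.card (RR F) := by
  classical
  set q := Fintype.card F with hqdef
  have hq1 : (34 : ℝ) ≤ q := by exact_mod_cast hq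
  have hcpos : 0 < c := by rw [hc]; positivity
  by_cases hcond : (p.2.2.1.1 ≠ p.1 ∧ p.2.2.1.1 ≠ p.2.1 ∧
    (∀ a ∈ p.2.2.2.1, a.1 ≠ p.1) ∧ (∀ a ∈ p.2.2.2.2, a.1 ≠ p.2.1) ∧
    p.2.2.2.1.card ≤ 8 ∧ p.2.2.2.2.card ≤ 8)
  · obtain ⟨h1, h2, h3, h4, h5, h6⟩ := hcond
    set S := SS p.1 p.2.1 p.2.2.1 p.2.2.2.1 p.2.2.2.2 with hS
    have hb := mean_cnt (κ := kap) S 17
      (card_SS p.1 p.2.1 p.2.2.1 p.2.2.2.1 p.2.2.2.2 h5 h6) (by omega) (by omega)
    have hmean : 2 * c * (Fintype.card F : ℝ) ≤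
        McD.mean (fun R : RR F => (cnt S R : ℝ)) := by
      refine le_trans ?_ hb
      rw [hc]
      have : Real.exp (-(68 * kap : ℝ)) ≤
          Real.exp (-(2 * (17 : ℕ) * kap * Fintype.card (Option F) / Fintype.card F)) := by
        apply Real.exp_le_exp.mpr
        apply neg_le_neg
        rw [Fintype.card_option, ← hqdef]
        rw [div_le_iff₀ (by linarith)]
        push_cast
        have hk : (0 : ℝ) ≤ kap := Nat.cast_nonneg _
        nlinarith
      rw [← hqdef]
      rw [← hqdef] at this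
      nlinarith
    have hne : Nonempty F := ⟨0⟩
    have hbad := card_bad (κ := kap) S 17
      (card_SS' p.1 p.2.1 p.2.2.1 p.2.2.2.1 p.2.2.2.2 h1 h2 h3 h4 h5 h6) c hcpos.le hmean
    have hsub : badSet F c p ⊆
        (univ.filter (fun R : RR F => (cnt S R : ℝ) < c * Fintype.card F)) := by
      intro R hR
      simp only [badSet, mem_filter, mem_univ, true_and] at hR ⊢
      exact hR.2
    refine le_trans (by exact_mod_cast card_le_card hsub) (hbad.trans ?_)
    have hk : (0 : ℝ) < (kap * 17 : ℝ) ^ 2 := by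
      have : (0 : ℝ) < kap := by norm_num [kap]
      positivity
    have hcard0 : (0 : ℝ) ≤ Fintype.card (RR F) := Nat.cast_nonneg _
    refine mul_le_mul_of_nonneg_right ?_ hcard0
    apply Real.exp_le_exp.mpr
    rw [Fintype.card_option, ← hqdef]
    have e17 : ((17 : ℕ) : ℝ) = 17 := by norm_num
    rw [e17, Nat.cast_add, Nat.cast_one]
    have hqq : (0 : ℝ) < ((q : ℝ) + 1) * (kap * 17 : ℝ) ^ 2 := by positivity
    rw [div_le_iff₀ hqq]
    have hid : -(c ^ 2 / (kap * 17 : ℝ) ^ 2 * q) * (((q : ℝ) + 1) * (kap * 17 : ℝ) ^ 2) =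
        -(c ^ 2 * q * (q + 1)) := by
      field_simp
    rw [hid]
    have hc2 : 0 < c ^ 2 := by positivity
    nlinarith [mul_pos hc2 (show (0 : ℝ) < q by linarith)]
  · have : badSet F c p = ∅ := by
      apply filter_eq_empty_iff.mpr
      intro R _ h
      exact hcond h.1
    rw [this]
    simp only [card_empty, Nat.cast_zero]
    positivity


theorem card_params (F : Type) [Field F] [Fintype F] [DecidableEq F] :
    ((univ : Finset (Option F)) ×ˢ (univ : Finset (Option F)) ×ˢ (univ : Finset (Pt F)) ×ˢ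
      (univ.filter (fun A : Finset (Pt F) => A.card ≤ 8)) ×ˢ
      (univ.filter (fun A : Finset (Pt F) => A.card ≤ 8))).card ≤
      (2 * Fintype.card F) ^ 36 := by
  have hq : 1 ≤ Fintype.card F := Fintype.card_pos
  have h8 := card_small_sets (α := Pt F) 8
  have hP : Fintype.card (Pt F) = (Fintype.card F + 1) * Fintype.card F := by
    simp
  set q := Fintype.card F with hqdef
  have h1 : q + 1 ≤ 2 * q := by omega
  have h2 : Fintype.card (Pt F) + 1 ≤ (2 * q) ^ 2 := by
    rw [hP]
    nlinarith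
  have h3 : (univ.filter (fun A : Finset (Pt F) => A.card ≤ 8)).card ≤ (2 * q) ^ 16 := by
    refine h8.trans ?_
    calc (Fintype.card (Pt F) + 1) ^ 8 ≤ ((2 * q) ^ 2) ^ 8 := Nat.pow_le_pow_left h2 8
      _ = (2 * q) ^ 16 := by rw [← pow_mul]
  simp only [card_product, card_univ, Fintype.card_option]
  rw [hP]
  rw [← hqdef]
  have hq' : q ≤ 2 * q := by omega
  calc (q + 1) * ((q + 1) * ((q + 1) * q * (_ * _)))
      ≤ (2 * q) * ((2 * q) * ((2 * q) * (2 * q) * ((2 * q) ^ 16 * (2 * q) ^ 16))) := by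
        gcongr
    _ = (2 * q) ^ 36 := by ring

theorem specR4 : SpecR4 := by
  classical
  set c : ℝ := Real.exp (-(68 * kap : ℝ)) / 2 with hc
  have hcpos : 0 < c := by positivity
  have hk : (0 : ℝ) < (kap * 17 : ℝ) ^ 2 := by
    have : (0 : ℝ) < kap := by norm_num [kap]
    positivity
  obtain ⟨q0, hq0⟩ := final_num (c ^ 2 / (kap * 17 : ℝ) ^ 2) (by positivity)
  refine ⟨c, hcpos, max q0 34, ?_⟩
  intro F _ _ _ hF
  have hF0 : q0 ≤ Fintype.card F := (le_max_left _ _).trans hF
  have hF34 : 34 ≤ Fintype.card F := (le_max_right _ _).trans hF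
  set PP := ((univ : Finset (Option F)) ×ˢ (univ : Finset (Option F)) ×ˢ
      (univ : Finset (Pt F)) ×ˢ
      (univ.filter (fun A : Finset (Pt F) => A.card ≤ 8)) ×ˢ
      (univ.filter (fun A : Finset (Pt F) => A.card ≤ 8))) with hP
  refine ⟨PP.biUnion (badSet F c), ?_, ?_⟩
  · intro R hR j j' v A A' hjj' hvj hvj' hA hA' hA8 hA8'
    rw [count_eq]
    by_contra hcon
    push Not at hcon
    apply hR
    rw [mem_biUnion]
    refine ⟨(j, j', v, A, A'), ?_, ?_⟩
    · simp [hP, hA8, hA8']
    · simp only [badSet, mem_filter, mem_univ, true_and]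
      exact ⟨⟨hvj, hvj', hA, hA', hA8, hA8'⟩, hcon⟩
  · have h1 : ((PP.biUnion (badSet F c)).card : ℝ) ≤
        (2 * (Fintype.card F : ℝ)) ^ 36 *
          (Real.exp (-(c ^ 2 / (kap * 17 : ℝ) ^ 2 * Fintype.card F)) *
            Fintype.card (RR F)) := by
      calc ((PP.biUnion (badSet F c)).card : ℝ)
          ≤ ((∑ p ∈ PP, (badSet F c p).card : ℕ) : ℝ) := by exact_mod_cast card_biUnion_le
        _ = ∑ p ∈ PP, ((badSet F c p).card : ℝ) := by push_cast; rfl
        _ ≤ ∑ _p ∈ PP, (Real.exp (-(c ^ 2 / (kap * 17 : ℝ) ^ 2 * Fintype.card F)) *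
            Fintype.card (RR F)) :=
            sum_le_sum fun p _ => card_badSet F hF34 c hc p
        _ = PP.card * (Real.exp (-(c ^ 2 / (kap * 17 : ℝ) ^ 2 * Fintype.card F)) *
            Fintype.card (RR F)) := by rw [sum_const, nsmul_eq_mul]
        _ ≤ _ := by
            have h2 : (PP.card : ℝ) ≤ (2 * (Fintype.card F : ℝ)) ^ 36 := by
              have := card_params F
              exact_mod_cast this
            exact mul_le_mul_of_nonneg_right h2 (by positivity)
    have h2 := hq0 (Fintype.card F) hF0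
    have h3 : (0 : ℝ) ≤ Fintype.card (RR F) := Nat.cast_nonneg _
    have h4 : (10 : ℝ) * ((PP.biUnion (badSet F c)).card : ℝ) ≤ Fintype.card (RR F) := by
      calc (10 : ℝ) * ((PP.biUnion (badSet F c)).card : ℝ)
          ≤ 10 * ((2 * (Fintype.card F : ℝ)) ^ 36 *
          (Real.exp (-(c ^ 2 / (kap * 17 : ℝ) ^ 2 * Fintype.card F)) *
            Fintype.card (RR F))) := by linarith
        _ = (10 * (2 * (Fintype.card F : ℝ)) ^ 36 *
          Real.exp (-(c ^ 2 / (kap * 17 : ℝ) ^ 2 * Fintype.card F))) *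
            Fintype.card (RR F) := by ring
        _ ≤ 1 * Fintype.card (RR F) := mul_le_mul_of_nonneg_right h2 h3
        _ = Fintype.card (RR F) := one_mul _
    exact_mod_cast h4

end R4

end Crest.Agent.R034
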