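import Crest.Agent.R034.Defs

/-! Basic lemmas about the plane model. -/

set_option autoImplicit false

namespace Crest.Agent.R034

open Finset

variable {F : Type} [Field F]

@[simp] theorem val_none (l : Ln F) : val l none = l.1 := rfl
@[simp] theorem val_some (l : Ln F) (x : F) : val l (some x) = l.1 * x + l.2 := rfl




theorem eq_of_val_eq {l l' : Ln F} {i j : Option F} (hij : i ≠ j)
    (hi : val l i = val l' i) (hj : val l j = val l' j) : l = l' := by
  obtain ⟨m, b⟩ := l
  obtain ⟨m', b'⟩ := l'
  rcases i with _ | x <;> rcases j with _ | y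
  · exact absurd rfl hij
  · simp only [val_none, val_some] at hi hj
    subst hi
    simpa using hj
  · simp only [val_none, val_some] at hi hj
    subst hj
    simpa using hi
  · simp only [val_some] at hi hj
    have hxy : x - y ≠ 0 := sub_ne_zero.mpr (fun h => hij (by rw [h]))
    have h1 : (m - m') * (x - y) = 0 := by linear_combination hi - hj
    have h2 : m = m' := by
      rcases mul_eq_zero.mp h1 with h | h
      · exact sub_eq_zero.mp h
      · exact absurd h hxy
    subst h2
    simpa using hi

theorem on_thru_left {a b : Pt F} (h : a.1 ≠ b.1) : On a (thru a b) := by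
  obtain ⟨a1, a2⟩ := a
  obtain ⟨b1, b2⟩ := b
  rcases a1 with _ | x <;> rcases b1 with _ | y
  · exact absurd rfl h
  · simp [On, thru]
  · simp [On, thru]
  · simp [On, thru]

theorem on_thru_right {a b : Pt F} (h : a.1 ≠ b.1) : On b (thru a b) := by
  obtain ⟨a1, a2⟩ := a
  obtain ⟨b1, b2⟩ := b
  rcases a1 with _ | x <;> rcases b1 with _ | y
  · exact absurd rfl h
  · simp [On, thru]
  · simp [On, thru]
  · have hxy : y - x ≠ 0 := sub_ne_zero.mpr (fun h' => h (by simp [h']))
    simp only [On, thru, val_some]
    field_simp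
    ring

theorem val_thru_left {a b : Pt F} (h : a.1 ≠ b.1) : val (thru a b) a.1 = a.2 := on_thru_left h
theorem val_thru_right {a b : Pt F} (h : a.1 ≠ b.1) : val (thru a b) b.1 = b.2 := on_thru_right h

theorem val_thru_right' {a : Pt F} {j : Option F} {y : F} (h : a.1 ≠ j) :
    val (thru a (j, y)) j = y := val_thru_right (b := (j, y)) h

theorem eq_of_on {a b : Pt F} {l l' : Ln F} (h : a.1 ≠ b.1) (ha : On a l) (ha' : On a l')
    (hb : On b l) (hb' : On b l') : l = l' :=
  eq_of_val_eq h (ha.trans ha'.symm) (hb.trans hb'.symm)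

theorem eq_thru {a b : Pt F} {l : Ln F} (h : a.1 ≠ b.1) (ha : On a l) (hb : On b l) :
    l = thru a b := eq_of_on h ha (on_thru_left h) hb (on_thru_right h)


theorem pos_ne_of_on {a b : Pt F} {l : Ln F} (ha : On a l) (hb : On b l) (h : a ≠ b) :
    a.1 ≠ b.1 := by
  intro h'
  apply h
  apply Prod.ext h'
  rw [← ha, ← hb, h']




/-- `y ↦ val (thru z (j,y)) i` is injective for `i ≠ z.1` -/
theorem val_thru_injective {z : Pt F} {i j : Option F} (hi : i ≠ z.1) (hj : j ≠ z.1) :
    Function.Injective (fun y : F => val (thru z (j, y)) i) := by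
  intro y y' h
  have hj' : z.1 ≠ j := fun h => hj h.symm
  have : thru z (j, y) = thru z (j, y') :=
    eq_of_val_eq (Ne.symm hi) ((val_thru_left (b := (j, y)) hj').trans
      (val_thru_left (b := (j, y')) hj').symm) h
  have h2 := val_thru_right' (a := z) (y := y) hj'
  rw [this, val_thru_right' hj'] at h2
  exact h2.symm

variable [Fintype F]


variable [DecidableEq F]









omit [Field F] [DecidableEq F] in
theorem card_Pt : Fintype.card (Pt F) = (ord F + 1) * ord F := by
  simp [Pt, Fintype.card_prod, Fintype.card_option]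

omit [Field F] [DecidableEq F] in
theorem card_Ln : Fintype.card (Ln F) = ord F * ord F := by
  simp [Ln, Fintype.card_prod]

omit [Field F] in
theorem mem_Kset {R : RR F} {z : Pt F} : z ∈ Kset R ↔ ∃ r, R z.1 r = z.2 := by
  simp [Kset]

omit [Field F] in
theorem main_mem_Kset (R : RR F) (i : Option F) : (i, R i 0) ∈ Kset R :=
  mem_Kset.mpr ⟨0, rfl⟩

omit [Field F] in
theorem card_Kset_pos_le (R : RR F) (i : Option F) :
    ((Kset R).filter (fun z => z.1 = i)).card ≤ kap := by
  have h : (Kset R).filter (fun z => z.1 = i) ⊆ univ.image (fun r : Fin kap => (i, R i r)) := by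
    intro z hz
    simp only [mem_filter, mem_Kset] at hz
    obtain ⟨⟨r, hr⟩, hi⟩ := hz
    simp only [mem_image, mem_univ, true_and]
    refine ⟨r, ?_⟩
    subst hi
    exact Prod.ext rfl hr
  calc _ ≤ (univ.image (fun r : Fin kap => (i, R i r))).card := card_le_card h
    _ ≤ (univ : Finset (Fin kap)).card := card_image_le
    _ = kap := by simp

theorem mem_hits {R : RR F} {l : Ln F} {i j : Option F} :
    j ∈ hits R l i ↔ j ≠ i ∧ (j, val l j) ∈ Kset R := by
  simp [hits]



end Crest.Agent.R034
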