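import Crest.Agent.R034.Spec
import Mathlib
import Crest.Agent.R034.Plane

-- ▼ part R034/R5
section

/-! Row 34, module M9: `SpecR5` and the assembly of `SpecR`. -/

set_option autoImplicit false
set_option linter.unusedSectionVars false

namespace Crest.Agent.R034

open Finset


section

variable {F : Type} [Field F] [Fintype F] [DecidableEq F]

/-- the weight of a pair `(position, draw)` -/
noncomputable def wt (l : Ln F) (j : Option F) (v : F) : ℝ := if v = val l j then 2 else 1

theorem one_le_wt (l : Ln F) (j : Option F) (v : F) : 1 ≤ wt l j v := by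
  unfold wt; split_ifs <;> norm_num

theorem two_pow_le (R : RR F) (l : Ln F) :
    (2 : ℝ) ^ (univ.filter (fun j => (j, val l j) ∈ Kset R)).card ≤
      ∏ j, ∏ r, wt l j (R j r) := by
  rw [← Finset.prod_const, Finset.prod_filter]
  refine Finset.prod_le_prod (fun j _ => ?_) (fun j _ => ?_)
  · split_ifs <;> norm_num
  · split_ifs with h
    · simp only [Kset, Finset.mem_filter, Finset.mem_univ, true_and] at h
      obtain ⟨r, hr⟩ := h
      rw [← Finset.mul_prod_erase univ _ (Finset.mem_univ r)]
      have h1 : wt l j (R j r) = 2 := by simp [wt, hr]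
      rw [h1]
      have h2 : (1 : ℝ) ≤ ∏ x ∈ univ.erase r, wt l j (R j x) := by
        refine Finset.prod_induction _ (fun x => (1 : ℝ) ≤ x) ?_ le_rfl (fun x _ => one_le_wt _ _ _)
        intro a b ha hb
        nlinarith
      linarith
    · refine Finset.prod_induction _ (fun x => (1 : ℝ) ≤ x) ?_ le_rfl (fun x _ => one_le_wt _ _ _)
      intro a b ha hb
      nlinarith

theorem sum_wt (l : Ln F) :
    ∑ R : RR F, ∏ j, ∏ r, wt l j (R j r) =
      ((ord F : ℝ) + 1) ^ (kap * (ord F + 1)) := by
  have h1 : ∀ j, ∑ v : F, wt l j v = (ord F : ℝ) + 1 := by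
    intro j
    have : ∀ v : F, wt l j v = 1 + if v = val l j then 1 else 0 := by
      intro v
      unfold wt; split_ifs <;> norm_num
    simp only [this, Finset.sum_add_distrib, Finset.sum_const, Finset.card_univ,
      Finset.sum_ite_eq', Finset.mem_univ, if_true]
    simp
  have h2 : ∀ j, ∑ ρ : Fin kap → F, ∏ r, wt l j (ρ r) = ((ord F : ℝ) + 1) ^ kap := by
    intro j
    have := Finset.prod_univ_sum (fun _ : Fin kap => (univ : Finset F)) (fun _ v => wt l j v)
    rw [Fintype.piFinset_univ] at this
    rw [← this]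
    simp [h1]
  have := Finset.prod_univ_sum (fun _ : Option F => (univ : Finset (Fin kap → F)))
    (fun j ρ => ∏ r, wt l j (ρ r))
  rw [Fintype.piFinset_univ] at this
  rw [← this]
  simp only [h2, Finset.prod_const, Finset.card_univ, Fintype.card_option]
  rw [← pow_mul]

theorem card_bad_line (l : Ln F) (m : ℕ) :
    ((univ.filter (fun R : RR F =>
        m ≤ (univ.filter (fun j => (j, val l j) ∈ Kset R)).card)).card : ℝ) * 2 ^ m ≤
      ((ord F : ℝ) + 1) ^ (kap * (ord F + 1)) := by
  rw [← sum_wt l]
  calc ((univ.filter (fun R : RR F =>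
        m ≤ (univ.filter (fun j => (j, val l j) ∈ Kset R)).card)).card : ℝ) * 2 ^ m
      = ∑ R ∈ univ.filter (fun R : RR F =>
        m ≤ (univ.filter (fun j => (j, val l j) ∈ Kset R)).card), (2 : ℝ) ^ m := by simp
    _ ≤ ∑ R ∈ univ.filter (fun R : RR F =>
        m ≤ (univ.filter (fun j => (j, val l j) ∈ Kset R)).card), ∏ j, ∏ r, wt l j (R j r) := by
        refine Finset.sum_le_sum fun R hR => ?_
        refine le_trans ?_ (two_pow_le R l)
        exact pow_le_pow_right₀ (by norm_num) (Finset.mem_filter.1 hR).2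
    _ ≤ _ := by
        refine Finset.sum_le_sum_of_subset_of_nonneg (Finset.filter_subset _ _) (fun R _ _ => ?_)
        refine Finset.prod_nonneg fun j _ => Finset.prod_nonneg fun r _ => ?_
        exact le_trans zero_le_one (one_le_wt _ _ _)

theorem card_RR_five : Fintype.card (RR F) = ord F ^ (kap * (ord F + 1)) := by
  simp only [RR, Fintype.card_pi, Finset.prod_const, Finset.card_univ, Fintype.card_fin,
    Fintype.card_option]
  rw [← pow_mul]

end

theorem specR5 : SpecR5 := by
  intro N hN
  -- choose the threshold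
  have htend := tendsto_pow_const_div_const_pow_of_one_lt (2 * N) (r := (2 : ℝ)) (by norm_num)
  have hpos : (0 : ℝ) < (10 * Real.exp (2 * kap))⁻¹ := by positivity
  obtain ⟨K0, hK0⟩ := Filter.eventually_atTop.1 (htend.eventually_lt_const hpos)
  refine ⟨K0 ^ N + 1, ?_⟩
  intro F _ _ _ hq k hk
  have hq1 : 1 ≤ ord F := Fintype.card_pos
  have hkK : K0 ≤ k + 1 := by
    by_contra hcon
    push Not at hcon
    have h1 : (k + 1) ^ N ≤ K0 ^ N := Nat.pow_le_pow_left hcon.le N
    have := hk.2
    omega
  have hmain : 10 * (ord F : ℝ) ^ 2 * Real.exp (2 * kap) ≤ 2 ^ (k + 1) := by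
    have h := (hK0 (k + 1) hkK).le
    rw [div_le_iff₀ (by positivity)] at h
    have h2 : 10 * Real.exp (2 * kap) * ((k + 1 : ℕ) : ℝ) ^ (2 * N) ≤ 2 ^ (k + 1) := by
      have h3 := mul_le_mul_of_nonneg_left h (by positivity : (0:ℝ) ≤ 10 * Real.exp (2 * kap))
      rw [← mul_assoc, mul_inv_cancel₀ (by positivity), one_mul] at h3
      exact h3
    refine le_trans ?_ h2
    have h4 : (ord F : ℝ) ^ 2 ≤ ((k + 1 : ℕ) : ℝ) ^ (2 * N) := by
      have : (ord F : ℝ) ≤ ((k + 1 : ℕ) : ℝ) ^ N := by exact_mod_cast hk.2.le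
      calc (ord F : ℝ) ^ 2 ≤ (((k + 1 : ℕ) : ℝ) ^ N) ^ 2 :=
            pow_le_pow_left₀ (Nat.cast_nonneg _) this 2
        _ = _ := by rw [← pow_mul, mul_comm]
    have h5 := mul_le_mul_of_nonneg_left h4 (by positivity : (0:ℝ) ≤ 10 * Real.exp (2 * kap))
    linarith
  classical
  refine ⟨univ.filter (fun R : RR F => ¬ R5 R k), ?_, ?_⟩
  · intro R hR
    simpa using hR
  · have hsub : (univ.filter (fun R : RR F => ¬ R5 R k)) ⊆
        (univ : Finset (Ln F)).biUnion (fun l => univ.filter (fun R : RR F =>
          k + 1 ≤ (univ.filter (fun j => (j, val l j) ∈ Kset R)).card)) := by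
      intro R hR
      simp only [Finset.mem_filter, Finset.mem_univ, true_and, R5, not_forall, not_le] at hR
      obtain ⟨l, hl⟩ := hR
      simp only [Finset.mem_biUnion, Finset.mem_univ, Finset.mem_filter, true_and]
      exact ⟨l, hl⟩
    have hcard : ((univ.filter (fun R : RR F => ¬ R5 R k)).card : ℝ) * 2 ^ (k + 1) ≤
        (ord F : ℝ) ^ 2 * ((ord F : ℝ) + 1) ^ (kap * (ord F + 1)) := by
      have h1 : ((univ.filter (fun R : RR F => ¬ R5 R k)).card : ℝ) ≤
          ∑ l : Ln F, ((univ.filter (fun R : RR F =>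
          k + 1 ≤ (univ.filter (fun j => (j, val l j) ∈ Kset R)).card)).card : ℝ) := by
        have := (Finset.card_le_card hsub).trans Finset.card_biUnion_le
        exact_mod_cast this
      calc ((univ.filter (fun R : RR F => ¬ R5 R k)).card : ℝ) * 2 ^ (k + 1)
          ≤ (∑ l : Ln F, ((univ.filter (fun R : RR F =>
          k + 1 ≤ (univ.filter (fun j => (j, val l j) ∈ Kset R)).card)).card : ℝ)) * 2 ^ (k + 1) :=
            mul_le_mul_of_nonneg_right h1 (by positivity)
        _ = ∑ l : Ln F, ((univ.filter (fun R : RR F =>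
          k + 1 ≤ (univ.filter (fun j => (j, val l j) ∈ Kset R)).card)).card : ℝ) * 2 ^ (k + 1) := by
            rw [Finset.sum_mul]
        _ ≤ ∑ l : Ln F, ((ord F : ℝ) + 1) ^ (kap * (ord F + 1)) :=
            Finset.sum_le_sum fun l _ => card_bad_line l (k + 1)
        _ = _ := by
            rw [Finset.sum_const, Finset.card_univ, Fintype.card_prod, nsmul_eq_mul, Nat.cast_mul,
              ← sq]
    have hexp : ((ord F : ℝ) + 1) ^ (kap * (ord F + 1)) ≤
        Real.exp (2 * kap) * (ord F : ℝ) ^ (kap * (ord F + 1)) := by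
      have hqpos : (0 : ℝ) < ord F := by exact_mod_cast hq1
      have h1 : ((ord F : ℝ) + 1) ≤ (ord F : ℝ) * Real.exp (1 / (ord F : ℝ)) := by
        have := Real.add_one_le_exp (1 / (ord F : ℝ))
        calc ((ord F : ℝ) + 1) = (ord F : ℝ) * (1 / (ord F : ℝ) + 1) := by field_simp; ring
          _ ≤ _ := mul_le_mul_of_nonneg_left this hqpos.le
      calc ((ord F : ℝ) + 1) ^ (kap * (ord F + 1))
          ≤ ((ord F : ℝ) * Real.exp (1 / (ord F : ℝ))) ^ (kap * (ord F + 1)) :=
            pow_le_pow_left₀ (by positivity) h1 _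
        _ = Real.exp (1 / (ord F : ℝ)) ^ (kap * (ord F + 1)) *
              (ord F : ℝ) ^ (kap * (ord F + 1)) := by
            rw [mul_pow, mul_comm]
        _ ≤ _ := by
            refine mul_le_mul_of_nonneg_right ?_ (by positivity)
            rw [← Real.exp_nat_mul]
            refine Real.exp_le_exp.2 ?_
            push_cast
            have h2 : (1 : ℝ) / ord F ≤ 1 := by
              rw [div_le_one hqpos]; exact_mod_cast hq1
            have h3 : (ord F : ℝ) * (1 / ord F) = 1 := by field_simp
            nlinarith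
    have hfin : (10 : ℝ) * ((univ.filter (fun R : RR F => ¬ R5 R k)).card : ℝ) ≤
        (ord F : ℝ) ^ (kap * (ord F + 1)) := by
      have h2k : (0 : ℝ) < 2 ^ (k + 1) := by positivity
      have hM : (0 : ℝ) < (ord F : ℝ) ^ (kap * (ord F + 1)) := by
        have : (0 : ℝ) < ord F := by exact_mod_cast hq1
        positivity
      have h3 : (10 * ((univ.filter (fun R : RR F => ¬ R5 R k)).card : ℝ)) * 2 ^ (k + 1) ≤
          (ord F : ℝ) ^ (kap * (ord F + 1)) * 2 ^ (k + 1) := by
        generalize ((ord F : ℝ) + 1) ^ (kap * (ord F + 1)) = M1 at hcard hexp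
        generalize (ord F : ℝ) ^ (kap * (ord F + 1)) = M2 at hM hexp ⊢
        generalize ((univ.filter (fun R : RR F => ¬ R5 R k)).card : ℝ) = b at hcard ⊢
        generalize Real.exp (2 * kap) = ex at hmain hexp
        generalize (2 : ℝ) ^ (k + 1) = t at hcard hmain ⊢
        have hq2 : (0 : ℝ) ≤ (ord F : ℝ) ^ 2 := by positivity
        have e1 : (ord F : ℝ) ^ 2 * M1 ≤ (ord F : ℝ) ^ 2 * (ex * M2) :=
          mul_le_mul_of_nonneg_left hexp hq2
        have e2 : (10 * (ord F : ℝ) ^ 2 * ex) * M2 ≤ t * M2 := mul_le_mul_of_nonneg_right hmain hM.le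
        nlinarith
      exact le_of_mul_le_mul_right h3 h2k
    rw [card_RR_five]
    exact_mod_cast hfin


end Crest.Agent.R034
end

-- ▼ part R034/Rosenfeld
section

set_option autoImplicit false
set_option linter.unusedSectionVars false

/-!
# Rosenfeld's counting argument (independent transversals)
Written by helper615.
-/

open Finset

namespace Crest.Agent.R034

section

variable {ι α : Type*} [Fintype ι] [DecidableEq ι] [DecidableEq α]

/-- Conflict-free partial choices on `S` (outside `S` the value is the default `c0`). -/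
noncomputable def rosG (C : ι → Finset α) (conf : ι → α → ι → α → Prop) (c0 : ι → α)
    (S : Finset ι) : Finset (ι → α) := by
  classical
  exact (Fintype.piFinset (fun i => if i ∈ S then C i else {c0 i})).filter
    (fun f => ∀ i ∈ S, ∀ j ∈ S, i ≠ j → ¬ conf i (f i) j (f j))

theorem mem_rosG {C : ι → Finset α} {conf : ι → α → ι → α → Prop} {c0 : ι → α}
    {S : Finset ι} {f : ι → α} :
    f ∈ rosG C conf c0 S ↔ (∀ i ∈ S, f i ∈ C i) ∧ (∀ i, i ∉ S → f i = c0 i) ∧
      ∀ i ∈ S, ∀ j ∈ S, i ≠ j → ¬ conf i (f i) j (f j) := by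
  classical
  unfold rosG
  simp only [mem_filter, Fintype.mem_piFinset]
  constructor
  · rintro ⟨h1, h2⟩
    refine ⟨fun i hi => by simpa [hi] using h1 i, fun i hi => by simpa [hi] using h1 i, h2⟩
  · rintro ⟨h1, h2, h3⟩
    refine ⟨fun i => ?_, h3⟩
    by_cases hi : i ∈ S
    · simpa [hi] using h1 i hi
    · simpa [hi] using h2 i hi

theorem rosG_erase_bound {C : ι → Finset α} {conf : ι → α → ι → α → Prop} {c0 : ι → α}
    {S : Finset ι} {i : ι} (hi : i ∈ S) (Y : Finset α) :
    ((rosG C conf c0 S).filter (fun f => f i ∈ Y)).card ≤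
      Y.card * (rosG C conf c0 (S.erase i)).card := by
  classical
  rw [← card_product]
  refine card_le_card_of_injOn (fun f => (f i, Function.update f i (c0 i))) ?_ ?_
  · intro f hf
    simp only [coe_filter, Set.mem_ofPred_eq, mem_rosG] at hf
    obtain ⟨⟨h1, h2, h3⟩, h4⟩ := hf
    simp only [coe_product, Set.mem_prod, mem_coe, mem_rosG]
    refine ⟨h4, ?_, ?_, ?_⟩
    · intro j hj
      rw [mem_erase] at hj
      rw [Function.update_of_ne hj.1]
      exact h1 j hj.2
    · intro j hj
      by_cases hji : j = i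
      · subst hji; simp
      · rw [Function.update_of_ne hji]
        exact h2 j (fun h => hj (mem_erase.2 ⟨hji, h⟩))
    · intro j hj k hk hjk
      rw [mem_erase] at hj hk
      rw [Function.update_of_ne hj.1, Function.update_of_ne hk.1]
      exact h3 j hj.2 k hk.2 hjk
  · intro f hf g hg hfg
    simp only [Prod.mk.injEq] at hfg
    obtain ⟨h1, h2⟩ := hfg
    funext k
    by_cases hk : k = i
    · subst hk; exact h1
    · have := congrFun h2 k
      rwa [Function.update_of_ne hk, Function.update_of_ne hk] at this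

theorem rosG_step {C : ι → Finset α} {conf : ι → α → ι → α → Prop} {c0 : ι → α}
    (hsymm : ∀ i x j y, conf i x j y → conf j y i x)
    (w : ι → α → ι → ℕ)
    (hw : ∀ j x i, ∃ Y : Finset α, Y.card ≤ w j x i ∧ ∀ y ∈ C i, conf j x i y → y ∈ Y)
    (hD : ∀ j, ∀ x ∈ C j, ∑ i ∈ univ.erase j, (w j x i : ℝ) / ((C i).card : ℝ) ≤ 1 / 4)
    (hne : ∀ i, (C i).Nonempty) :
    ∀ (n : ℕ) (S : Finset ι), S.card = n → ∀ j, j ∉ S →
      ((C j).card : ℝ) * ((rosG C conf c0 S).card : ℝ) ≤
        2 * ((rosG C conf c0 (insert j S)).card : ℝ) := by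
  classical
  intro n
  induction n using Nat.strong_induction_on with
  | _ n ih =>
  intro S hS j hj
  set G := rosG C conf c0 S with hG
  -- pairs
  set P : Finset ((ι → α) × α) := G ×ˢ C j with hP
  set Good := P.filter (fun p => ∀ i ∈ S, ¬ conf j p.2 i (p.1 i)) with hGood
  set Bad := P.filter (fun p => ¬ ∀ i ∈ S, ¬ conf j p.2 i (p.1 i)) with hBad
  have hsplit : Good.card + Bad.card = P.card := by
    rw [hGood, hBad, card_filter_add_card_filter_not]
  have hPcard : P.card = G.card * (C j).card := card_product _ _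
  -- good pairs inject
  have hgood : Good.card ≤ (rosG C conf c0 (insert j S)).card := by
    refine card_le_card_of_injOn (fun p => Function.update p.1 j p.2) ?_ ?_
    · intro p hp
      simp only [hGood, hP, coe_filter, mem_product, Set.mem_ofPred_eq, hG, mem_rosG] at hp
      obtain ⟨⟨⟨h1, h2, h3⟩, h4⟩, h5⟩ := hp
      simp only [mem_coe, mem_rosG]
      refine ⟨?_, ?_, ?_⟩
      · intro i hi
        by_cases hij : i = j
        · subst hij; simpa using h4
        · rw [Function.update_of_ne hij]
          exact h1 i (by simpa [hij] using hi)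
      · intro i hi
        have hij : i ≠ j := fun h => hi (by simp [h])
        rw [Function.update_of_ne hij]
        exact h2 i (fun h => hi (mem_insert_of_mem h))
      · intro i hi k hk hik
        by_cases hij : i = j
        · subst hij
          have hki : k ≠ i := fun h => hik h.symm
          rw [Function.update_self, Function.update_of_ne hki]
          exact h5 k (by simpa [hki] using hk)
        · by_cases hkj : k = j
          · subst hkj
            rw [Function.update_self, Function.update_of_ne hij]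
            intro hc
            exact h5 i (by simpa [hij] using hi) (hsymm _ _ _ _ hc)
          · rw [Function.update_of_ne hij, Function.update_of_ne hkj]
            exact h3 i (by simpa [hij] using hi) k (by simpa [hkj] using hk) hik
    · intro p hp p' hp' hpp
      simp only [hGood, hP, coe_filter, mem_product, Set.mem_ofPred_eq, hG, mem_rosG] at hp hp'
      obtain ⟨⟨⟨h1, h2, h3⟩, h4⟩, h5⟩ := hp
      obtain ⟨⟨⟨h1', h2', h3'⟩, h4'⟩, h5'⟩ := hp'
      simp only at hpp
      apply Prod.ext
      · funext i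
        by_cases hij : i = j
        · subst hij
          rw [h2 i hj, h2' i hj]
        · have := congrFun hpp i
          rwa [Function.update_of_ne hij, Function.update_of_ne hij] at this
      · have := congrFun hpp j
        rwa [Function.update_self, Function.update_self] at this
  -- bad pairs
  choose Y hY1 hY2 using hw
  have hbad : (Bad.card : ℝ) ≤ ∑ x ∈ C j, ∑ i ∈ S, (w j x i : ℝ) *
      ((rosG C conf c0 (S.erase i)).card : ℝ) := by
    have h1 : Bad ⊆ (C j).biUnion (fun x => S.biUnion (fun i =>
        (G.filter (fun f => f i ∈ Y j x i)).image (fun f => (f, x)))) := by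
      intro p hp
      simp only [hBad, hP, mem_filter, mem_product, not_forall, not_not] at hp
      obtain ⟨⟨hpG, hpx⟩, i, hi, hc⟩ := hp
      simp only [mem_biUnion, mem_image, mem_filter]
      refine ⟨p.2, hpx, i, hi, p.1, ⟨hpG, ?_⟩, rfl⟩
      have hpG' := hpG
      rw [hG, mem_rosG] at hpG'
      exact hY2 j p.2 i (p.1 i) (hpG'.1 i hi) hc
    have h2 : Bad.card ≤ ∑ x ∈ C j, ∑ i ∈ S, w j x i * (rosG C conf c0 (S.erase i)).card := by
      refine (card_le_card h1).trans (card_biUnion_le.trans (sum_le_sum fun x _ => ?_))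
      refine card_biUnion_le.trans (sum_le_sum fun i hi => ?_)
      refine card_image_le.trans ((rosG_erase_bound hi (Y j x i)).trans ?_)
      exact Nat.mul_le_mul_right _ (hY1 j x i)
    calc (Bad.card : ℝ) ≤ ((∑ x ∈ C j, ∑ i ∈ S, w j x i *
          (rosG C conf c0 (S.erase i)).card : ℕ) : ℝ) := by exact_mod_cast h2
      _ = _ := by push_cast; rfl
  have hrec : ∀ i ∈ S, ((rosG C conf c0 (S.erase i)).card : ℝ) ≤ 2 * (G.card : ℝ) / ((C i).card : ℝ) := by
    intro i hi
    have hpos : (0 : ℝ) < ((C i).card : ℝ) := by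
      exact_mod_cast (hne i).card_pos
    rw [le_div_iff₀ hpos]
    have hlt : (S.erase i).card < n := by
      rw [← hS]; exact card_erase_lt_of_mem hi
    have := ih _ hlt (S.erase i) rfl i (notMem_erase i S)
    rw [insert_erase hi] at this
    linarith [this]
  have hbad2 : (Bad.card : ℝ) ≤ ((C j).card : ℝ) * ((G.card : ℝ) / 2) := by
    refine hbad.trans ?_
    have : ∀ x ∈ C j, ∑ i ∈ S, (w j x i : ℝ) * ((rosG C conf c0 (S.erase i)).card : ℝ) ≤
        (G.card : ℝ) / 2 := by
      intro x hx
      calc ∑ i ∈ S, (w j x i : ℝ) * ((rosG C conf c0 (S.erase i)).card : ℝ)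
          ≤ ∑ i ∈ S, (w j x i : ℝ) * (2 * (G.card : ℝ) / ((C i).card : ℝ)) := by
            refine sum_le_sum fun i hi => ?_
            exact mul_le_mul_of_nonneg_left (hrec i hi) (Nat.cast_nonneg _)
        _ = (∑ i ∈ S, (w j x i : ℝ) / ((C i).card : ℝ)) * (2 * (G.card : ℝ)) := by
            rw [sum_mul]
            refine sum_congr rfl fun i _ => ?_
            ring
        _ ≤ (∑ i ∈ univ.erase j, (w j x i : ℝ) / ((C i).card : ℝ)) * (2 * (G.card : ℝ)) := by
            refine mul_le_mul_of_nonneg_right ?_ (by positivity)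
            refine sum_le_sum_of_subset_of_nonneg ?_ fun i _ _ => by positivity
            intro i hi
            exact mem_erase.2 ⟨fun h => hj (h ▸ hi), mem_univ _⟩
        _ ≤ 1 / 4 * (2 * (G.card : ℝ)) :=
            mul_le_mul_of_nonneg_right (hD j x hx) (by positivity)
        _ = (G.card : ℝ) / 2 := by ring
    calc _ ≤ ∑ x ∈ C j, (G.card : ℝ) / 2 := sum_le_sum this
      _ = _ := by rw [sum_const, nsmul_eq_mul]
  have hs : (Good.card : ℝ) + (Bad.card : ℝ) = (G.card : ℝ) * ((C j).card : ℝ) := by
    rw [← Nat.cast_add, hsplit, hPcard, Nat.cast_mul]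
  have hg : (Good.card : ℝ) ≤ ((rosG C conf c0 (insert j S)).card : ℝ) := by exact_mod_cast hgood
  nlinarith [hs, hg, hbad2]

/-- **Rosenfeld counting**, general form.  `w j x i` bounds the number of elements of `C i` in
conflict with `x ∈ C j`. -/
theorem exists_transversal' (C : ι → Finset α) (conf : ι → α → ι → α → Prop)
    (hsymm : ∀ i x j y, conf i x j y → conf j y i x)
    (w : ι → α → ι → ℕ)
    (hw : ∀ j x i, ∃ Y : Finset α, Y.card ≤ w j x i ∧ ∀ y ∈ C i, conf j x i y → y ∈ Y)
    (hD : ∀ j, ∀ x ∈ C j, ∑ i ∈ univ.erase j, (w j x i : ℝ) / ((C i).card : ℝ) ≤ 1 / 4)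
    (hne : ∀ i, (C i).Nonempty) :
    ∃ f : ι → α, (∀ i, f i ∈ C i) ∧ ∀ i j, i ≠ j → ¬ conf i (f i) j (f j) := by
  classical
  choose c0 hc0 using hne
  have hpos : ∀ S : Finset ι, (rosG C conf c0 S).Nonempty := by
    intro S
    induction S using Finset.induction_on with
    | empty =>
      refine ⟨c0, mem_rosG.2 ⟨by simp, by simp, by simp⟩⟩
    | insert j S hj ih =>
      have h := rosG_step hsymm w hw hD (fun i => ⟨c0 i, hc0 i⟩) (c0 := c0) _ S rfl j hj
      have h1 : (0 : ℝ) < ((C j).card : ℝ) * ((rosG C conf c0 S).card : ℝ) := by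
        have a1 : 0 < (C j).card := Finset.card_pos.2 ⟨c0 j, hc0 j⟩
        have a2 : 0 < (rosG C conf c0 S).card := ih.card_pos
        positivity
      rw [← card_pos]
      have h2 : (0 : ℝ) < ((rosG C conf c0 (insert j S)).card : ℝ) := by linarith
      exact_mod_cast h2
  obtain ⟨f, hf⟩ := hpos univ
  rw [mem_rosG] at hf
  exact ⟨f, fun i => hf.1 i (mem_univ i), fun i j hij => hf.2.2 i (mem_univ i) j (mem_univ j) hij⟩

/-- **Rosenfeld counting**: if every element `x ∈ C j` is in conflict with at most `D` elements of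
the other families altogether, and all families have at least `4 * D` (and at least one) elements,
there is a conflict-free transversal. -/
theorem exists_transversal (C : ι → Finset α) (conf : ι → α → ι → α → Prop)
    [∀ i x j, DecidablePred (conf i x j)]
    (hsymm : ∀ i x j y, conf i x j y → conf j y i x) (D : ℕ)
    (hD : ∀ j, ∀ x ∈ C j, ∑ i ∈ univ.erase j, ((C i).filter (conf j x i)).card ≤ D)
    (hC : ∀ i, 4 * D ≤ (C i).card) (hne : ∀ i, (C i).Nonempty) :
    ∃ f : ι → α, (∀ i, f i ∈ C i) ∧ ∀ i j, i ≠ j → ¬ conf i (f i) j (f j) := by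
  classical
  refine exists_transversal' C conf hsymm (fun j x i => ((C i).filter (conf j x i)).card)
    (fun j x i => ⟨(C i).filter (conf j x i), le_rfl, fun y hy hc => mem_filter.2 ⟨hy, hc⟩⟩) ?_ hne
  intro j x hx
  rcases Nat.eq_zero_or_pos D with hD0 | hD0
  · have h := hD j x hx
    rw [hD0, Nat.le_zero, sum_eq_zero_iff] at h
    have : ∑ i ∈ univ.erase j, (((C i).filter (conf j x i)).card : ℝ) / ((C i).card : ℝ) = 0 :=
      sum_eq_zero fun i hi => by rw [h i hi]; simp
    rw [this]; norm_num
  · have hDpos : (0 : ℝ) < (D : ℝ) := by exact_mod_cast hD0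
    calc ∑ i ∈ univ.erase j, (((C i).filter (conf j x i)).card : ℝ) / ((C i).card : ℝ)
        ≤ ∑ i ∈ univ.erase j, (((C i).filter (conf j x i)).card : ℝ) / (4 * (D : ℝ)) := by
          refine sum_le_sum fun i _ => ?_
          have h4 : (4 * (D : ℝ)) ≤ ((C i).card : ℝ) := by exact_mod_cast hC i
          exact div_le_div_of_nonneg_left (Nat.cast_nonneg _) (by positivity) h4
      _ = (∑ i ∈ univ.erase j, (((C i).filter (conf j x i)).card : ℝ)) / (4 * (D : ℝ)) := by
          rw [sum_div]
      _ ≤ (D : ℝ) / (4 * (D : ℝ)) := by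
          refine div_le_div_of_nonneg_right ?_ (by positivity)
          exact_mod_cast hD j x hx
      _ = 1 / 4 := by field_simp

end

end Crest.Agent.R034
end

-- ▼ part R034/X
section

set_option autoImplicit false
set_option linter.unusedSectionVars false

/-! M10: `SpecX` (Selection 1, Rosenfeld counting). helper615 -/

open Finset

namespace Crest.Agent.R034

namespace XSel

variable {F : Type} [Field F] [Fintype F] [DecidableEq F]

/-- two lines agreeing in two different positions are equal -/
theorem eq_of_val_eq {l l' : Ln F} {i j : Option F} (hij : i ≠ j)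
    (h1 : val l i = val l' i) (h2 : val l j = val l' j) : l = l' := by
  obtain ⟨m, b⟩ := l
  obtain ⟨m', b'⟩ := l'
  rcases i with _ | x <;> rcases j with _ | y
  · exact absurd rfl hij
  · simp only [val] at h1 h2
    subst h1
    have : b = b' := by linear_combination h2
    rw [this]
  · simp only [val] at h1 h2
    subst h2
    have : b = b' := by linear_combination h1
    rw [this]
  · simp only [val] at h1 h2
    have hxy : x ≠ y := fun h => hij (by rw [h])
    have h3 : (m - m') * (x - y) = 0 := by linear_combination h1 - h2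
    rcases mul_eq_zero.1 h3 with h | h
    · have hm : m = m' := by linear_combination h
      subst hm
      have : b = b' := by linear_combination h1
      rw [this]
    · exact absurd (by linear_combination h) hxy

variable (R : RR F)

/-- candidates in position `i` -/
def cand (i : Option F) : Finset (Ln F) :=
  univ.filter (fun l : Ln F => On (i, R i 0) l ∧ (hits R l i).card = 9 ∧ (mhits R l i).card = 0)

/-- the lines counted by `N2 R z` -/
def two (z : Pt F) : Finset (Ln F) :=
  univ.filter (fun l : Ln F => On z l ∧ (hits R l z.1).card = 9 ∧ (mhits R l z.1).card = 1)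

theorem card_cand (i : Option F) : (cand R i).card = N1 R (i, R i 0) := rfl

variable {R}

theorem main_mem_Kset (i : Option F) : (i, R i 0) ∈ Kset R := by
  simp only [Kset, mem_filter, mem_univ, true_and]
  exact ⟨0, rfl⟩

theorem mem_cand {i : Option F} {l : Ln F} : l ∈ cand R i ↔
    val l i = R i 0 ∧ (hits R l i).card = 9 ∧ (mhits R l i).card = 0 := by
  unfold cand
  rw [mem_filter]
  constructor
  · rintro ⟨-, h⟩; exact h
  · intro h; exact ⟨mem_univ _, h⟩

theorem cand_val {i : Option F} {l : Ln F} (h : l ∈ cand R i) : val l i = R i 0 :=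
  (mem_cand.1 h).1

theorem cand_nine {i : Option F} {l : Ln F} (h : l ∈ cand R i) : (hits R l i).card = 9 :=
  (mem_cand.1 h).2.1

theorem cand_nomain {i : Option F} {l : Ln F} (h : l ∈ cand R i) (j : Option F) (hj : j ≠ i) :
    val l j ≠ R j 0 := by
  intro hc
  have h3 := (mem_cand.1 h).2.2
  rw [card_eq_zero] at h3
  have : j ∈ mhits R l i := by simp [mhits, hj, hc]
  rw [h3] at this
  simp at this

/-- if `b` is a candidate for `j` and goes through the special point `z`, `z.1 ≠ j`, then it is
counted in `N2 R z`, with main position `j`. -/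
theorem cand_two {j : Option F} {b : Ln F} (hb : b ∈ cand R j) {z : Pt F} (hz : z ∈ Kset R)
    (hzb : On z b) (hzj : z.1 ≠ j) : b ∈ two R z ∧ mhits R b z.1 = {j} := by
  have hm : mhits R b z.1 = {j} := by
    ext p
    simp only [mhits, mem_filter, mem_univ, true_and, mem_singleton]
    constructor
    · rintro ⟨h1, h2⟩
      by_contra hpj
      exact cand_nomain hb p hpj h2
    · rintro rfl
      exact ⟨fun h => hzj h.symm, cand_val hb⟩
  refine ⟨?_, hm⟩
  simp only [two, mem_filter, mem_univ, true_and]
  refine ⟨hzb, ?_, by rw [hm]; simp⟩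
  have h9 := cand_nine hb
  -- hits R b z.1 = insert j ((hits R b j).erase z.1)
  have hzmem : z.1 ∈ hits R b j := by
    simp only [hits, mem_filter, mem_univ, true_and]
    refine ⟨hzj, ?_⟩
    have : val b z.1 = z.2 := hzb
    rw [this]
    exact hz
  have : hits R b z.1 = insert j ((hits R b j).erase z.1) := by
    ext p
    simp only [hits, mem_filter, mem_univ, true_and, mem_insert, mem_erase]
    constructor
    · rintro ⟨h1, h2⟩
      by_cases hpj : p = j
      · exact Or.inl hpj
      · exact Or.inr ⟨h1, hpj, h2⟩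
    · rintro (rfl | ⟨h1, h2, h3⟩)
      · refine ⟨fun h => hzj h.symm, ?_⟩
        rw [cand_val hb]
        exact main_mem_Kset p
      · exact ⟨h1, h3⟩
  rw [this, card_insert_of_notMem (by simp [hits]), card_erase_of_mem hzmem, h9]

variable (R)

/-- the conflict relation -/
def conf (c : Option F × Bool) (a : Ln F) (c' : Option F × Bool) (b : Ln F) : Prop :=
  (c.1 ≠ c'.1 ∧ ∃ p, val a p = val b p ∧ (p, val a p) ∈ Kset R) ∨
  (c.1 = c'.1 ∧ ∃ j, j ∈ hits R a c.1 ∧ j ∈ hits R b c.1)

theorem conf_symm (c : Option F × Bool) (a : Ln F) (c' : Option F × Bool) (b : Ln F)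
    (h : conf R c a c' b) : conf R c' b c a := by
  rcases h with ⟨h1, p, h2, h3⟩ | ⟨h1, j, h2, h3⟩
  · exact Or.inl ⟨h1.symm, p, h2.symm, h2 ▸ h3⟩
  · exact Or.inr ⟨h1.symm, j, h1 ▸ h3, h1 ▸ h2⟩

variable {R}

/-- conflicts with other positions -/
theorem bound_other {i : Option F} {a : Ln F} (ha : a ∈ cand R i) (M : ℕ)
    (hM : ∀ z, N2 R z ≤ M) :
    ∑ j ∈ univ.erase i, ((cand R j).filter
      (fun b => ∃ p, val a p = val b p ∧ (p, val a p) ∈ Kset R)).card ≤ 9 * M := by
  classical
  -- the sets
  have hsub : ∀ j ∈ univ.erase i, (cand R j).filter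
      (fun b => ∃ p, val a p = val b p ∧ (p, val a p) ∈ Kset R) ⊆
      (hits R a i).biUnion (fun p => (two R (p, val a p)).filter
        (fun b => mhits R b p = {j})) := by
    intro j hj b hb
    simp only [mem_filter] at hb
    obtain ⟨hb, p, hp1, hp2⟩ := hb
    have hji : j ≠ i := (mem_erase.1 hj).1
    have hpi : p ≠ i := by
      rintro rfl
      have := cand_nomain hb p hji.symm
      exact this (by rw [← hp1, cand_val ha])
    have hpj : p ≠ j := by
      rintro rfl
      have := cand_nomain ha p hji
      exact this (by rw [hp1, cand_val hb])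
    have h := cand_two hb (z := (p, val a p)) hp2 (by simpa [On] using hp1.symm) hpj
    simp only [mem_biUnion, mem_filter]
    refine ⟨p, ?_, h.1, h.2⟩
    simp [hits, hpi, hp2]
  calc ∑ j ∈ univ.erase i, ((cand R j).filter
      (fun b => ∃ p, val a p = val b p ∧ (p, val a p) ∈ Kset R)).card
      ≤ ∑ j ∈ univ.erase i, ∑ p ∈ hits R a i, ((two R (p, val a p)).filter
        (fun b => mhits R b p = {j})).card := by
        refine sum_le_sum fun j hj => (card_le_card (hsub j hj)).trans card_biUnion_le
    _ = ∑ p ∈ hits R a i, ∑ j ∈ univ.erase i, ((two R (p, val a p)).filter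
        (fun b => mhits R b p = {j})).card := sum_comm
    _ ≤ ∑ p ∈ hits R a i, M := by
        refine sum_le_sum fun p _ => ?_
        rw [← card_biUnion]
        · refine le_trans (card_le_card ?_) (hM (p, val a p))
          intro b hb
          simp only [mem_biUnion, mem_filter] at hb
          obtain ⟨_, _, h, _⟩ := hb
          exact h
        · intro j _ j' _ hjj
          rw [Function.onFun, disjoint_left]
          intro b hb hb'
          simp only [mem_filter] at hb hb'
          have := hb.2.symm.trans hb'.2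
          exact hjj (singleton_injective this)
    _ = 9 * M := by rw [sum_const, cand_nine ha, smul_eq_mul]

/-- conflicts within the same position -/
theorem bound_same {i : Option F} {a : Ln F} (ha : a ∈ cand R i) :
    ((cand R i).filter (fun b => ∃ j, j ∈ hits R a i ∧ j ∈ hits R b i)).card ≤ 9000 := by
  classical
  have hsub : (cand R i).filter (fun b => ∃ j, j ∈ hits R a i ∧ j ∈ hits R b i) ⊆
      (hits R a i ×ˢ (univ : Finset (Fin kap))).biUnion (fun p =>
        (cand R i).filter (fun b => val b p.1 = R p.1 p.2)) := by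
    intro b hb
    simp only [mem_filter] at hb
    obtain ⟨hb, j, hj1, hj2⟩ := hb
    have hj3 := hj2
    simp only [hits, mem_filter, mem_univ, true_and, Kset] at hj3
    obtain ⟨_, r, hr⟩ := hj3
    simp only [mem_biUnion, mem_filter, mem_product, mem_univ, and_true]
    exact ⟨(j, r), hj1, hb, hr.symm⟩
  refine (card_le_card hsub).trans (card_biUnion_le.trans ?_)
  calc ∑ p ∈ hits R a i ×ˢ (univ : Finset (Fin kap)),
        ((cand R i).filter (fun b => val b p.1 = R p.1 p.2)).card
      ≤ ∑ p ∈ hits R a i ×ˢ (univ : Finset (Fin kap)), 1 := by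
        refine sum_le_sum fun p hp => ?_
        rw [card_le_one]
        intro b hb b' hb'
        simp only [mem_filter] at hb hb'
        have hpi : i ≠ p.1 := by
          have := (mem_product.1 hp).1
          simp only [hits, mem_filter, mem_univ, true_and] at this
          exact fun h => this.1 h.symm
        exact eq_of_val_eq hpi ((cand_val hb.1).trans (cand_val hb'.1).symm)
          (hb.2.trans hb'.2.symm)
    _ = 9000 := by
        rw [sum_const, card_product, cand_nine ha, card_univ, Fintype.card_fin]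
        rfl

end XSel

open XSel

theorem specX : SpecX := by
  intro F _ _ _ R hR2
  classical
  -- maximal value of N2
  obtain ⟨z0, -, hz0⟩ := exists_max_image (univ : Finset (Pt F)) (N2 R) ⟨(none, 0), mem_univ _⟩
  set M := N2 R z0 with hM
  have hMle : ∀ z, N2 R z ≤ M := fun z => hz0 z (mem_univ z)
  have hcard : ∀ i, 4 * (18 * M + 9000) ≤ (cand R i).card := by
    intro i
    rw [card_cand]
    exact hR2 _ _
  obtain ⟨f, hf1, hf2⟩ := exists_transversal (ι := Option F × Bool) (α := Ln F)
    (fun c => cand R c.1) (conf R) (conf_symm R) (18 * M + 9000) (by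
      intro c a ha
      obtain ⟨i, s⟩ := c
      simp only at ha
      have hsplit : (univ : Finset (Option F × Bool)).erase (i, s) =
          insert (i, !s) ((univ.erase i) ×ˢ (univ : Finset Bool)) := by
        ext ⟨j, t⟩
        simp only [mem_erase, ne_eq, Prod.mk.injEq, mem_univ, and_true, mem_insert, mem_product]
        constructor
        · intro h
          by_cases hji : j = i
          · left
            refine ⟨hji, ?_⟩
            have : t ≠ s := fun h' => h ⟨hji, h'⟩
            cases s <;> cases t <;> simp_all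
          · right; exact hji
        · rintro (⟨h1, h2⟩ | h)
          · rintro ⟨-, h4⟩
            rw [h2] at h4
            cases s <;> simp at h4
          · exact fun h' => h h'.1
      rw [hsplit, sum_insert (by simp), sum_product]
      have h1 : ((cand R i).filter (conf R (i, s) a (i, !s))).card ≤ 9000 := by
        refine le_trans (card_le_card ?_) (bound_same ha)
        intro b hb
        simp only [mem_filter, conf] at hb ⊢
        rcases hb with ⟨hb, ⟨h, _⟩ | ⟨_, h⟩⟩
        · exact absurd rfl h
        · exact ⟨hb, h⟩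
      have h2 : ∑ j ∈ univ.erase i, ∑ t : Bool,
          ((cand R j).filter (conf R (i, s) a (j, t))).card ≤ 18 * M := by
        calc _ ≤ ∑ j ∈ univ.erase i, ∑ t : Bool, ((cand R j).filter
              (fun b => ∃ p, val a p = val b p ∧ (p, val a p) ∈ Kset R)).card := by
              refine sum_le_sum fun j hj => sum_le_sum fun t _ => card_le_card ?_
              intro b hb
              simp only [mem_filter, conf] at hb ⊢
              rcases hb with ⟨hb, ⟨_, h⟩ | ⟨h, _⟩⟩
              · exact ⟨hb, h⟩
              · exact absurd h.symm (mem_erase.1 hj).1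
          _ = 2 * ∑ j ∈ univ.erase i, ((cand R j).filter
              (fun b => ∃ p, val a p = val b p ∧ (p, val a p) ∈ Kset R)).card := by
              rw [mul_sum]
              refine sum_congr rfl fun j _ => ?_
              rw [sum_const, card_univ, Fintype.card_bool, smul_eq_mul]
          _ ≤ 2 * (9 * M) := Nat.mul_le_mul_left _ (bound_other ha M hMle)
          _ = 18 * M := by ring
      simp only at h1 h2 ⊢
      omega)
    (fun c => hcard c.1)
    (fun c => by
      rw [← card_pos]
      have := hcard c.1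
      omega)
  refine ⟨fun i s => f (i, s), ?_, ?_, ?_, ?_, ?_, ?_⟩
  · intro i s
    exact cand_val (hf1 (i, s))
  · intro i s
    exact cand_nine (hf1 (i, s))
  · intro i s j hj
    exact cand_nomain (hf1 (i, s)) j hj
  · intro i j h1 h2
    exact hf2 (i, true) (i, false) (by simp) (Or.inr ⟨rfl, j, h1, h2⟩)
  · intro i heq
    have h9 := cand_nine (hf1 (i, true))
    have hne : (hits R (f (i, true)) i).Nonempty := by
      rw [← card_pos]
      have h9' : (hits R (f (i, true)) i).card = 9 := h9
      omega
    obtain ⟨j, hj⟩ := hne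
    have heq' : f (i, true) = f (i, false) := heq
    exact hf2 (i, true) (i, false) (by simp) (Or.inr ⟨rfl, j, hj, by
      rw [← heq']; exact hj⟩)
  · intro i s i' s' j hii hval hK
    exact hf2 (i, s) (i', s') (by simp [hii]) (Or.inl ⟨hii, j, hval, hK⟩)

end Crest.Agent.R034
end

-- ▼ part R034/WDefs
section

/-!
# Row 34: explicit data of Selection 2 (labels), interface between M11a and M11b

For every position `i` there are nine parameters `y i : Fin 9 → F`.
* `mp R i = (i, R i 0)` is the main point;
* `hpos R X i s a` (`a : Fin 9`) enumerates the nine hit positions of the altered line `X i s`,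
  `vp R X i s a` is the special point of `X i s` there;
* slot `c : Fin 9`: `W i true c = (hpos i true c, y c)`, and `W i false c` is the point of the line
  `thru (mp i) (W i true c)` in position `hpos i false c`.
Designated lines: `thru (mp i) (W i true c)` (`c ≠ 8`) for the main point, and
`thru (vp i s a) (W i s c)` (`c ≠ a`) for the special point `vp i s a`.
-/

set_option autoImplicit false

namespace Crest.Agent.R034

open Finset

variable {F : Type} [Field F] [Fintype F] [DecidableEq F]

/-- main point of position `i` -/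
def mp (R : RR F) (i : Option F) : Pt F := (i, R i 0)

/-- enumeration of the nine hit positions of `X i s` -/
noncomputable def hpos (R : RR F) (X : Option F → Bool → Ln F) (i : Option F) (s : Bool)
    (a : Fin 9) : Option F :=
  if h : (hits R (X i s) i).card = 9 then (((hits R (X i s) i).equivFinOfCardEq h).symm a).1
  else none

/-- the special point of `X i s` in its `a`-th hit position -/
noncomputable def vp (R : RR F) (X : Option F → Bool → Ln F) (i : Option F) (s : Bool)
    (a : Fin 9) : Pt F := (hpos R X i s a, val (X i s) (hpos R X i s a))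

/-- value of the `c`-th label of `X i s` -/
noncomputable def wv (R : RR F) (X : Option F → Bool → Ln F) (i : Option F) (y : Fin 9 → F)
    (s : Bool) (c : Fin 9) : F :=
  if s = true then y c
  else val (thru (mp R i) (hpos R X i true c, y c)) (hpos R X i false c)

/-- the `c`-th label point of `X i s` -/
noncomputable def W (R : RR F) (X : Option F → Bool → Ln F) (i : Option F) (y : Fin 9 → F)
    (s : Bool) (c : Fin 9) : Pt F := (hpos R X i s c, wv R X i y s c)

open Classical in
/-- all used special points -/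
noncomputable def KK (R : RR F) (X : Option F → Bool → Ln F) : Finset (Pt F) :=
  univ.filter (fun v => (∃ i, v = mp R i) ∨ ∃ i s a, v = vp R X i s a)

open Classical in
/-- labels of the altered edges -/
noncomputable def LL (R : RR F) (X : Option F → Bool → Ln F) (y : Option F → Fin 9 → F)
    (i : Option F) (s : Bool) (j : Option F) : F :=
  if h : ∃ a, hpos R X i s a = j then wv R X i (y i) s h.choose else val (X i s) j

open Classical in
/-- designated lines -/
noncomputable def UU (R : RR F) (X : Option F → Bool → Ln F) (y : Option F → Fin 9 → F)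
    (v : Pt F) : Finset (Ln F) :=
  univ.filter (fun u =>
    (∃ i, v = mp R i ∧ ∃ c : Fin 9, c ≠ 8 ∧ u = thru (mp R i) (W R X i (y i) true c)) ∨
    (∃ i s a, v = vp R X i s a ∧ ∃ c : Fin 9, c ≠ a ∧
      u = thru (vp R X i s a) (W R X i (y i) s c)))

/-- M11b: choice of the parameters such that no point sees too many flags. -/
def SpecW2 : Prop :=
  ∀ c : ℝ, 0 < c → ∃ q0 : ℕ, ∀ (F : Type) [Field F] [Fintype F] [DecidableEq F],
    q0 ≤ ord F → ∀ k : ℕ, k ^ 20 ≤ ord F → ∀ (R : RR F) (X : Option F → Bool → Ln F),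
    R5 R k → GoodX R X → ∀ G : Option F → Finset (Fin 9 → F),
    (∀ i, c * (ord F : ℝ) ^ 9 ≤ ((G i).card : ℝ)) →
    ∃ y : Option F → Fin 9 → F, (∀ i, y i ∈ G i) ∧
      (∀ l, (∀ i s, X i s ≠ l) → ∀ z, ¬ On z l → flags (KK R X) (UU R X y) l z ≤ 8) ∧
      (∀ i, ∀ z : Pt F, z.1 ≠ i → pflags (KK R X) (UU R X y) i z ≤ 6)

end Crest.Agent.R034
end

-- ▼ part R034/FirstMoment
section

set_option autoImplicit false

/-! First moment selection in a finite product space. helper615 -/

open Finset

namespace Crest.Agent.R034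

open Classical in
/-- If the bad events `t ∈ T` (`B t i (y i)` for all `i ∈ J t`) have total density `< 1`,
some choice `y i ∈ G i` avoids all of them. -/
theorem exists_avoid {ι α τ : Type*} [Fintype ι] (G : ι → Finset α) (hG : ∀ i, (G i).Nonempty)
    (T : Finset τ) (J : τ → Finset ι) (B : τ → ι → α → Prop) (β : τ → ℝ)
    (hB : ∀ t ∈ T, ∀ i ∈ J t, (((G i).filter (B t i)).card : ℝ) ≤ β t * (G i).card)
    (hsum : ∑ t ∈ T, (β t) ^ (J t).card < 1) :
    ∃ y : ι → α, (∀ i, y i ∈ G i) ∧ ∀ t ∈ T, ∃ i ∈ J t, ¬ B t i (y i) := by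
  by_contra hcon
  push Not at hcon
  set Y : Finset (ι → α) := Fintype.piFinset G with hY
  have hYcard : (Y.card : ℝ) = ∏ i, ((G i).card : ℝ) := by
    rw [hY, Fintype.card_piFinset]; push_cast; rfl
  have hYpos : (0 : ℝ) < Y.card := by
    rw [hYcard]
    exact prod_pos fun i _ => by exact_mod_cast (hG i).card_pos
  have hsub : Y ⊆ T.biUnion (fun t =>
      Fintype.piFinset (fun i => if i ∈ J t then (G i).filter (B t i) else G i)) := by
    intro y hy
    rw [hY, Fintype.mem_piFinset] at hy
    obtain ⟨t, ht, h⟩ := hcon y hy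
    simp only [mem_biUnion, Fintype.mem_piFinset]
    refine ⟨t, ht, fun i => ?_⟩
    by_cases hi : i ∈ J t
    · simp only [hi, if_true, mem_filter]
      exact ⟨hy i, h i hi⟩
    · simp only [hi, if_false]
      exact hy i
  have h1 : (Y.card : ℝ) ≤ ∑ t ∈ T, (β t) ^ (J t).card * (Y.card : ℝ) := by
    calc (Y.card : ℝ) ≤ ((∑ t ∈ T, (Fintype.piFinset
          (fun i => if i ∈ J t then (G i).filter (B t i) else G i)).card : ℕ) : ℝ) := by
          exact_mod_cast (card_le_card hsub).trans card_biUnion_le
      _ = ∑ t ∈ T, ∏ i, (((if i ∈ J t then (G i).filter (B t i) else G i).card : ℕ) : ℝ) := by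
          push_cast [Fintype.card_piFinset]
          rfl
      _ ≤ ∑ t ∈ T, (β t) ^ (J t).card * (Y.card : ℝ) := by
          refine sum_le_sum fun t ht => ?_
          rw [hYcard]
          calc ∏ i, (((if i ∈ J t then (G i).filter (B t i) else G i).card : ℕ) : ℝ)
              ≤ ∏ i, ((if i ∈ J t then β t else 1) * ((G i).card : ℝ)) := by
                refine prod_le_prod (fun i _ => Nat.cast_nonneg _) fun i _ => ?_
                by_cases hi : i ∈ J t
                · simp only [hi, if_true]
                  exact hB t ht i hi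
                · simp only [hi, if_false, one_mul]
                  exact le_rfl
            _ = _ := by
                rw [prod_mul_distrib, Fintype.prod_ite_mem, prod_const]
  rw [← sum_mul] at h1
  nlinarith [h1, hsum, hYpos]

end Crest.Agent.R034
end

-- ▼ part R034/W2
section

set_option autoImplicit false

/-! M11b: `SpecW2` (first moment for the flags). helper615 -/

open Finset

namespace Crest.Agent.R034

namespace W2

variable {F : Type} [Field F] [Fintype F] [DecidableEq F]

/-- `v` is a special point of gadget `i` -/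
def Sp (R : RR F) (X : Option F → Bool → Ln F) (i : Option F) (v : Pt F) : Prop :=
  v = mp R i ∨ ∃ s a, v = vp R X i s a

/-- `u` is designated for `v` in gadget `i` with parameters `t` -/
def Des (R : RR F) (X : Option F → Bool → Ln F) (i : Option F) (t : Fin 9 → F)
    (v : Pt F) (u : Ln F) : Prop :=
  (v = mp R i ∧ ∃ c : Fin 9, c ≠ 8 ∧ u = thru (mp R i) (W R X i t true c)) ∨
    (∃ s a, v = vp R X i s a ∧ ∃ c : Fin 9, c ≠ a ∧ u = thru (vp R X i s a) (W R X i t s c))

theorem mem_UU {R : RR F} {X : Option F → Bool → Ln F} {y : Option F → Fin 9 → F} {v : Pt F}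
    {u : Ln F} : u ∈ UU R X y v ↔ ∃ i, Des R X i (y i) v u := by
  unfold UU Des
  simp only [mem_filter, mem_univ, true_and]
  constructor
  · rintro (⟨i, h⟩ | ⟨i, s, a, h⟩)
    · exact ⟨i, Or.inl h⟩
    · exact ⟨i, Or.inr ⟨s, a, h⟩⟩
  · rintro ⟨i, h | ⟨s, a, h⟩⟩
    · exact Or.inl ⟨i, h⟩
    · exact Or.inr ⟨i, s, a, h⟩

theorem Des.sp {R : RR F} {X : Option F → Bool → Ln F} {i : Option F} {t : Fin 9 → F}
    {v : Pt F} {u : Ln F} (h : Des R X i t v u) : Sp R X i v := by
  rcases h with ⟨h, _⟩ | ⟨s, a, h, _⟩
  · exact Or.inl h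
  · exact Or.inr ⟨s, a, h⟩

section geom

variable {R : RR F} {X : Option F → Bool → Ln F} (gx : GoodX R X)

include gx

theorem hpos_mem (i : Option F) (s : Bool) (a : Fin 9) :
    hpos R X i s a ∈ hits R (X i s) i := by
  unfold hpos
  rw [dif_pos (gx.nine i s)]
  exact Subtype.prop _

theorem hpos_ne (i : Option F) (s : Bool) (a : Fin 9) : hpos R X i s a ≠ i :=
  (mem_hits.1 (hpos_mem gx i s a)).1

theorem hpos_inj (i : Option F) (s : Bool) {a b : Fin 9} (h : hpos R X i s a = hpos R X i s b) :
    a = b := by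
  unfold hpos at h
  rw [dif_pos (gx.nine i s), dif_pos (gx.nine i s)] at h
  exact (((hits R (X i s) i).equivFinOfCardEq (gx.nine i s)).symm).injective (Subtype.ext h)

theorem vp_Kset (i : Option F) (s : Bool) (a : Fin 9) : vp R X i s a ∈ Kset R :=
  (mem_hits.1 (hpos_mem gx i s a)).2

omit gx in
theorem vp_on (i : Option F) (s : Bool) (a : Fin 9) : On (vp R X i s a) (X i s) := rfl

theorem mp_on (i : Option F) (s : Bool) : On (mp R i) (X i s) := gx.on_main i s

theorem Sp.on {i : Option F} {v : Pt F} (h : Sp R X i v) :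
    On v (X i true) ∨ On v (X i false) := by
  rcases h with rfl | ⟨s, a, rfl⟩
  · exact Or.inl (mp_on gx i true)
  · cases s
    · exact Or.inr (vp_on i false a)
    · exact Or.inl (vp_on i true a)

theorem Sp.mem {i : Option F} {v : Pt F} (h : Sp R X i v) : v ∈ Kset R := by
  rcases h with rfl | ⟨s, a, rfl⟩
  · exact main_mem_Kset R i
  · exact vp_Kset gx i s a

theorem Sp.unique {i j : Option F} {v : Pt F} (h : Sp R X i v) (h' : Sp R X j v) : i = j := by
  by_contra hij
  rcases h with rfl | ⟨s, a, rfl⟩
  · rcases h' with h' | ⟨s', a', h'⟩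
    · exact hij (congrArg Prod.fst h')
    · have h1 : i = hpos R X j s' a' := congrArg Prod.fst h'
      have h2 : R i 0 = val (X j s') (hpos R X j s' a') := congrArg Prod.snd h'
      rw [← h1] at h2
      exact gx.no_main j s' i hij h2.symm
  · rcases h' with h' | ⟨s', a', h'⟩
    · have h1 : hpos R X i s a = j := congrArg Prod.fst h'
      have h2 : val (X i s) (hpos R X i s a) = R j 0 := congrArg Prod.snd h'
      rw [h1] at h2
      exact gx.no_main i s j (Ne.symm hij) h2
    · have h1 : hpos R X i s a = hpos R X j s' a' := congrArg Prod.fst h'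
      have h2 : val (X i s) (hpos R X i s a) = val (X j s') (hpos R X j s' a') :=
        congrArg Prod.snd h'
      rw [← h1] at h2
      exact gx.priv i s j s' _ hij h2 (vp_Kset gx i s a)

/-- number of special points of gadget `i` on a non-altered line -/
theorem card_sp_line {i : Option F} {l : Ln F} (hl : ∀ s, X i s ≠ l) (S : Finset (Pt F))
    (hS : ∀ v ∈ S, Sp R X i v ∧ On v l) : S.card ≤ 2 := by
  classical
  have hsub : S ⊆ S.filter (fun v => On v (X i true)) ∪ S.filter (fun v => On v (X i false)) := by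
    intro v hv
    rw [mem_union, mem_filter, mem_filter]
    rcases (hS v hv).1.on gx with h | h
    · exact Or.inl ⟨hv, h⟩
    · exact Or.inr ⟨hv, h⟩
  have h1 : ∀ s, (S.filter (fun v => On v (X i s))).card ≤ 1 := by
    intro s
    rw [card_le_one]
    intro a ha b hb
    rw [mem_filter] at ha hb
    by_contra hab
    have hne := pos_ne_of_on (hS a ha.1).2 (hS b hb.1).2 hab
    exact hl s (eq_of_on hne ha.2 (hS a ha.1).2 hb.2 (hS b hb.1).2)
  calc S.card ≤ _ := card_le_card hsub
    _ ≤ _ := card_union_le _ _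
    _ ≤ 2 := by have := h1 true; have := h1 false; omega

/-- number of special points of gadget `j` in a position -/
theorem card_sp_pos {i j : Option F} (S : Finset (Pt F))
    (hS : ∀ v ∈ S, Sp R X j v ∧ v.1 = i) : S.card ≤ 2 := by
  classical
  have hsub : S ⊆ {(i, val (X j true) i), (i, val (X j false) i)} := by
    intro v hv
    obtain ⟨h1, h2⟩ := hS v hv
    simp only [mem_insert, mem_singleton]
    rcases h1.on gx with h | h
    · left; rw [← h2]; exact Prod.ext rfl h.symm
    · right; rw [← h2]; exact Prod.ext rfl h.symm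
  exact (card_le_card hsub).trans card_le_two

/-- the representations of a designated line: `inl c` = main point, slot `c`;
`inr (s,a,c)` = special point `(s,a)`, slot `c`. -/
abbrev Rep := Fin 9 ⊕ (Bool × Fin 9 × Fin 9)

omit gx in
theorem card_Rep : Fintype.card Rep = 171 := by
  simp [Rep]

/-- the event that the designated line of representation `ρ` goes through `z` -/
def Ev (R : RR F) (X : Option F → Bool → Ln F) (i : Option F) (z : Pt F) (ρ : Rep)
    (t : Fin 9 → F) : Prop :=
  match ρ with
  | Sum.inl c => c ≠ 8 ∧ mp R i ≠ z ∧ On z (thru (mp R i) (W R X i t true c))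
  | Sum.inr (s, a, c) => c ≠ a ∧ vp R X i s a ≠ z ∧ On z (thru (vp R X i s a) (W R X i t s c))

/-- the value of the slot `(s,c)` is determined by one coordinate of `t` -/
theorem wv_coord (i : Option F) (s : Bool) (c : Fin 9) (α : F) :
    ∃ m : Fin 9, ∃ β : F, ∀ t : Fin 9 → F, wv R X i t s c = α → t m = β := by
  unfold wv
  cases s
  · refine ⟨c, val (thru (mp R i) (hpos R X i false c, α)) (hpos R X i true c),
        fun t h => ?_⟩
    simp only [Bool.false_eq_true, if_false] at h
    have hne1 : (mp R i).1 ≠ (hpos R X i true c, t c).1 :=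
      fun h' => hpos_ne gx i true c h'.symm
    have hne2 : (mp R i).1 ≠ (hpos R X i false c, α).1 :=
      fun h' => hpos_ne gx i false c h'.symm
    have : thru (mp R i) (hpos R X i true c, t c) =
        thru (mp R i) (hpos R X i false c, α) :=
      eq_of_on (a := mp R i) (b := (hpos R X i false c, α)) hne2 (on_thru_left hne1)
        (on_thru_left hne2) h (on_thru_right hne2)
    rw [← this]
    exact (on_thru_right hne1).symm
  · exact ⟨c, α, fun t h => by simpa using h⟩

theorem thru_coord (i : Option F) (s : Bool) (c : Fin 9) (v z : Pt F) (hvz : v ≠ z)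
    (hv : v.1 ≠ hpos R X i s c) :
    ∃ m : Fin 9, ∃ β : F, ∀ t : Fin 9 → F, On z (thru v (W R X i t s c)) → t m = β := by
  obtain ⟨m, β, h⟩ := wv_coord gx i s c (val (thru v z) (hpos R X i s c))
  refine ⟨m, β, fun t ht => h t ?_⟩
  have h1 : v.1 ≠ (W R X i t s c).1 := hv
  have h2 := on_thru_left h1
  have h3 := on_thru_right h1
  have h4 : v.1 ≠ z.1 := pos_ne_of_on h2 ht hvz
  rw [← eq_thru h4 h2 ht]
  exact h3.symm

theorem Ev_coord (i : Option F) (z : Pt F) (ρ : Rep) :
    ∃ m : Fin 9, ∃ β : F, ∀ t : Fin 9 → F, Ev R X i z ρ t → t m = β := by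
  rcases ρ with c | ⟨s, a, c⟩
  · by_cases h : mp R i ≠ z
    · obtain ⟨m, β, h'⟩ := thru_coord gx i true c (mp R i) z h
        (fun h' => hpos_ne gx i true c h'.symm)
      exact ⟨m, β, fun t ht => h' t ht.2.2⟩
    · exact ⟨0, 0, fun t ht => absurd ht.2.1 h⟩
  · by_cases h : vp R X i s a ≠ z
    · by_cases hca : c = a
      · exact ⟨0, 0, fun t ht => absurd hca ht.1⟩
      · obtain ⟨m, β, h'⟩ := thru_coord gx i s c (vp R X i s a) z h
          (fun h' => hca (hpos_inj gx i s (h' : hpos R X i s a = _)).symm)
        exact ⟨m, β, fun t ht => h' t ht.2.2⟩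
    · exact ⟨0, 0, fun t ht => absurd ht.2.1 h⟩

omit gx in
theorem card_coord (m : Fin 9) (β : F) :
    (univ.filter (fun t : Fin 9 → F => t m = β)).card ≤ ord F ^ 8 := by
  classical
  have h : univ.filter (fun t : Fin 9 → F => t m = β) =
      Fintype.piFinset (fun j => if j = m then ({β} : Finset F) else univ) := by
    ext t
    simp only [mem_filter, mem_univ, true_and, Fintype.mem_piFinset]
    constructor
    · intro ht j
      by_cases hj : j = m
      · subst hj; simp [ht]
      · simp [hj]
    · intro ht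
      simpa using ht m
  rw [h, Fintype.card_piFinset]
  have : ∀ j : Fin 9, (if j = m then ({β} : Finset F) else univ).card =
      if j = m then 1 else ord F := by
    intro j
    by_cases hj : j = m <;> simp [hj, ord]
  rw [prod_congr rfl (fun j _ => this j), prod_ite]
  simp only [prod_const_one, one_mul, prod_const]
  refine Nat.pow_le_pow_right (Fintype.card_pos) ?_
  have : (univ.filter (fun j : Fin 9 => ¬ j = m)).card = 8 := by
    have h2 : univ.filter (fun j : Fin 9 => ¬ j = m) = univ.erase m := by
      ext j; simp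
    rw [h2, card_erase_of_mem (mem_univ m)]
    simp
  exact this.le

open Classical in
/-- number of parameters with a flag at `z` -/
theorem card_flag (i : Option F) (z : Pt F) (S : Set (Pt F)) (hz : z ∉ S) (G : Finset (Fin 9 → F)) :
    (G.filter (fun t => ∃ v ∈ S, ∃ u, Des R X i t v u ∧ On z u)).card ≤ 171 * ord F ^ 8 := by
  have hsub : G.filter (fun t => ∃ v ∈ S, ∃ u, Des R X i t v u ∧ On z u) ⊆
      (univ : Finset Rep).biUnion (fun ρ => univ.filter (fun t => Ev R X i z ρ t)) := by
    intro t ht
    rw [mem_filter] at ht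
    obtain ⟨_, v, hv, u, hd, hz'⟩ := ht
    simp only [mem_biUnion, mem_filter, mem_univ, true_and]
    have hvz : v ≠ z := fun h => hz (h ▸ hv)
    rcases hd with ⟨hvm, c, hc, hu⟩ | ⟨s, a, hvm, c, hc, hu⟩
    · exact ⟨Sum.inl c, hc, hvm ▸ hvz, hu ▸ hz'⟩
    · exact ⟨Sum.inr (s, a, c), hc, hvm ▸ hvz, hu ▸ hz'⟩
  calc _ ≤ _ := card_le_card hsub
    _ ≤ ∑ ρ : Rep, (univ.filter (fun t => Ev R X i z ρ t)).card := card_biUnion_le
    _ ≤ ∑ ρ : Rep, ord F ^ 8 := by
        refine sum_le_sum fun ρ _ => ?_
        obtain ⟨m, β, h⟩ := Ev_coord gx i z ρ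
        refine le_trans (card_le_card ?_) (card_coord m β)
        intro t ht
        simp only [mem_filter, mem_univ, true_and] at ht ⊢
        exact h t ht
    _ = 171 * ord F ^ 8 := by rw [sum_const, card_univ, card_Rep, smul_eq_mul]

/-- gadgets with a special point on `l` -/
noncomputable def Il (R : RR F) (X : Option F → Bool → Ln F) (l : Ln F) : Finset (Option F) := by
  classical
  exact univ.filter (fun i => ∃ v, Sp R X i v ∧ On v l)

/-- gadgets with a special point in position `i` -/
noncomputable def Ip (R : RR F) (X : Option F → Bool → Ln F) (i : Option F) :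
    Finset (Option F) := by
  classical
  exact univ.filter (fun j => ∃ v, Sp R X j v ∧ v.1 = i)

theorem card_Il (l : Ln F) :
    (Il R X l).card ≤ (univ.filter (fun j => (j, val l j) ∈ Kset R)).card := by
  classical
  have h : ∀ i ∈ Il R X l, ∃ v, Sp R X i v ∧ On v l := by
    intro i hi
    simpa [Il] using hi
  choose! v hv using h
  refine card_le_card_of_injOn (fun i => (v i).1) ?_ ?_
  · intro i hi
    obtain ⟨h1, h2⟩ := hv i hi
    simp only [coe_filter, mem_univ, true_and, Set.mem_ofPred_eq]
    have : ((v i).1, val l (v i).1) = v i := Prod.ext rfl h2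
    rw [this]
    exact h1.mem gx
  · intro i hi j hj hij
    have hi' := hv i hi
    have hj' := hv j hj
    have : v i = v j := by
      by_contra hne
      exact pos_ne_of_on hi'.2 hj'.2 hne hij
    rw [this] at hi'
    exact hi'.1.unique gx hj'.1

theorem card_Ip (i : Option F) : (Ip R X i).card ≤ kap := by
  classical
  have h : ∀ j ∈ Ip R X i, ∃ v, Sp R X j v ∧ v.1 = i := by
    intro j hj
    simpa [Ip] using hj
  choose! v hv using h
  refine le_trans ?_ (card_Kset_pos_le R i)
  refine card_le_card_of_injOn v ?_ ?_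
  · intro j hj
    obtain ⟨h1, h2⟩ := hv j hj
    simp only [coe_filter, Set.mem_ofPred_eq]
    exact ⟨h1.mem gx, h2⟩
  · intro j hj j' hj' hjj
    have h1 := (hv j hj).1
    rw [hjj] at h1
    exact h1.unique gx (hv j' hj').1

open Classical in
/-- from flags to bad gadgets (line case) -/
theorem flags_le {l : Ln F} (hl : ∀ i s, X i s ≠ l) (y : Option F → Fin 9 → F) (z : Pt F) :
    flags (KK R X) (UU R X y) l z ≤ 2 * ((Il R X l).filter (fun i =>
      ∃ v ∈ {v : Pt F | On v l}, ∃ u, Des R X i (y i) v u ∧ On z u)).card := by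
  set Bad := (Il R X l).filter (fun i =>
      ∃ v ∈ {v : Pt F | On v l}, ∃ u, Des R X i (y i) v u ∧ On z u) with hBad
  have hsub : (KK R X).filter (fun v => On v l ∧ ∃ u ∈ UU R X y v, On z u) ⊆
      Bad.biUnion (fun i => univ.filter (fun v => Sp R X i v ∧ On v l)) := by
    intro v hv
    rw [mem_filter] at hv
    obtain ⟨_, hvl, u, hu, hzu⟩ := hv
    obtain ⟨i, hd⟩ := mem_UU.1 hu
    simp only [mem_biUnion, mem_filter, mem_univ, true_and]
    refine ⟨i, ?_, hd.sp, hvl⟩
    rw [hBad, mem_filter]
    refine ⟨?_, v, hvl, u, hd, hzu⟩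
    simp only [Il, mem_filter, mem_univ, true_and]
    exact ⟨v, hd.sp, hvl⟩
  unfold flags
  calc _ = ((KK R X).filter (fun v => On v l ∧ ∃ u ∈ UU R X y v, On z u)).card := by
          congr 1
    _ ≤ _ := card_le_card hsub
    _ ≤ ∑ i ∈ Bad, (univ.filter (fun v => Sp R X i v ∧ On v l)).card := card_biUnion_le
    _ ≤ ∑ i ∈ Bad, 2 := by
        refine sum_le_sum fun i _ => card_sp_line gx (hl i) _ fun v hv => ?_
        simpa using hv
    _ = 2 * Bad.card := by rw [sum_const, smul_eq_mul, mul_comm]

open Classical in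
/-- from flags to bad gadgets (position case) -/
theorem pflags_le (i : Option F) (y : Option F → Fin 9 → F) (z : Pt F) :
    pflags (KK R X) (UU R X y) i z ≤ 2 * ((Ip R X i).filter (fun j =>
      ∃ v ∈ {v : Pt F | v.1 = i}, ∃ u, Des R X j (y j) v u ∧ On z u)).card := by
  set Bad := (Ip R X i).filter (fun j =>
      ∃ v ∈ {v : Pt F | v.1 = i}, ∃ u, Des R X j (y j) v u ∧ On z u) with hBad
  have hsub : (KK R X).filter (fun v => v.1 = i ∧ ∃ u ∈ UU R X y v, On z u) ⊆
      Bad.biUnion (fun j => univ.filter (fun v => Sp R X j v ∧ v.1 = i)) := by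
    intro v hv
    rw [mem_filter] at hv
    obtain ⟨_, hvl, u, hu, hzu⟩ := hv
    obtain ⟨j, hd⟩ := mem_UU.1 hu
    simp only [mem_biUnion, mem_filter, mem_univ, true_and]
    refine ⟨j, ?_, hd.sp, hvl⟩
    rw [hBad, mem_filter]
    refine ⟨?_, v, hvl, u, hd, hzu⟩
    simp only [Ip, mem_filter, mem_univ, true_and]
    exact ⟨v, hd.sp, hvl⟩
  unfold pflags
  calc _ = ((KK R X).filter (fun v => v.1 = i ∧ ∃ u ∈ UU R X y v, On z u)).card := by
          congr 1
    _ ≤ _ := card_le_card hsub
    _ ≤ ∑ j ∈ Bad, (univ.filter (fun v => Sp R X j v ∧ v.1 = i)).card := card_biUnion_le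
    _ ≤ ∑ j ∈ Bad, 2 := by
        refine sum_le_sum fun j _ => ?_
        refine card_sp_pos gx (i := i) (j := j) _ (fun v hv => ?_)
        simpa using hv
    _ = 2 * Bad.card := by rw [sum_const, smul_eq_mul, mul_comm]

open Classical in
/-- bad configurations, line case -/
noncomputable def TT1 (R : RR F) (X : Option F → Bool → Ln F) :
    Finset (Ln F × Pt F × Finset (Option F)) :=
  ((univ : Finset (Ln F)) ×ˢ (univ : Finset (Pt F)) ×ˢ (univ : Finset (Finset (Option F)))).filter
      (fun t => ¬ On t.2.1 t.1 ∧ t.2.2 ∈ powersetCard 5 (Il R X t.1))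

open Classical in
/-- bad configurations, position case -/
noncomputable def TT2 (R : RR F) (X : Option F → Bool → Ln F) :
    Finset (Option F × Pt F × Finset (Option F)) :=
  ((univ : Finset (Option F)) ×ˢ (univ : Finset (Pt F)) ×ˢ
      (univ : Finset (Finset (Option F)))).filter
      (fun t => t.2.1.1 ≠ t.1 ∧ t.2.2 ∈ powersetCard 4 (Ip R X t.1))

omit gx in
theorem mem_TT1 {t : Ln F × Pt F × Finset (Option F)} : t ∈ TT1 R X ↔
    ¬ On t.2.1 t.1 ∧ t.2.2 ∈ powersetCard 5 (Il R X t.1) := by
  simp [TT1]

omit gx in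
theorem mem_TT2 {t : Option F × Pt F × Finset (Option F)} : t ∈ TT2 R X ↔
    t.2.1.1 ≠ t.1 ∧ t.2.2 ∈ powersetCard 4 (Ip R X t.1) := by
  simp [TT2]

theorem card_TT1 {k : ℕ} (hR5 : R5 R k) (hq1 : (1 : ℝ) ≤ ord F) :
    ((TT1 R X).card : ℝ) ≤ 2 * (ord F : ℝ) ^ 4 * (k : ℝ) ^ 5 := by
  classical
  have hqpos : (0 : ℝ) < ord F := by linarith
  have h1 : TT1 R X ⊆ ((univ : Finset (Ln F)) ×ˢ (univ : Finset (Pt F))).biUnion
      (fun p => (powersetCard 5 (Il R X p.1)).image (fun J => (p.1, p.2, J))) := by
    intro t ht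
    rw [mem_TT1] at ht
    simp only [mem_biUnion, mem_image]
    exact ⟨(t.1, t.2.1), by simp, t.2.2, ht.2, rfl⟩
  have h2 : (TT1 R X).card ≤
      ∑ p ∈ ((univ : Finset (Ln F)) ×ˢ (univ : Finset (Pt F))), k ^ 5 := by
    refine (card_le_card h1).trans (card_biUnion_le.trans (sum_le_sum fun p _ => ?_))
    refine card_image_le.trans ?_
    rw [card_powersetCard]
    refine (Nat.choose_le_pow _ _).trans ?_
    exact Nat.pow_le_pow_left ((card_Il gx p.1).trans (hR5 p.1)) 5
  have h3 : ∑ p ∈ ((univ : Finset (Ln F)) ×ˢ (univ : Finset (Pt F))), k ^ 5 =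
      (ord F * ord F * ((ord F + 1) * ord F)) * k ^ 5 := by
    rw [sum_const, smul_eq_mul, card_product, card_univ, card_univ, card_Pt, card_Ln]
  rw [h3] at h2
  have h4 : ((TT1 R X).card : ℝ) ≤ ((ord F : ℝ) * ord F * ((ord F + 1) * ord F)) * (k : ℝ) ^ 5 := by
    exact_mod_cast h2
  refine h4.trans ?_
  refine mul_le_mul_of_nonneg_right ?_ (by positivity)
  nlinarith [mul_nonneg (mul_nonneg (mul_nonneg hqpos.le hqpos.le) hqpos.le) (sub_nonneg.2 hq1)]

theorem card_TT2 (hq1 : (1 : ℝ) ≤ ord F) :
    ((TT2 R X).card : ℝ) ≤ 4 * (ord F : ℝ) ^ 3 * 1000 ^ 4 := by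
  classical
  have hqpos : (0 : ℝ) < ord F := by linarith
  have h1 : TT2 R X ⊆ ((univ : Finset (Option F)) ×ˢ (univ : Finset (Pt F))).biUnion
      (fun p => (powersetCard 4 (Ip R X p.1)).image (fun J => (p.1, p.2, J))) := by
    intro t ht
    rw [mem_TT2] at ht
    simp only [mem_biUnion, mem_image]
    exact ⟨(t.1, t.2.1), by simp, t.2.2, ht.2, rfl⟩
  have h2 : (TT2 R X).card ≤
      ∑ p ∈ ((univ : Finset (Option F)) ×ˢ (univ : Finset (Pt F))), 1000 ^ 4 := by
    refine (card_le_card h1).trans (card_biUnion_le.trans (sum_le_sum fun p _ => ?_))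
    refine card_image_le.trans ?_
    rw [card_powersetCard]
    refine (Nat.choose_le_pow _ _).trans ?_
    exact Nat.pow_le_pow_left (card_Ip gx p.1) 4
  have h3 : ∑ p ∈ ((univ : Finset (Option F)) ×ˢ (univ : Finset (Pt F))), 1000 ^ 4 =
      ((ord F + 1) * ((ord F + 1) * ord F)) * 1000 ^ 4 := by
    rw [sum_const, smul_eq_mul, card_product, card_univ, card_univ, card_Pt,
      Fintype.card_option]
  rw [h3] at h2
  have h4 : ((TT2 R X).card : ℝ) ≤
      (((ord F : ℝ) + 1) * ((ord F + 1) * ord F)) * (1000 : ℝ) ^ 4 := by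
    exact_mod_cast h2
  refine h4.trans ?_
  refine mul_le_mul_of_nonneg_right ?_ (by positivity)
  have e1 : ((ord F : ℝ) + 1) * (ord F + 1) ≤ 4 * (ord F : ℝ) ^ 2 := by nlinarith
  nlinarith [mul_le_mul_of_nonneg_right e1 hqpos.le]

end geom

/-- the numerical estimate -/
theorem num {C q k : ℝ} (hC : 0 < C) (_hk0 : 0 ≤ k)
    (hq : (4 * C ^ 5) ^ 4 + 8 * 1000 ^ 4 * C ^ 4 + 1 < q) (hk : k ^ 20 ≤ q) :
    2 * C ^ 5 * k ^ 5 / q < 1 / 2 ∧ 4 * 1000 ^ 4 * C ^ 4 / q < 1 / 2 := by
  have h8 : (0 : ℝ) ≤ 8 * 1000 ^ 4 * C ^ 4 := by positivity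
  have h45 : (0 : ℝ) ≤ (4 * C ^ 5) ^ 4 := by positivity
  have hq1 : (1 : ℝ) ≤ q := by linarith
  have hqpos : (0 : ℝ) < q := by linarith
  constructor
  · rw [div_lt_iff₀ hqpos]
    by_contra hcon
    push Not at hcon
    have e1 : q ≤ (4 * C ^ 5) * k ^ 5 := by linarith
    have e2 : q ^ 4 ≤ (4 * C ^ 5) ^ 4 * k ^ 20 := by
      calc q ^ 4 ≤ ((4 * C ^ 5) * k ^ 5) ^ 4 := pow_le_pow_left₀ hqpos.le e1 4
        _ = _ := by ring
    have e4 : q ^ 4 ≤ (4 * C ^ 5) ^ 4 * q :=
      e2.trans (mul_le_mul_of_nonneg_left hk h45)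
    have e5 : (4 * C ^ 5) ^ 4 < q := by linarith
    have e6 : (4 * C ^ 5) ^ 4 * q < q * q := mul_lt_mul_of_pos_right e5 hqpos
    have e7 : q * q ≤ q ^ 4 := by
      have h2 : (1 : ℝ) ≤ q ^ 2 := one_le_pow₀ hq1
      have h3 : (q * q) * 1 ≤ (q * q) * q ^ 2 :=
        mul_le_mul_of_nonneg_left h2 (mul_nonneg hqpos.le hqpos.le)
      calc q * q = (q * q) * 1 := by ring
        _ ≤ (q * q) * q ^ 2 := h3
        _ = q ^ 4 := by ring
    linarith
  · rw [div_lt_iff₀ hqpos]
    linarith

end W2

open W2

set_option maxHeartbeats 1000000 in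
theorem specW2 : SpecW2 := by
  intro c hc
  -- constants
  set C : ℝ := 171 / c with hC
  have hCpos : 0 < C := by positivity
  obtain ⟨q0, hq0⟩ := exists_nat_gt ((4 * C ^ 5) ^ 4 + 8 * 1000 ^ 4 * C ^ 4 + 1)
  refine ⟨q0, ?_⟩
  intro F _ _ _ hqF k hk R X hR5 gx G hG
  classical
  set q : ℕ := ord F with hq
  have hq0q : (q0 : ℝ) ≤ q := by exact_mod_cast hqF
  have hq1 : (1 : ℝ) ≤ q := by
    have : (0 : ℝ) ≤ (4 * C ^ 5) ^ 4 := by positivity
    have : (0 : ℝ) ≤ 8 * 1000 ^ 4 * C ^ 4 := by positivity
    linarith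
  have hqpos : (0 : ℝ) < q := by linarith
  have hGne : ∀ i, (G i).Nonempty := by
    intro i
    rw [← card_pos]
    have h1 : (0 : ℝ) < c * (q : ℝ) ^ 9 := by positivity
    have := hG i
    exact_mod_cast lt_of_lt_of_le h1 this
  -- density bound of one gadget
  have hdens : ∀ (i : Option F) (z : Pt F) (S : Set (Pt F)), z ∉ S →
      ∀ (P : (Fin 9 → F) → Prop) (_ : DecidablePred P),
      (∀ t, P t → ∃ v ∈ S, ∃ u, Des R X i t v u ∧ On z u) →
      (((G i).filter P).card : ℝ) ≤ (C / q) * ((G i).card : ℝ) := by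
    intro i z S hz P _ hP
    have h0 : ((G i).filter P).card ≤ 171 * q ^ 8 := by
      refine le_trans (card_le_card ?_) (card_flag gx i z S hz (G i))
      intro t ht
      rw [mem_filter] at ht ⊢
      exact ⟨ht.1, hP t ht.2⟩
    have h1 : (((G i).filter P).card : ℝ) ≤ 171 * (q : ℝ) ^ 8 := by exact_mod_cast h0
    refine h1.trans ?_
    have h2 := mul_le_mul_of_nonneg_left (hG i) (by positivity : (0 : ℝ) ≤ C / q)
    refine le_trans (le_of_eq ?_) h2
    rw [hC]
    field_simp
  -- the bad configurations
  have hT1card := card_TT1 (X := X) gx hR5 hq1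
  have hT2card := card_TT2 (X := X) gx hq1
  rw [← hq] at hT1card hT2card
  -- selection
  obtain ⟨y, hy1, hy2⟩ := exists_avoid (ι := Option F) (α := Fin 9 → F)
    (τ := (Ln F × Pt F × Finset (Option F)) ⊕ (Option F × Pt F × Finset (Option F)))
    G hGne ((TT1 R X).disjSum (TT2 R X))
    (fun t => Sum.elim (fun t => t.2.2) (fun t => t.2.2) t)
    (fun t i p => Sum.elim
      (fun t => ∃ v ∈ {v : Pt F | On v t.1}, ∃ u, Des R X i p v u ∧ On t.2.1 u)
      (fun t => ∃ v ∈ {v : Pt F | v.1 = t.1}, ∃ u, Des R X i p v u ∧ On t.2.1 u) t)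
    (fun _ => C / q)
    (by
      rintro (t | t) ht i hi
      · rw [inl_mem_disjSum, mem_TT1] at ht
        exact hdens i t.2.1 {v : Pt F | On v t.1} ht.1 _ _ (fun _ h => h)
      · rw [inr_mem_disjSum, mem_TT2] at ht
        exact hdens i t.2.1 {v : Pt F | v.1 = t.1} ht.1 _ _ (fun _ h => h))
    (by
      rw [sum_disjSum]
      simp only [Sum.elim_inl, Sum.elim_inr]
      have h1 : ∑ t ∈ TT1 R X, (C / (q : ℝ)) ^ (t.2.2).card ≤ (TT1 R X).card * (C / q) ^ 5 := by
        rw [← nsmul_eq_mul]
        refine sum_le_card_nsmul _ _ _ fun t ht => ?_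
        rw [mem_TT1] at ht
        rw [(mem_powersetCard.1 ht.2).2]
      have h2 : ∑ t ∈ TT2 R X, (C / (q : ℝ)) ^ (t.2.2).card ≤ (TT2 R X).card * (C / q) ^ 4 := by
        rw [← nsmul_eq_mul]
        refine sum_le_card_nsmul _ _ _ fun t ht => ?_
        rw [mem_TT2] at ht
        rw [(mem_powersetCard.1 ht.2).2]
      have h3 : ((TT1 R X).card : ℝ) * (C / q) ^ 5 ≤ 2 * C ^ 5 * (k : ℝ) ^ 5 / q := by
        refine (mul_le_mul_of_nonneg_right hT1card (by positivity)).trans (le_of_eq ?_)
        field_simp
      have h4 : ((TT2 R X).card : ℝ) * (C / q) ^ 4 ≤ 4 * 1000 ^ 4 * C ^ 4 / q := by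
        refine (mul_le_mul_of_nonneg_right hT2card (by positivity)).trans (le_of_eq ?_)
        field_simp
      have hkq : (k : ℝ) ^ 20 ≤ q := by exact_mod_cast hk
      obtain ⟨h5, h6⟩ := num (q := q) hCpos (Nat.cast_nonneg k) (lt_of_lt_of_le hq0 hq0q) hkq
      linarith)
  refine ⟨y, hy1, ?_, ?_⟩
  · intro l hl z hz
    by_contra hcon
    push Not at hcon
    have h1 := flags_le gx hl y z
    set Bad := (Il R X l).filter (fun i =>
      ∃ v ∈ {v : Pt F | On v l}, ∃ u, Des R X i (y i) v u ∧ On z u) with hBad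
    have h5 : 5 ≤ Bad.card := by omega
    obtain ⟨J, hJ, hJc⟩ := exists_subset_card_eq h5
    obtain ⟨i, hi, hni⟩ := hy2 (Sum.inl (l, z, J)) (by
      rw [inl_mem_disjSum, mem_TT1]
      refine ⟨hz, ?_⟩
      rw [mem_powersetCard]
      exact ⟨hJ.trans (filter_subset _ _), hJc⟩)
    simp only [Sum.elim_inl] at hi hni
    have := hJ hi
    rw [hBad, mem_filter] at this
    exact hni this.2
  · intro i z hz
    by_contra hcon
    push Not at hcon
    have h1 := pflags_le gx i y z
    set Bad := (Ip R X i).filter (fun j =>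
      ∃ v ∈ {v : Pt F | v.1 = i}, ∃ u, Des R X j (y j) v u ∧ On z u) with hBad
    have h5 : 4 ≤ Bad.card := by omega
    obtain ⟨J, hJ, hJc⟩ := exists_subset_card_eq h5
    obtain ⟨j, hj, hnj⟩ := hy2 (Sum.inr (i, z, J)) (by
      rw [inr_mem_disjSum, mem_TT2]
      refine ⟨hz, ?_⟩
      rw [mem_powersetCard]
      exact ⟨hJ.trans (filter_subset _ _), hJc⟩)
    simp only [Sum.elim_inr] at hj hnj
    have := hJ hj
    rw [hBad, mem_filter] at this
    exact hnj this.2

end Crest.Agent.R034
end

-- ▼ part R034/WLocal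
section

/-! # Row 34: local analysis of the gadgets (M11a), part 1: basic facts and counting -/

set_option autoImplicit false

namespace Crest.Agent.R034

open Finset

variable {F : Type} [Field F] [Fintype F] [DecidableEq F]

/-- the special points of `X i s`: main point and the nine others -/
noncomputable def pt (R : RR F) (X : Option F → Bool → Ln F) (i : Option F) (s : Bool) :
    Option (Fin 9) → Pt F
  | none => mp R i
  | some a => vp R X i s a

/-- the designated lines of side `(i,s)` -/
noncomputable def dl (R : RR F) (X : Option F → Bool → Ln F) (i : Option F) (y : Fin 9 → F)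
    (s : Bool) (a : Option (Fin 9)) (b : Fin 9) : Ln F :=
  thru (pt R X i s a) (W R X i y s b)

/-- admissible parameters -/
structure Loc (R : RR F) (X : Option F → Bool → Ln F) (i : Option F) (y : Fin 9 → F) : Prop where
  av : ∀ s a c, some c ≠ a → AvoidsOff (Kset R) (pt R X i s a) (dl R X i y s a c)
  g2 : ∀ s a c c', some c ≠ a → some c' ≠ a → c ≠ c' → dl R X i y s a c ≠ dl R X i y s a c'
  g3 : ∀ s a a' a'' b b' b'', a ≠ a' → a ≠ a'' → a' ≠ a'' → b ≠ b' → b ≠ b'' → b' ≠ b'' →
    some b ≠ a → some b' ≠ a' → some b'' ≠ a'' →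
    ∀ z, ¬ (On z (dl R X i y s a b) ∧ On z (dl R X i y s a' b') ∧ On z (dl R X i y s a'' b''))

section basic

variable {R : RR F} {X : Option F → Bool → Ln F} (hX : GoodX R X)

include hX

theorem hpos_mem (i : Option F) (s : Bool) (a : Fin 9) :
    hpos R X i s a ∈ hits R (X i s) i := by
  unfold hpos
  rw [dif_pos (hX.nine i s)]
  exact Subtype.property _

theorem hpos_injective (i : Option F) (s : Bool) : Function.Injective (hpos R X i s) := by
  intro a b h
  unfold hpos at h
  rw [dif_pos (hX.nine i s), dif_pos (hX.nine i s)] at h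
  exact Equiv.injective _ (Subtype.ext h)


theorem hpos_ne (i : Option F) (s : Bool) (a : Fin 9) : hpos R X i s a ≠ i :=
  (mem_hits.mp (hpos_mem hX i s a)).1

theorem vp_mem_Kset (i : Option F) (s : Bool) (a : Fin 9) : vp R X i s a ∈ Kset R :=
  (mem_hits.mp (hpos_mem hX i s a)).2

theorem mp_on (i : Option F) (s : Bool) : On (mp R i) (X i s) := hX.on_main i s

theorem pt_on (i : Option F) (s : Bool) (a : Option (Fin 9)) : On (pt R X i s a) (X i s) := by
  rcases a with _ | a
  · exact mp_on hX i s
  · rfl


theorem pt_pos_injective (i : Option F) (s : Bool) :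
    Function.Injective (fun a => (pt R X i s a).1) := by
  intro a b h
  rcases a with _ | a <;> rcases b with _ | b
  · rfl
  · exact absurd h.symm (hpos_ne hX i s b)
  · exact absurd h (hpos_ne hX i s a)
  · exact congrArg some (hpos_injective hX i s h)

theorem pt_pos_ne_hpos {i : Option F} {s : Bool} {a : Option (Fin 9)} {b : Fin 9}
    (h : some b ≠ a) : (pt R X i s a).1 ≠ hpos R X i s b := by
  intro h'
  exact h (pt_pos_injective hX i s (a₁ := some b) (a₂ := a) h'.symm)

theorem W_on_dl {i : Option F} {y : Fin 9 → F} {s : Bool} {a : Option (Fin 9)} {b : Fin 9}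
    (h : some b ≠ a) : On (W R X i y s b) (dl R X i y s a b) :=
  on_thru_right (pt_pos_ne_hpos hX h)

theorem pt_on_dl {i : Option F} {y : Fin 9 → F} {s : Bool} {a : Option (Fin 9)} {b : Fin 9}
    (h : some b ≠ a) : On (pt R X i s a) (dl R X i y s a b) :=
  on_thru_left (b := W R X i y s b) (pt_pos_ne_hpos hX h)

/-- both labels of slot `b` define the same line through the main point -/
theorem dl_none (i : Option F) (y : Fin 9 → F) (s : Bool) (b : Fin 9) :
    dl R X i y s none b = thru (mp R i) (W R X i y true b) := by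
  rcases s with _ | _
  · symm
    have h1 : (mp R i).1 ≠ (W R X i y true b).1 := (hpos_ne hX i true b).symm
    have h2 : (mp R i).1 ≠ (W R X i y false b).1 := (hpos_ne hX i false b).symm
    apply eq_thru (a := pt R X i false none) (b := W R X i y false b) h2
    · exact on_thru_left h1
    · show val _ _ = _
      simp [W, wv]
  · rfl


omit hX in
/-- the label depends only on the parameter of its slot -/
theorem W_congr {i : Option F} {y y' : Fin 9 → F} {c : Fin 9} (h : y c = y' c) (s : Bool) :
    W R X i y s c = W R X i y' s c := by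
  simp [W, wv, h]

/-- and determines it -/
theorem wv_inj {i : Option F} {y y' : Fin 9 → F} {c : Fin 9} {s : Bool}
    (h : wv R X i y s c = wv R X i y' s c) : y c = y' c := by
  rcases s with _ | _
  · simp only [wv] at h
    simp only [Bool.false_eq_true, if_false] at h
    exact val_thru_injective (z := mp R i) (hpos_ne hX i false c) (hpos_ne hX i true c) h
  · simpa [wv] using h

end basic

/-! ## counting -/

theorem card_bad_le (c : Fin 9) (P : (Fin 9 → F) → Prop) [DecidablePred P]
    (h : ∀ y y', P y → P y' → (∀ c', c' ≠ c → y c' = y' c') → y c = y' c) :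
    (univ.filter P).card ≤ (ord F) ^ 8 := by
  have h1 : (univ.filter P).card = ((univ.filter P).image (fun y : Fin 9 → F =>
      (Fin.removeNth c y : Fin 8 → F))).card := by
    rw [card_image_of_injOn]
    intro y hy y' hy' hyy
    simp only [coe_filter, mem_univ, true_and, Set.mem_ofPred_eq] at hy hy'
    have hne : ∀ c', c' ≠ c → y c' = y' c' := by
      intro c' hc'
      obtain ⟨j, rfl⟩ := Fin.exists_succAbove_eq hc'
      exact congrFun hyy j
    funext c'
    by_cases hc : c' = c
    · subst hc
      exact h y y' hy hy' hne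
    · exact hne c' hc
  rw [h1]
  calc _ ≤ (univ : Finset (Fin 8 → F)).card := card_le_card (subset_univ _)
    _ = _ := by simp [ord]

section count

variable {R : RR F} {X : Option F → Bool → Ln F} (hX : GoodX R X)

/-- the avoidance part of `Loc` -/
def Av (R : RR F) (X : Option F → Bool → Ln F) (i : Option F) (y : Fin 9 → F) : Prop :=
  ∀ s a c, some c ≠ a → AvoidsOff (Kset R) (pt R X i s a) (dl R X i y s a c)

include hX

theorem dl_ne_X {i : Option F} {y : Fin 9 → F} (hy : Av R X i y) {s : Bool}
    {a : Option (Fin 9)} {b : Fin 9} (hab : some b ≠ a) : dl R X i y s a b ≠ X i s := by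
  intro h
  -- another special point of `X i s`
  have h1 := hy s a b hab
  rw [h] at h1
  have h2 : (hpos R X i s b) ≠ (pt R X i s a).1 := (pt_pos_ne_hpos hX hab).symm
  exact h1 _ h2 (vp_mem_Kset hX i s b)

theorem dl_ne_dl {i : Option F} {y : Fin 9 → F} (hy : Av R X i y) {s : Bool}
    {a a' : Option (Fin 9)} {b b' : Fin 9} (hab : some b ≠ a) (hab' : some b' ≠ a')
    (haa : a ≠ a') : dl R X i y s a b ≠ dl R X i y s a' b' := by
  intro h
  apply dl_ne_X hX hy hab (s := s)
  apply eq_of_on (a := pt R X i s a) (b := pt R X i s a')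
  · exact fun h => haa (pt_pos_injective hX i s h)
  · exact pt_on_dl hX hab
  · exact pt_on hX i s a
  · rw [h]
    exact pt_on_dl hX hab'
  · exact pt_on hX i s a'

omit hX in
theorem dl_congr {i : Option F} {y y' : Fin 9 → F} {b : Fin 9} (h : y b = y' b) (s : Bool)
    (a : Option (Fin 9)) : dl R X i y s a b = dl R X i y' s a b := by
  unfold dl
  rw [W_congr h]

/-- equality of the lines determines the parameter -/
theorem dl_inj {i : Option F} {y y' : Fin 9 → F} {s : Bool} {a : Option (Fin 9)} {b : Fin 9}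
    (hab : some b ≠ a) (h : dl R X i y s a b = dl R X i y' s a b) : y b = y' b := by
  have h1 : On (W R X i y s b) (dl R X i y s a b) := W_on_dl hX hab
  have h2 : On (W R X i y' s b) (dl R X i y s a b) := by
    rw [h]
    exact W_on_dl hX hab
  have h3 : wv R X i y s b = wv R X i y' s b := h1.symm.trans h2
  exact wv_inj hX h3

end count

/-- patterns of degenerate coincidences -/
abbrev Pat : Type := (Bool × Option (Fin 9) × Fin 9 × Fin 9) ⊕
  (Bool × (Option (Fin 9) × Option (Fin 9) × Option (Fin 9)) × (Fin 9 × Fin 9 × Fin 9))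

theorem exists_npat : ∃ N : ℕ, ∀ (f : Pat → ℕ) (M : ℕ), (∀ p, f p ≤ M) →
    ∑ p, f p ≤ N * M :=
  ⟨(univ : Finset Pat).card, fun _ _ h => Finset.sum_le_card_nsmul _ _ _ (fun p _ => h p)⟩

/-- (a bound for) the number of patterns -/
noncomputable def NPat : ℕ := exists_npat.choose

theorem sum_pat_le (f : Pat → ℕ) (M : ℕ) (h : ∀ p, f p ≤ M) : ∑ p, f p ≤ NPat * M :=
  exists_npat.choose_spec f M h

/-- degenerate coincidence of pattern `p` -/
def BadPat (R : RR F) (X : Option F → Bool → Ln F) (i : Option F) (y : Fin 9 → F) : Pat → Prop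
  | Sum.inl (s, a, c, c') => Av R X i y ∧ some c ≠ a ∧ some c' ≠ a ∧ c ≠ c' ∧
      dl R X i y s a c = dl R X i y s a c'
  | Sum.inr (s, (a, a', a''), (b, b', b'')) => Av R X i y ∧ a ≠ a' ∧ a ≠ a'' ∧ a' ≠ a'' ∧
      b ≠ b' ∧ b ≠ b'' ∧ b' ≠ b'' ∧ some b ≠ a ∧ some b' ≠ a' ∧ some b'' ≠ a'' ∧
      ∃ z, On z (dl R X i y s a b) ∧ On z (dl R X i y s a' b') ∧ On z (dl R X i y s a'' b'')

section count2

variable {R : RR F} {X : Option F → Bool → Ln F} (hX : GoodX R X)

include hX

open Classical in
theorem card_badPat_le (i : Option F) (p : Pat) :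
    (univ.filter (fun y => BadPat R X i y p)).card ≤ (ord F) ^ 8 := by
  rcases p with ⟨s, a, c, c'⟩ | ⟨s, ⟨a, a', a''⟩, ⟨b, b', b''⟩⟩
  · apply card_bad_le c'
    rintro y y' ⟨-, h1, h2, h3, h4⟩ ⟨-, -, -, -, h4'⟩ hyy
    apply dl_inj hX h2 (s := s)
    rw [← h4, ← h4']
    exact dl_congr (hyy c h3) s a
  · apply card_bad_le b''
    rintro y y' ⟨hA, h1, h2, h3, h4, h5, h6, h7, h8, h9, z, hz, hz', hz''⟩
      ⟨hA', -, -, -, -, -, -, -, -, -, w, hw, hw', hw''⟩ hyy
    rw [← dl_congr (hyy b h5) s a] at hw
    rw [← dl_congr (hyy b' h6) s a'] at hw'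
    have hne := dl_ne_dl hX hA h7 h8 h1 (s := s)
    have hzw : z = w := by
      by_contra hzw
      have h10 := pos_ne_of_on hz hw hzw
      exact hne (eq_of_on h10 hz hz' hw hw')
    subst hzw
    -- z is not `pt a''`
    have hzne : z ≠ pt R X i s a'' := by
      intro h
      apply dl_ne_X hX hA h7 (s := s)
      apply eq_of_on (a := pt R X i s a) (b := pt R X i s a'')
      · exact fun h => h2 (pt_pos_injective hX i s h)
      · exact pt_on_dl hX h7
      · exact pt_on hX i s a
      · rw [← h]
        exact hz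
      · exact pt_on hX i s a''
    have h11 : z.1 ≠ (pt R X i s a'').1 := pos_ne_of_on hz'' (pt_on_dl hX h9) hzne
    apply dl_inj hX h9 (s := s)
    exact eq_of_on h11 hz'' hw'' (pt_on_dl hX h9) (pt_on_dl hX h9)

open Classical in
/-- `R4` gives many tuples satisfying the avoidance part. -/
theorem card_Av_ge {c : ℝ} (hc : 0 < c) (h4 : R4 R c) (i : Option F) :
    (c * ord F) ^ 9 ≤ ((univ.filter (fun y => Av R X i y)).card : ℝ) := by
  -- the admissible values in slot `b`
  set Y : Fin 9 → Finset F := fun b => univ.filter (fun t : F =>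
    AvoidsOff (Kset R) (mp R i) (thru (mp R i) (hpos R X i true b, t)) ∧
    (∀ v ∈ (univ.erase b).image (fun a => vp R X i true a),
      AvoidsOff (Kset R) v (thru v (hpos R X i true b, t))) ∧
    (∀ v ∈ (univ.erase b).image (fun a => vp R X i false a),
      AvoidsOff (Kset R) v (thru v (hpos R X i false b,
        val (thru (mp R i) (hpos R X i true b, t)) (hpos R X i false b))))) with hY
  have hYc : ∀ b, c * ord F ≤ ((Y b).card : ℝ) := by
    intro b
    have hb : ∀ s : Bool, ∀ v ∈ (univ.erase b).image (fun a => vp R X i s a),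
        v.1 ≠ hpos R X i s b := by
      intro s v hv
      simp only [mem_image, mem_erase, mem_univ, and_true] at hv
      obtain ⟨a, hab, rfl⟩ := hv
      exact fun h => hab (hpos_injective hX i s h)
    have hcard : ∀ s : Bool, ((univ.erase b).image (fun a => vp R X i s a)).card ≤ 8 := by
      intro s
      refine card_image_le.trans ?_
      rw [card_erase_of_mem (mem_univ _)]
      simp
    exact h4 (hpos R X i true b) (hpos R X i false b) (mp R i)
      ((univ.erase b).image (fun a => vp R X i true a))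
      ((univ.erase b).image (fun a => vp R X i false a))
      (fun h => hX.disj i _ (hpos_mem hX i true b) (h ▸ hpos_mem hX i false b))
      (hpos_ne hX i true b).symm (hpos_ne hX i false b).symm (hb true) (hb false)
      (hcard true) (hcard false)
  have hsub : Fintype.piFinset Y ⊆ univ.filter (fun y => Av R X i y) := by
    intro y hy
    rw [Fintype.mem_piFinset] at hy
    simp only [mem_filter, mem_univ, true_and]
    intro s a b hab
    have hyb := hy b
    simp only [hY, mem_filter, mem_univ, true_and, mem_image, mem_erase, and_true,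
      forall_exists_index, and_imp] at hyb
    obtain ⟨h1, h2, h3⟩ := hyb
    rcases a with _ | a
    · rw [dl_none hX]
      have : W R X i y true b = (hpos R X i true b, y b) := by simp [W, wv]
      rw [this]
      exact h1
    · have hab' : a ≠ b := fun h => hab (by rw [h])
      rcases s with _ | _
      · have := h3 _ a hab' rfl
        have hW : W R X i y false b = (hpos R X i false b,
            val (thru (mp R i) (hpos R X i true b, y b)) (hpos R X i false b)) := by
          simp [W, wv]
        show AvoidsOff (Kset R) _ (thru _ (W R X i y false b))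
        rw [hW]
        exact this
      · have := h2 _ a hab' rfl
        have hW : W R X i y true b = (hpos R X i true b, y b) := by simp [W, wv]
        show AvoidsOff (Kset R) _ (thru _ (W R X i y true b))
        rw [hW]
        exact this
  have hq : (0 : ℝ) ≤ ord F := Nat.cast_nonneg _
  calc (c * ord F) ^ 9 = ∏ _b : Fin 9, (c * ord F) := by simp
    _ ≤ ∏ b : Fin 9, ((Y b).card : ℝ) :=
        prod_le_prod (fun b _ => by positivity) (fun b _ => hYc b)
    _ = ((Fintype.piFinset Y).card : ℝ) := by
        rw [Fintype.card_piFinset]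
        push_cast
        rfl
    _ ≤ _ := by
        exact_mod_cast card_le_card hsub

open Classical in
theorem card_Loc_ge {c : ℝ} (hc : 0 < c) (h4 : R4 R c) (i : Option F)
    (hq : 2 * (NPat : ℝ) ≤ c ^ 9 * ord F) :
    c ^ 9 / 2 * (ord F : ℝ) ^ 9 ≤ ((univ.filter (fun y => Loc R X i y)).card : ℝ) := by
  have hsub : univ.filter (fun y => Av R X i y) ⊆ univ.filter (fun y => Loc R X i y) ∪
      (univ : Finset Pat).biUnion (fun p => univ.filter (fun y => BadPat R X i y p)) := by
    intro y hy
    simp only [mem_filter, mem_univ, true_and] at hy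
    simp only [mem_union, mem_filter, mem_univ, true_and, mem_biUnion]
    by_contra hcon
    push Not at hcon
    obtain ⟨hL, hB⟩ := hcon
    apply hL
    refine ⟨hy, ?_, ?_⟩
    · intro s a c c' h1 h2 h3 h4
      exact hB (Sum.inl (s, a, c, c')) ⟨hy, h1, h2, h3, h4⟩
    · intro s a a' a'' b b' b'' h1 h2 h3 h4 h5 h6 h7 h8 h9 z hz
      exact hB (Sum.inr (s, (a, a', a''), (b, b', b'')))
        ⟨hy, h1, h2, h3, h4, h5, h6, h7, h8, h9, z, hz⟩
  have h1 : (univ.filter (fun y => Av R X i y)).card ≤
      (univ.filter (fun y => Loc R X i y)).card + NPat * (ord F) ^ 8 := by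
    refine (card_le_card hsub).trans ((card_union_le _ _).trans ?_)
    refine Nat.add_le_add_left ?_ _
    refine card_biUnion_le.trans ?_
    exact sum_pat_le _ _ (fun p => card_badPat_le hX i p)
  have h2 := card_Av_ge hX hc h4 i
  have h3 : ((univ.filter (fun y => Av R X i y)).card : ℝ) ≤
      (univ.filter (fun y => Loc R X i y)).card + NPat * (ord F : ℝ) ^ 8 := by
    exact_mod_cast h1
  have h5 : (NPat : ℝ) * (ord F : ℝ) ^ 8 ≤ c ^ 9 / 2 * (ord F : ℝ) ^ 9 := by
    have : (0 : ℝ) ≤ (ord F : ℝ) ^ 8 := by positivity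
    calc (NPat : ℝ) * (ord F : ℝ) ^ 8 ≤ (c ^ 9 * ord F / 2) * (ord F : ℝ) ^ 8 := by
          apply mul_le_mul_of_nonneg_right _ this
          linarith
      _ = _ := by ring
  have h6 : (c * ord F) ^ 9 = c ^ 9 * (ord F : ℝ) ^ 9 := by ring
  linarith [h2, h3, h5, h6]

end count2

end Crest.Agent.R034
end

-- ▼ part R034/WFinal
section

/-! # Row 34: local analysis of the gadgets (M11a), part 2: `SpecW2 → SpecW` -/

set_option autoImplicit false

namespace Crest.Agent.R034

open Finset

variable {F : Type} [Field F] [Fintype F] [DecidableEq F]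

section

variable {R : RR F} {X : Option F → Bool → Ln F}

theorem mem_KK {v : Pt F} :
    v ∈ KK R X ↔ (∃ i, v = mp R i) ∨ ∃ i s a, v = vp R X i s a := by
  simp [KK]

theorem mp_mem_KK (i : Option F) : mp R i ∈ KK R X := mem_KK.mpr (Or.inl ⟨i, rfl⟩)

theorem pt_mem_KK (i : Option F) (s : Bool) (a : Option (Fin 9)) : pt R X i s a ∈ KK R X := by
  rcases a with _ | a
  · exact mp_mem_KK i
  · exact mem_KK.mpr (Or.inr ⟨i, s, a, rfl⟩)

/-- validity of a slot for a special point -/
def vld (a : Option (Fin 9)) (c : Fin 9) : Prop := some c ≠ a ∧ (a = none → c ≠ 8)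

variable (hX : GoodX R X)

include hX

theorem KK_subset : KK R X ⊆ Kset R := by
  intro v hv
  rcases mem_KK.mp hv with ⟨i, rfl⟩ | ⟨i, s, a, rfl⟩
  · exact main_mem_Kset R i
  · exact vp_mem_Kset hX i s a

theorem X_ne {i : Option F} {s s' : Bool} (h : s ≠ s') : X i s ≠ X i s' := by
  rcases s with _ | _ <;> rcases s' with _ | _
  · exact absurd rfl h
  · exact (hX.ne i).symm
  · exact hX.ne i
  · exact absurd rfl h

theorem vp_ne_mp (i : Option F) (s : Bool) (a : Fin 9) (i' : Option F) :
    vp R X i s a ≠ mp R i' := by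
  intro h
  have h1 : hpos R X i s a = i' := congrArg Prod.fst h
  have h2 : val (X i s) (hpos R X i s a) = R i' 0 := congrArg Prod.snd h
  rw [h1] at h2
  exact hX.no_main i s i' (h1 ▸ hpos_ne hX i s a) h2

/-- a special point on `X i s` is one of the ten -/
theorem exists_pt {v : Pt F} (hv : v ∈ KK R X) {i : Option F} {s : Bool} (h : On v (X i s)) :
    ∃ a, v = pt R X i s a := by
  rcases mem_KK.mp hv with ⟨i', rfl⟩ | ⟨i', s', a, rfl⟩
  · by_cases hi : i' = i
    · subst hi
      exact ⟨none, rfl⟩
    · exact absurd h (hX.no_main i s i' hi)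
  · by_cases hi : i' = i
    · subst hi
      by_cases hs : s' = s
      · subst hs
        exact ⟨some a, rfl⟩
      · exfalso
        apply X_ne hX (i := i') hs
        apply eq_of_on (a := mp R i') (b := vp R X i' s' a)
        · exact (hpos_ne hX i' s' a).symm
        · exact mp_on hX i' s'
        · exact mp_on hX i' s
        · rfl
        · exact h
    · exact absurd (vp_mem_Kset hX i' s' a) (hX.priv i' s' i s _ hi h.symm)

theorem vp_inj {i : Option F} {s : Bool} {a : Fin 9} {i' : Option F} {s' : Bool} {a' : Fin 9}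
    (h : vp R X i s a = vp R X i' s' a') : i = i' ∧ s = s' ∧ a = a' := by
  have hon : On (vp R X i s a) (X i' s') := by
    rw [h]
    rfl
  have hon' : On (vp R X i s a) (X i s) := rfl
  have hi : i = i' := by
    by_contra hne
    exact hX.priv i s i' s' _ hne hon.symm (vp_mem_Kset hX i s a)
  subst hi
  have hs : s = s' := by
    by_contra hne
    apply X_ne hX (i := i) hne
    exact eq_of_on (a := mp R i) (b := vp R X i s a) (hpos_ne hX i s a).symm (mp_on hX i s)
      (mp_on hX i s') hon' hon
  subst hs
  exact ⟨rfl, rfl, hpos_injective hX i s (congrArg Prod.fst h)⟩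

theorem mem_UU_pt {y : Option F → Fin 9 → F} {i : Option F} {s : Bool} {a : Option (Fin 9)}
    {u : Ln F} :
    u ∈ UU R X y (pt R X i s a) ↔ ∃ c, vld a c ∧ u = dl R X i (y i) s a c := by
  simp only [UU, mem_filter, mem_univ, true_and]
  rcases a with _ | a
  · constructor
    · rintro (⟨i', h, c, hc, rfl⟩ | ⟨i', s', a', h, -⟩)
      · have hi : i = i' := congrArg Prod.fst h
        subst hi
        exact ⟨c, ⟨by simp, fun _ => hc⟩, (dl_none hX i (y i) s c).symm⟩
      · exact absurd h.symm (vp_ne_mp hX i' s' a' i)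
    · rintro ⟨c, ⟨-, hc⟩, rfl⟩
      exact Or.inl ⟨i, rfl, c, hc rfl, dl_none hX i (y i) s c⟩
  · constructor
    · rintro (⟨i', h, -⟩ | ⟨i', s', a', h, c, hc, rfl⟩)
      · exact absurd h (vp_ne_mp hX i s a i')
      · obtain ⟨rfl, rfl, rfl⟩ := vp_inj hX h
        exact ⟨c, ⟨by simpa using hc, by simp⟩, rfl⟩
    · rintro ⟨c, ⟨hc, -⟩, rfl⟩
      exact Or.inr ⟨i, s, a, rfl, c, by simpa using hc, rfl⟩

theorem LL_hpos (y : Option F → Fin 9 → F) (i : Option F) (s : Bool) (c : Fin 9) :
    LL R X y i s (hpos R X i s c) = wv R X i (y i) s c := by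
  unfold LL
  have h : ∃ a, hpos R X i s a = hpos R X i s c := ⟨c, rfl⟩
  rw [dif_pos h]
  rw [hpos_injective hX i s h.choose_spec]

omit hX in
theorem LL_of_not (y : Option F → Fin 9 → F) {i : Option F} {s : Bool} {j : Option F}
    (h : ¬ ∃ a, hpos R X i s a = j) : LL R X y i s j = val (X i s) j := by
  unfold LL
  rw [dif_neg h]

theorem not_hpos_other (i : Option F) (s : Bool) (c : Fin 9) :
    ¬ ∃ a, hpos R X i (!s) a = hpos R X i s c := by
  rintro ⟨a, ha⟩
  have h1 := hpos_mem hX i (!s) a
  have h2 := hpos_mem hX i s c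
  rw [ha] at h1
  rcases s with _ | _
  · exact hX.disj i _ h1 h2
  · exact hX.disj i _ h2 h1

/-- the label points are not on either altered line -/
theorem W_not_on {i : Option F} {y : Fin 9 → F} (hy : Av R X i y) (s : Bool) (c : Fin 9)
    (t : Bool) : ¬ On (W R X i y s c) (X i t) := by
  intro h
  have h1 : some c ≠ (none : Option (Fin 9)) := by simp
  apply dl_ne_X hX hy (s := t) (a := none) (b := c) h1
  rw [dl_none hX, ← dl_none hX i y s c]
  apply eq_of_on (a := mp R i) (b := W R X i y s c) (hpos_ne hX i s c).symm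
  · exact pt_on_dl hX (a := none) h1
  · exact mp_on hX i t
  · exact W_on_dl hX h1
  · exact h

theorem val_dl_hpos {i : Option F} {y : Fin 9 → F} {s : Bool} {a : Option (Fin 9)} {b : Fin 9}
    (h : some b ≠ a) : val (dl R X i y s a b) (hpos R X i s b) = wv R X i y s b :=
  W_on_dl hX h

/-- the special points of `X i s` with a designated line through `z` -/
def Az (R : RR F) (X : Option F → Bool → Ln F) (i : Option F) (y : Fin 9 → F) (s : Bool)
    (z : Pt F) (a : Option (Fin 9)) : Prop := ∃ c, vld a c ∧ On z (dl R X i y s a c)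

open Classical in
theorem flags_le (y : Option F → Fin 9 → F) (i : Option F) (s : Bool) (z : Pt F) :
    flags (KK R X) (UU R X y) (X i s) z ≤
      (univ.filter (fun a => Az R X i (y i) s z a)).card := by
  unfold flags
  have : (KK R X).filter (fun v => On v (X i s) ∧ ∃ u ∈ UU R X y v, On z u) ⊆
      (univ.filter (fun a => Az R X i (y i) s z a)).image (pt R X i s) := by
    intro v hv
    simp only [mem_filter] at hv
    obtain ⟨hv, hon, u, hu, hz⟩ := hv
    obtain ⟨a, rfl⟩ := exists_pt hX hv hon
    rw [mem_UU_pt hX] at hu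
    obtain ⟨c, hc, rfl⟩ := hu
    simp only [mem_image, mem_filter, mem_univ, true_and]
    exact ⟨a, ⟨c, hc, hz⟩, rfl⟩
  refine le_trans ?_ ((card_le_card this).trans card_image_le)
  apply le_of_eq
  congr

open Classical in
/-- a label point sees only its own slot -/
theorem Az_W {i : Option F} {y : Fin 9 → F} (hL : Loc R X i y) {s : Bool} {b : Fin 9}
    {a : Option (Fin 9)} (h : Az R X i y s (W R X i y s b) a) : vld a b := by
  obtain ⟨c, hc, hon⟩ := h
  by_cases hcb : c = b
  · subst hcb
    exact hc
  · exfalso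
    by_cases hab : some b = a
    · subst hab
      -- `W b` and `vp b` are in the same position of the line
      have h1 : On (vp R X i s b) (dl R X i y s (some b) c) :=
        pt_on_dl hX (a := some b) hc.1
      have h2 : wv R X i y s b = val (X i s) (hpos R X i s b) := by
        rw [← (show val (dl R X i y s (some b) c) (hpos R X i s b) = wv R X i y s b from hon)]
        exact h1
      apply W_not_on hX hL.av s b s
      exact h2.symm
    · apply hL.g2 s a c b hc.1 hab hcb
      apply eq_of_on (a := pt R X i s a) (b := W R X i y s b) (pt_pos_ne_hpos hX hab)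
      · exact pt_on_dl hX hc.1
      · exact pt_on_dl hX hab
      · exact hon
      · exact W_on_dl hX hab

omit hX in
open Classical in
theorem card_vld_le (b : Fin 9) : (univ.filter (fun a => vld a b)).card ≤ 9 := by
  have : (univ.filter (fun a : Option (Fin 9) => vld a b)) ⊆ univ.erase (some b) := by
    intro a ha
    simp only [mem_filter, mem_univ, true_and] at ha
    simp only [mem_erase, mem_univ, and_true]
    exact ha.1.symm
  refine (card_le_card this).trans ?_
  rw [card_erase_of_mem (mem_univ _)]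
  simp

omit hX in
open Classical in
theorem card_vld_eight_le : (univ.filter (fun a => vld a 8)).card ≤ 8 := by
  have : (univ.filter (fun a : Option (Fin 9) => vld a 8)) ⊆
      (univ.erase (some 8)).erase none := by
    intro a ha
    simp only [mem_filter, mem_univ, true_and] at ha
    simp only [mem_erase, mem_univ, and_true]
    exact ⟨fun h => ha.2 h rfl, ha.1.symm⟩
  refine (card_le_card this).trans ?_
  rw [card_erase_of_mem (by simp), card_erase_of_mem (mem_univ _)]
  simp

open Classical in
/-- every other point is on at most two designated lines -/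
theorem card_Az_le_two {i : Option F} {y : Fin 9 → F} (hL : Loc R X i y) {s : Bool} {z : Pt F}
    (hz : ∀ b, z ≠ W R X i y s b) : (univ.filter (fun a => Az R X i y s z a)).card ≤ 2 := by
  by_contra hcon
  push Not at hcon
  obtain ⟨a, ha, a', ha', a'', ha'', h1, h2, h3⟩ := Finset.two_lt_card.mp hcon
  simp only [mem_filter, mem_univ, true_and] at ha ha' ha''
  obtain ⟨b, hb, hzb⟩ := ha
  obtain ⟨b', hb', hzb'⟩ := ha'
  obtain ⟨b'', hb'', hzb''⟩ := ha''
  have key : ∀ (a a' : Option (Fin 9)) (b b' : Fin 9), a ≠ a' → vld a b → vld a' b' →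
      On z (dl R X i y s a b) → On z (dl R X i y s a' b') → b ≠ b' := by
    intro a a' b b' haa hb hb' hz1 hz2 hbb
    subst hbb
    apply dl_ne_dl hX hL.av hb.1 hb'.1 haa (s := s)
    have h4 := W_on_dl hX (i := i) (y := y) (s := s) hb.1
    have h5 := W_on_dl hX (i := i) (y := y) (s := s) hb'.1
    exact eq_of_on (pos_ne_of_on hz1 h4 (hz b)) hz1 hz2 h4 h5
  exact hL.g3 s a a' a'' b b' b'' h1 h2 h3 (key a a' b b' h1 hb hb' hzb hzb')
    (key a a'' b b'' h2 hb hb'' hzb hzb'') (key a' a'' b' b'' h3 hb' hb'' hzb' hzb'')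
    hb.1 hb'.1 hb''.1 z ⟨hzb, hzb', hzb''⟩

/-- value of `cov` -/
theorem cov_bound {y : Option F → Fin 9 → F} {i : Option F} (hL : Loc R X i (y i)) (s : Bool)
    (z : Pt F) : cov (KK R X) X (LL R X y) (UU R X y) i s z ≤ 9 ∧
      (cov (KK R X) X (LL R X y) (UU R X y) i s z = 9 →
        ∃ b, b ≠ 8 ∧ z = W R X i (y i) s b) := by
  classical
  by_cases hz : ∃ b, z = W R X i (y i) s b
  · obtain ⟨b, rfl⟩ := hz
    have hind : ¬ ((W R X i (y i) s b).1 ≠ i ∧
        LL R X y i (!s) (W R X i (y i) s b).1 = (W R X i (y i) s b).2) := by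
      rintro ⟨-, h⟩
      rw [show (W R X i (y i) s b).1 = hpos R X i s b from rfl,
        LL_of_not y (not_hpos_other hX i s b)] at h
      exact W_not_on hX hL.av s b (!s) h
    have hf := flags_le hX y i s (W R X i (y i) s b)
    have hsub : (univ.filter (fun a => Az R X i (y i) s (W R X i (y i) s b) a)) ⊆
        univ.filter (fun a => vld a b) := by
      intro a ha
      simp only [mem_filter, mem_univ, true_and] at ha ⊢
      exact Az_W hX hL ha
    have hc := card_le_card hsub
    unfold cov
    rw [if_neg hind]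
    constructor
    · have := card_vld_le b
      omega
    · intro h9
      refine ⟨b, ?_, rfl⟩
      rintro rfl
      have := card_vld_eight_le
      omega
  · push Not at hz
    have hf := flags_le hX y i s z
    have hc := card_Az_le_two hX hL hz
    have hi : (if z.1 ≠ i ∧ LL R X y i (!s) z.1 = z.2 then 1 else 0) ≤ 1 := by
      split_ifs <;> simp
    constructor
    · unfold cov
      omega
    · intro h9
      exfalso
      unfold cov at h9
      omega

theorem gadget_of_Loc {y : Option F → Fin 9 → F} (hL : ∀ i, Loc R X i (y i))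
    (h1 : ∀ l, (∀ i s, X i s ≠ l) → ∀ z, ¬ On z l → flags (KK R X) (UU R X y) l z ≤ 8)
    (h2 : ∀ i, ∀ z : Pt F, z.1 ≠ i → pflags (KK R X) (UU R X y) i z ≤ 6) :
    Gadget (KK R X) X (LL R X y) (UU R X y) := by
  classical
  have hKK := KK_subset hX
  -- every special point is some `pt`
  have hpt : ∀ v ∈ KK R X, ∃ i s a, v = pt R X i s a := by
    intro v hv
    rcases mem_KK.mp hv with ⟨i, rfl⟩ | ⟨i, s, a, rfl⟩
    · exact ⟨i, true, none, rfl⟩
    · exact ⟨i, s, some a, rfl⟩
  refine ⟨?_, ?_, hX.ne, ?_, ?_, ?_, ?_, ?_, ?_, h1, ?_, ?_, ?_, ?_, ?_⟩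
  · intro i
    rw [hX.on_main, hX.on_main]
  · intro i s
    rw [hX.on_main]
    exact mp_mem_KK i
  · intro i s i' s' j hi h hK
    exact hX.priv i s i' s' j hi h (hKK hK)
  · intro i s j hj hK
    apply LL_of_not
    rintro ⟨a, rfl⟩
    exact hK (pt_mem_KK i s (some a))
  · intro v hv u hu
    obtain ⟨i, s, a, rfl⟩ := hpt v hv
    rw [mem_UU_pt hX] at hu
    obtain ⟨c, hc, rfl⟩ := hu
    exact pt_on_dl hX hc.1
  · intro v hv u hu
    obtain ⟨i, s, a, rfl⟩ := hpt v hv
    rw [mem_UU_pt hX] at hu
    obtain ⟨c, hc, rfl⟩ := hu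
    intro j hj hK
    exact (hL i).av s a c hc.1 j hj (hKK hK)
  · intro v hv
    obtain ⟨i, s, a, rfl⟩ := hpt v hv
    have : UU R X y (pt R X i s a) =
        (univ.filter (fun c => vld a c)).image (dl R X i (y i) s a) := by
      ext u
      rw [mem_UU_pt hX]
      simp only [mem_image, mem_filter, mem_univ, true_and]
      constructor
      · rintro ⟨c, hc, rfl⟩
        exact ⟨c, hc, rfl⟩
      · rintro ⟨c, hc, rfl⟩
        exact ⟨c, hc, rfl⟩
    rw [this, card_image_of_injOn]
    · rcases a with _ | a
      · have : (univ.filter (fun c : Fin 9 => vld none c)) = univ.erase 8 := by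
          ext c
          simp [vld]
        rw [this, card_erase_of_mem (mem_univ _)]
        simp
      · have : (univ.filter (fun c : Fin 9 => vld (some a) c)) = univ.erase a := by
          ext c
          simp [vld]
        rw [this, card_erase_of_mem (mem_univ _)]
        simp
    · intro c hc c' hc' h
      simp only [coe_filter, mem_univ, true_and, Set.mem_ofPred_eq] at hc hc'
      by_contra hne
      exact (hL i).g2 s a c c' hc.1 hc'.1 hne h
  · intro i s v hv hon u hu
    obtain ⟨a, rfl⟩ := exists_pt hX hv hon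
    rw [mem_UU_pt hX] at hu
    obtain ⟨c, hc, rfl⟩ := hu
    refine ⟨hpos R X i s c, hpos_ne hX i s c, ?_⟩
    rw [LL_hpos hX, val_dl_hpos hX hc.1]
  · intro i z hz
    have h3 := h2 i z hz
    have h4 : (if LL R X y i true z.1 = z.2 then 1 else 0) ≤ 1 := by split_ifs <;> simp
    have h5 : (if LL R X y i false z.1 = z.2 then 1 else 0) ≤ 1 := by split_ifs <;> simp
    omega
  · intro i s
    have hne : pt R X i s none ≠ pt R X i s (some 0) := (vp_ne_mp hX i s 0 i).symm
    have : ({pt R X i s none, pt R X i s (some 0)} : Finset (Pt F)) ⊆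
        (KK R X).filter (fun v => On v (X i s)) := by
      intro v hv
      simp only [mem_insert, mem_singleton] at hv
      rw [mem_filter]
      rcases hv with rfl | rfl
      · exact ⟨pt_mem_KK i s none, pt_on hX i s none⟩
      · exact ⟨pt_mem_KK i s (some 0), pt_on hX i s (some 0)⟩
    calc 2 = ({pt R X i s none, pt R X i s (some 0)} : Finset (Pt F)).card :=
          (card_pair hne).symm
      _ ≤ _ := card_le_card this
  · intro i s j hj h
    by_cases hh : ∃ a, hpos R X i (!s) a = j
    · obtain ⟨a, rfl⟩ := hh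
      rw [LL_hpos hX] at h
      exact W_not_on hX (hL i).av (!s) a s h.symm
    · rw [LL_of_not y hh] at h
      have hss : (!s) ≠ s := by
        rcases s with _ | _ <;> simp
      exact X_ne hX (i := i) hss (eq_of_val_eq hj.symm
        ((mp_on hX i (!s)).trans (mp_on hX i s).symm) h)
  · intro i s z _
    exact (cov_bound hX (hL i) s z).1
  · intro i s
    have : (univ.filter (fun z : Pt F => ¬ On z (X i s) ∧
        cov (KK R X) X (LL R X y) (UU R X y) i s z = 9)) ⊆
        (univ.erase 8).image (W R X i (y i) s) := by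
      intro z hz
      simp only [mem_filter, mem_univ, true_and] at hz
      obtain ⟨b, hb, rfl⟩ := (cov_bound hX (hL i) s z).2 hz.2
      simp only [mem_image, mem_erase, mem_univ, and_true]
      exact ⟨b, hb, rfl⟩
    refine (card_le_card this).trans (card_image_le.trans ?_)
    rw [card_erase_of_mem (mem_univ _)]
    simp

end

theorem specW_of_specW2 (h : SpecW2) : SpecW := by
  classical
  intro c hc
  obtain ⟨q1, hq1⟩ := h (c ^ 9 / 2) (by positivity)
  obtain ⟨q2, hq2⟩ := exists_nat_ge (2 * (NPat : ℝ) / c ^ 9)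
  refine ⟨max q1 q2, ?_⟩
  intro F _ _ _ hq k hk R X h4 h5 hX
  have hq1' : q1 ≤ ord F := (le_max_left _ _).trans hq
  have hq2' : q2 ≤ ord F := (le_max_right _ _).trans hq
  have hN : 2 * (NPat : ℝ) ≤ c ^ 9 * ord F := by
    have h6 : 2 * (NPat : ℝ) / c ^ 9 ≤ ord F := hq2.trans (by exact_mod_cast hq2')
    rw [div_le_iff₀ (by positivity)] at h6
    linarith
  obtain ⟨y, hy, hf1, hf2⟩ := hq1 F hq1' k hk R X h5 hX
    (fun i => univ.filter (fun y => Loc R X i y)) (fun i => card_Loc_ge hX hc h4 i hN)
  refine ⟨KK R X, LL R X y, UU R X y, KK_subset hX, ?_⟩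
  apply gadget_of_Loc hX _ hf1 hf2
  intro i
  have := hy i
  simpa using this

end Crest.Agent.R034
end

-- ▼ part R034/Cover

/-! Row 34, module M12: cover analysis (`SpecCover`). -/

set_option autoImplicit false
set_option linter.unusedSectionVars false

namespace Crest.Agent.R034

open Finset

namespace Cover

section lines
variable {F : Type} [Field F]

theorem exists_agree (l l' : Ln F) : ∃ j, val l j = val l' j := by
  classical
  obtain ⟨m, b⟩ := l
  obtain ⟨m', b'⟩ := l'
  by_cases h : m = m'
  · exact ⟨none, h⟩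
  · refine ⟨some ((b' - b) / (m - m')), ?_⟩
    have h' : m - m' ≠ 0 := sub_ne_zero.mpr h
    simp only [val]
    field_simp
    ring

theorem agree_unique {l l' : Ln F} (h : l ≠ l') {j j' : Option F}
    (h1 : val l j = val l' j) (h2 : val l j' = val l' j') : j = j' := by
  obtain ⟨m, b⟩ := l
  obtain ⟨m', b'⟩ := l'
  rcases j with _ | x <;> rcases j' with _ | x'
  · rfl
  · simp only [val] at h1 h2
    subst h1
    exact absurd (by rw [add_left_cancel h2]) h
  · simp only [val] at h1 h2
    subst h2
    exact absurd (by rw [add_left_cancel h1]) h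
  · simp only [val] at h1 h2
    have h3 : (m - m') * (x - x') = 0 := by linear_combination h1 - h2
    rcases mul_eq_zero.mp h3 with h4 | h4
    · have h5 : m = m' := sub_eq_zero.mp h4
      subst h5
      exact absurd (by rw [add_left_cancel h1]) h
    · rw [sub_eq_zero.mp h4]

end lines

variable {F : Type} [Field F] [Fintype F] [DecidableEq F]

theorem line_card (l : Ln F) :
    (univ.filter (fun z : Pt F => On z l)).card = ord F + 1 := by
  have h : (univ.filter (fun z : Pt F => On z l))
      = (univ : Finset (Option F)).image (fun j => ((j, val l j) : Pt F)) := by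
    ext ⟨j, y⟩
    simp only [mem_filter, mem_univ, true_and, mem_image, On, Prod.mk.injEq]
    constructor
    · intro h
      exact ⟨j, rfl, h⟩
    · rintro ⟨a, rfl, h⟩
      exact h
  rw [h, card_image_of_injective]
  · rw [card_univ, Fintype.card_option]
  · intro a b hab
    exact (Prod.mk.inj hab).1

theorem pos_card (i : Option F) :
    (univ.filter (fun z : Pt F => z.1 = i)).card = ord F := by
  have h : (univ.filter (fun z : Pt F => z.1 = i))
      = (univ : Finset F).image (fun y => ((i, y) : Pt F)) := by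
    ext ⟨j, y⟩
    simp only [mem_filter, mem_univ, true_and, mem_image, Prod.mk.injEq]
    constructor
    · intro h
      exact ⟨y, h.symm, rfl⟩
    · rintro ⟨a, h, _⟩
      exact h.symm
  rw [h, card_image_of_injective]
  · rw [card_univ]
  · intro a b hab
    exact (Prod.mk.inj hab).2

/-- the old points of a vertex set -/
def old (T : Finset (Option F × Option F)) : Finset (Pt F) :=
  univ.filter (fun z => (z.1, some z.2) ∈ T)

theorem mem_old {T : Finset (Option F × Option F)} {z : Pt F} :
    z ∈ old T ↔ (z.1, some z.2) ∈ T := by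
  simp [old]

theorem card_old (T : Finset (Option F × Option F)) (i : Option F) :
    (old T).card + (if (i, (none : Option F)) ∈ T then 1 else 0) ≤ T.card := by
  classical
  have hinj : Function.Injective (fun z : Pt F => ((z.1, some z.2) : Option F × Option F)) := by
    rintro ⟨a, b⟩ ⟨c, d⟩ h
    simp only [Prod.mk.injEq, Option.some.injEq] at h
    exact Prod.ext h.1 h.2
  have h1 : ((old T).image (fun z : Pt F => ((z.1, some z.2) : Option F × Option F))).card
      = (old T).card := card_image_of_injective _ hinj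
  by_cases hi : (i, (none : Option F)) ∈ T
  · rw [if_pos hi, ← h1]
    have hnot : (i, (none : Option F)) ∉
        (old T).image (fun z : Pt F => ((z.1, some z.2) : Option F × Option F)) := by
      simp
    rw [← card_insert_of_notMem hnot]
    apply card_le_card
    intro w hw
    rcases mem_insert.mp hw with rfl | hw
    · exact hi
    · obtain ⟨z, hz, rfl⟩ := mem_image.mp hw
      exact mem_old.mp hz
  · rw [if_neg hi, add_zero, ← h1]
    apply card_le_card
    intro w hw
    obtain ⟨z, hz, rfl⟩ := mem_image.mp hw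
    exact mem_old.mp hz

/-- double counting of (point of `D`, line of `V v`) versus covering points `Z` -/
theorem count_pairs (D Z : Finset (Pt F)) (V : Pt F → Finset (Ln F))
    (hon : ∀ v ∈ D, ∀ u ∈ V v, On v u)
    (hne : ∀ z ∈ Z, z ∉ D)
    (hcov : ∀ v ∈ D, ∀ u ∈ V v, ∃ z ∈ Z, On z u) :
    ∑ v ∈ D, (V v).card ≤ ∑ z ∈ Z, (D.filter (fun v => ∃ u ∈ V v, On z u)).card := by
  classical
  have h1 : ∀ v ∈ D, (V v).card ≤ (Z.filter (fun z => ∃ u ∈ V v, On z u)).card := by
    intro v hv
    choose! f hf using hcov v hv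
    apply card_le_card_of_injOn f
    · intro u hu
      have hu' : u ∈ V v := hu
      simp only [coe_filter, Set.mem_ofPred_eq]
      exact ⟨(hf u hu').1, u, hu', (hf u hu').2⟩
    · intro u hu u' hu' heq
      have hu1 : u ∈ V v := hu
      have hu2 : u' ∈ V v := hu'
      by_contra hne'
      have a1 : On (f u) u := (hf u hu1).2
      have a2 : On (f u) u' := by rw [heq]; exact (hf u' hu2).2
      have b1 : On v u := hon v hv u hu1
      have b2 : On v u' := hon v hv u' hu2
      unfold On at a1 a2 b1 b2
      have hj : (f u).1 = v.1 :=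
        agree_unique hne' (a1.trans a2.symm) (b1.trans b2.symm)
      have hfv : f u = v := by
        apply Prod.ext hj
        rw [← a1, ← b1, hj]
      exact hne (f u) (hf u hu1).1 (hfv ▸ hv)
  refine (sum_le_sum h1).trans (le_of_eq ?_)
  simp only [card_filter]
  rw [sum_comm]

section gadget

variable {K : Finset (Pt F)} {X : Option F → Bool → Ln F}
  {lab : Option F → Bool → Option F → F} {U : Pt F → Finset (Ln F)}

/-- the edge of a line -/
def lineEdge (l : Ln F) : Option F → Option F := fun j => some (val l j)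

/-- the altered edge -/
def altEdge (lab : Option F → Bool → Option F → F) (i : Option F) (s : Bool) :
    Option F → Option F := fun j => if j = i then none else some (lab i s j)

/-- membership in the family -/
def IsEdge (K : Finset (Pt F)) (lab : Option F → Bool → Option F → F)
    (U : Pt F → Finset (Ln F)) (e : Option F → Option F) : Prop :=
  (∃ l, Avoids K l ∧ e = lineEdge l) ∨ (∃ v ∈ K, ∃ l ∈ U v, e = lineEdge l) ∨
    (∃ i s, e = altEdge lab i s)

theorem inter_line_line (l l' : Ln F) : ∃ j, lineEdge l j = lineEdge l' j := by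
  obtain ⟨j, hj⟩ := exists_agree l l'
  exact ⟨j, by simp [lineEdge, hj]⟩

/-- the key: if the meeting point is not special then a line meets an altered edge -/
theorem inter_line_alt_aux (G : Gadget K X lab U) {i : Option F} {s : Bool} {l : Ln F}
    {j : Option F} (hj : val l j = val (X i s) j) (hK : (j, val (X i s) j) ∉ K) :
    lineEdge l j = altEdge lab i s j := by
  have hji : j ≠ i := by
    rintro rfl
    exact hK (G.main_mem j s)
  simp [lineEdge, altEdge, hji, G.lab_nat i s j hji hK, hj]

theorem inter_plain_alt (G : Gadget K X lab U) {l : Ln F} (hl : Avoids K l) (i : Option F)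
    (s : Bool) : ∃ j, lineEdge l j = altEdge lab i s j := by
  obtain ⟨j, hj⟩ := exists_agree l (X i s)
  refine ⟨j, inter_line_alt_aux G hj ?_⟩
  rw [← hj]
  exact hl j

theorem inter_desig_alt (G : Gadget K X lab U) {v : Pt F} (hv : v ∈ K) {l : Ln F}
    (hl : l ∈ U v) (i : Option F) (s : Bool) : ∃ j, lineEdge l j = altEdge lab i s j := by
  by_cases hon : On v (X i s)
  · obtain ⟨j, hji, hj⟩ := G.serve i s v hv hon l hl
    exact ⟨j, by simp [lineEdge, altEdge, hji, hj]⟩
  · obtain ⟨j, hj⟩ := exists_agree l (X i s)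
    refine ⟨j, inter_line_alt_aux G hj ?_⟩
    intro hK
    have hvl : On v l := G.U_on v hv l hl
    unfold On at hvl hon
    by_cases hjv : j = v.1
    · apply hon
      rw [← hjv, ← hj, hjv]
      exact hvl
    · apply G.U_off v hv l hl j hjv
      rw [hj]
      exact hK

theorem inter_alt_alt (G : Gadget K X lab U) (i : Option F) (s : Bool) (i' : Option F)
    (s' : Bool) : ∃ j, altEdge lab i s j = altEdge lab i' s' j := by
  by_cases hii : i = i'
  · subst hii
    exact ⟨i, by simp [altEdge]⟩
  · obtain ⟨j, hj⟩ := exists_agree (X i s) (X i' s')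
    have hK := G.priv i s i' s' j hii hj
    refine ⟨j, ?_⟩
    rw [← inter_line_alt_aux G (l := X i s) rfl hK, ← inter_line_alt_aux G (l := X i' s') rfl
      (hj ▸ hK)]
    simp [lineEdge, hj]

theorem inter_all (G : Gadget K X lab U) {e f : Option F → Option F}
    (he : IsEdge K lab U e) (hf : IsEdge K lab U f) : ∃ j, e j = f j := by
  rcases he with ⟨l, hl, rfl⟩ | ⟨v, hv, l, hl, rfl⟩ | ⟨i, s, rfl⟩ <;>
  rcases hf with ⟨l', hl', rfl⟩ | ⟨v', hv', l', hl', rfl⟩ | ⟨i', s', rfl⟩
  · exact inter_line_line l l'
  · exact inter_line_line l l'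
  · exact inter_plain_alt G hl i' s'
  · exact inter_line_line l l'
  · exact inter_line_line l l'
  · exact inter_desig_alt G hv hl i' s'
  · obtain ⟨j, hj⟩ := inter_plain_alt G hl' i s
    exact ⟨j, hj.symm⟩
  · obtain ⟨j, hj⟩ := inter_desig_alt G hv' hl' i s
    exact ⟨j, hj.symm⟩
  · exact inter_alt_alt G i s i' s'

/-- a hit of a plain edge is a point of `old T` -/
theorem hit_line {T : Finset (Option F × Option F)} {l : Ln F}
    (h : ∃ j, (j, lineEdge l j) ∈ T) : ∃ z ∈ old T, On z l := by
  obtain ⟨j, hj⟩ := h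
  exact ⟨(j, val l j), mem_old.mpr hj, rfl⟩

/-- a hit of an altered edge is the new vertex or a point of `old T` in another position -/
theorem hit_alt {T : Finset (Option F × Option F)} {i : Option F} {s : Bool}
    (h : ∃ j, (j, altEdge lab i s j) ∈ T) :
    (i, (none : Option F)) ∈ T ∨ ∃ z ∈ old T, z.1 ≠ i ∧ lab i s z.1 = z.2 := by
  obtain ⟨j, hj⟩ := h
  by_cases hji : j = i
  · left
    subst hji
    simpa [altEdge] using hj
  · right
    refine ⟨(j, lab i s j), mem_old.mpr ?_, hji, rfl⟩
    simpa [altEdge, hji] using hj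

/-- the line case, numbers: `Z` = points of `old T` off `l`, `D` = missing points of `l` -/
theorem line_numbers (T : Finset (Option F × Option F)) (i : Option F) (l : Ln F)
    (hT : T.card ≤ ord F) :
    ((old T).filter (fun z => ¬ On z l)).card
      + (if (i, (none : Option F)) ∈ T then 1 else 0) + 1
      ≤ (univ.filter (fun z : Pt F => On z l ∧ z ∉ old T)).card := by
  have h1 := card_old T i
  have h2 := card_filter_add_card_filter_not (s := old T) (fun z => On z l)
  have h3 := card_filter_add_card_filter_not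
    (s := univ.filter (fun z : Pt F => On z l)) (fun z => z ∈ old T)
  rw [line_card, filter_filter, filter_filter] at h3
  have h4 : (univ.filter (fun z : Pt F => On z l ∧ z ∈ old T))
      = (old T).filter (fun z => On z l) := by
    ext z; simp [and_comm]
  rw [h4] at h3
  omega

theorem pos_numbers (T : Finset (Option F × Option F)) (i : Option F)
    (hT : T.card ≤ ord F) :
    ((old T).filter (fun z => ¬ z.1 = i)).card
      + (if (i, (none : Option F)) ∈ T then 1 else 0)
      ≤ (univ.filter (fun z : Pt F => z.1 = i ∧ z ∉ old T)).card := by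
  have h1 := card_old T i
  have h2 := card_filter_add_card_filter_not (s := old T) (fun z => z.1 = i)
  have h3 := card_filter_add_card_filter_not
    (s := univ.filter (fun z : Pt F => z.1 = i)) (fun z => z ∈ old T)
  rw [pos_card, filter_filter, filter_filter] at h3
  have h4 : (univ.filter (fun z : Pt F => z.1 = i ∧ z ∈ old T))
      = (old T).filter (fun z => z.1 = i) := by
    ext z; simp [and_comm]
  rw [h4] at h3
  omega

/-- designated lines (other than `l`) of missing points of `l` are hit off `l` -/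
theorem hit_off_line (G : Gadget K X lab U) {T : Finset (Option F × Option F)} {l : Ln F}
    (hT : ∀ e, IsEdge K lab U e → ∃ j, (j, e j) ∈ T)
    {v : Pt F} (hv : v ∈ K) (hvl : On v l) (hvT : v ∉ old T) {u : Ln F} (hu : u ∈ U v)
    (hul : u ≠ l) : ∃ z ∈ (old T).filter (fun z => ¬ On z l), On z u := by
  obtain ⟨z, hz, hzu⟩ := hit_line (hT _ (Or.inr (Or.inl ⟨v, hv, u, hu, rfl⟩)))
  refine ⟨z, mem_filter.mpr ⟨hz, ?_⟩, hzu⟩
  intro hzl
  have hvu : On v u := G.U_on v hv u hu
  unfold On at hzl hzu hvl hvu
  have h1 : z.1 = v.1 := agree_unique hul (hzu.trans hzl.symm) (hvu.trans hvl.symm)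
  have h2 : z = v := by
    apply Prod.ext h1
    rw [← hzu, ← hvu, h1]
  exact hvT (h2 ▸ hz)

theorem case_line_plain (G : Gadget K X lab U) {T : Finset (Option F × Option F)}
    (hcard : T.card ≤ ord F) (hT : ∀ e, IsEdge K lab U e → ∃ j, (j, e j) ∈ T) {l : Ln F}
    (hl : ∀ j, (j, val l j) ∉ K → (j, val l j) ∈ old T) (hX : ∀ i s, X i s ≠ l) : False := by
  classical
  set D := univ.filter (fun z : Pt F => On z l ∧ z ∉ old T) with hD
  set Z := (old T).filter (fun z => ¬ On z l) with hZ
  have hnum := line_numbers T none l hcard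
  rw [← hD, ← hZ] at hnum
  have hDK : ∀ v ∈ D, v ∈ K := by
    intro v hv
    rw [hD, mem_filter] at hv
    obtain ⟨-, hv1, hv2⟩ := hv
    by_contra hvK
    have hv1' : val l v.1 = v.2 := hv1
    apply hv2
    have : ((v.1, val l v.1) : Pt F) = v := Prod.ext rfl hv1'
    have h := hl v.1 (by rw [this]; exact hvK)
    rwa [this] at h
  have hDl : ∀ v ∈ D, On v l ∧ v ∉ old T := by
    intro v hv
    rw [hD, mem_filter] at hv
    exact hv.2
  have hcount := count_pairs D Z (fun v => (U v).erase l)
    (fun v hv u hu => G.U_on v (hDK v hv) u (mem_of_mem_erase hu))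
    (fun z hz hzD => (mem_filter.mp hz).2 (hDl z hzD).1)
    (fun v hv u hu => hit_off_line G hT (hDK v hv) (hDl v hv).1 (hDl v hv).2
      (mem_of_mem_erase hu) (ne_of_mem_erase hu))
  have hflag : ∑ z ∈ Z, (D.filter (fun v => ∃ u ∈ (U v).erase l, On z u)).card ≤ 8 * Z.card := by
    calc ∑ z ∈ Z, (D.filter (fun v => ∃ u ∈ (U v).erase l, On z u)).card
        ≤ ∑ z ∈ Z, 8 := by
          apply sum_le_sum
          intro z hz
          refine le_trans (card_le_card ?_) (G.flags_line l hX z (mem_filter.mp hz).2)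
          intro v hv
          rw [mem_filter] at hv ⊢
          obtain ⟨hv1, u, hu, hzu⟩ := hv
          exact ⟨hDK v hv1, (hDl v hv1).1, u, mem_of_mem_erase hu, hzu⟩
      _ = 8 * Z.card := by simp [mul_comm]
  by_cases hdes : ∃ v ∈ D, l ∈ U v
  · obtain ⟨v, hv, hlv⟩ := hdes
    have hD1 : D.card ≤ 1 := by
      rw [card_le_one]
      have key : ∀ a ∈ D, a = v := by
        intro a ha
        by_contra hav
        have ha1 : val l a.1 = a.2 := (hDl a ha).1
        have hv1 : val l v.1 = v.2 := (hDl v hv).1
        by_cases h1 : a.1 = v.1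
        · apply hav
          apply Prod.ext h1
          rw [← ha1, ← hv1, h1]
        · apply G.U_off v (hDK v hv) l hlv a.1 h1
          rw [ha1]
          exact hDK a ha
      intro a ha b hb
      rw [key a ha, key b hb]
    have hZ0 : Z.card = 0 := by omega
    have h7 : ((U v).erase l).card = 7 := by
      rw [card_erase_of_mem hlv, G.U_card v (hDK v hv)]
    have h7' : ((U v).erase l).card ≤ ∑ v ∈ D, ((U v).erase l).card :=
      single_le_sum (f := fun v => ((U v).erase l).card) (fun _ _ => Nat.zero_le _) hv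
    have : ((U v).erase l).card ≤ 8 * Z.card := h7'.trans (hcount.trans hflag)
    rw [h7, hZ0] at this
    omega
  · push Not at hdes
    have h8 : ∑ v ∈ D, ((U v).erase l).card = 8 * D.card := by
      calc ∑ v ∈ D, ((U v).erase l).card = ∑ v ∈ D, 8 := by
            apply sum_congr rfl
            intro v hv
            rw [erase_eq_of_notMem (hdes v hv), G.U_card v (hDK v hv)]
        _ = 8 * D.card := by simp [mul_comm]
    have : 8 * D.card ≤ 8 * Z.card := by
      rw [← h8]
      exact hcount.trans hflag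
    omega

theorem case_line_alt (G : Gadget K X lab U) {T : Finset (Option F × Option F)}
    (hcard : T.card ≤ ord F) (hT : ∀ e, IsEdge K lab U e → ∃ j, (j, e j) ∈ T)
    {i : Option F} {s : Bool}
    (hl : ∀ j, (j, val (X i s) j) ∉ K → (j, val (X i s) j) ∈ old T) : False := by
  classical
  set l := X i s with hldef
  set D := univ.filter (fun z : Pt F => On z l ∧ z ∉ old T) with hD
  set Z := (old T).filter (fun z => ¬ On z l) with hZ
  have hnum := line_numbers T i l hcard
  rw [← hD, ← hZ] at hnum
  have hDK : ∀ v ∈ D, v ∈ K := by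
    intro v hv
    rw [hD, mem_filter] at hv
    obtain ⟨-, hv1, hv2⟩ := hv
    by_contra hvK
    have hv1' : val l v.1 = v.2 := hv1
    apply hv2
    have : ((v.1, val l v.1) : Pt F) = v := Prod.ext rfl hv1'
    have h := hl v.1 (by rw [this]; exact hvK)
    rwa [this] at h
  have hDl : ∀ v ∈ D, On v l ∧ v ∉ old T := by
    intro v hv
    rw [hD, mem_filter] at hv
    exact hv.2
  -- the altered line is not designated
  have hnd : ∀ v ∈ D, ∀ u ∈ U v, u ≠ l := by
    intro v hv u hu hul
    have h2 := G.two_le i s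
    have h3 : (K.filter (fun v => On v (X i s))).card ≤ 1 := by
      rw [card_le_one]
      have key : ∀ a ∈ K.filter (fun v => On v (X i s)), a = v := by
        intro a ha
        rw [mem_filter] at ha
        by_contra hav
        have ha1 : val u a.1 = a.2 := by rw [hul]; exact ha.2
        have hv1 : val u v.1 = v.2 := by rw [hul]; exact (hDl v hv).1
        by_cases h1 : a.1 = v.1
        · apply hav
          apply Prod.ext h1
          rw [← ha1, ← hv1, h1]
        · apply G.U_off v (hDK v hv) u hu a.1 h1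
          rw [ha1]
          exact ha.1
      intro a ha b hb
      rw [key a ha, key b hb]
    omega
  have hcount := count_pairs D Z U
    (fun v hv u hu => G.U_on v (hDK v hv) u hu)
    (fun z hz hzD => (mem_filter.mp hz).2 (hDl z hzD).1)
    (fun v hv u hu => hit_off_line G hT (hDK v hv) (hDl v hv).1 (hDl v hv).2
      hu (hnd v hv u hu))
  have hflag : ∑ z ∈ Z, (D.filter (fun v => ∃ u ∈ U v, On z u)).card
      ≤ ∑ z ∈ Z, flags K U l z := by
    apply sum_le_sum
    intro z hz
    apply card_le_card
    intro v hv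
    rw [mem_filter] at hv ⊢
    obtain ⟨hv1, u, hu, hzu⟩ := hv
    exact ⟨hDK v hv1, (hDl v hv1).1, u, hu, hzu⟩
  have h8 : ∑ v ∈ D, (U v).card = 8 * D.card := by
    calc ∑ v ∈ D, (U v).card = ∑ v ∈ D, 8 := by
          apply sum_congr rfl
          intro v hv
          rw [G.U_card v (hDK v hv)]
      _ = 8 * D.card := by simp [mul_comm]
  -- the partner edge
  have hpart : 1 ≤ (if (i, (none : Option F)) ∈ T then 1 else 0)
      + ∑ z ∈ Z, (if z.1 ≠ i ∧ lab i (!s) z.1 = z.2 then 1 else 0) := by
    rcases hit_alt (hT _ (Or.inr (Or.inr ⟨i, !s, rfl⟩))) with h | ⟨z, hz, hzi, hzl⟩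
    · rw [if_pos h]
      omega
    · have hzZ : z ∈ Z := by
        rw [hZ, mem_filter]
        refine ⟨hz, ?_⟩
        intro hon
        apply G.other i s z.1 hzi
        rw [hzl]
        exact hon.symm
      have : (if z.1 ≠ i ∧ lab i (!s) z.1 = z.2 then 1 else 0) ≤
          ∑ z ∈ Z, (if z.1 ≠ i ∧ lab i (!s) z.1 = z.2 then 1 else 0) :=
        single_le_sum (f := fun z : Pt F => if z.1 ≠ i ∧ lab i (!s) z.1 = z.2 then 1 else 0)
          (fun _ _ => Nat.zero_le _) hzZ
      rw [if_pos ⟨hzi, hzl⟩] at this
      omega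
  have hcov : ∑ z ∈ Z, cov K X lab U i s z ≤ 8 * Z.card + 8 := by
    have h1 : ∀ z ∈ Z, cov K X lab U i s z ≤ 8 + (if cov K X lab U i s z = 9 then 1 else 0) := by
      intro z hz
      have := G.cov_le i s z (mem_filter.mp hz).2
      split_ifs <;> omega
    refine (sum_le_sum h1).trans ?_
    rw [sum_add_distrib]
    have h2 : ∑ z ∈ Z, (if cov K X lab U i s z = 9 then 1 else 0) ≤ 8 := by
      rw [← card_filter]
      refine le_trans (card_le_card ?_) (G.cov_nine i s)
      intro z hz
      rw [mem_filter] at hz ⊢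
      exact ⟨mem_univ _, (mem_filter.mp hz.1).2, hz.2⟩
    have h3 : ∑ z ∈ Z, 8 = 8 * Z.card := by simp [mul_comm]
    omega
  have hsum : ∑ z ∈ Z, cov K X lab U i s z = ∑ z ∈ Z, flags K U l z
      + ∑ z ∈ Z, (if z.1 ≠ i ∧ lab i (!s) z.1 = z.2 then 1 else 0) := by
    rw [← sum_add_distrib]
    rfl
  have hfin := hcount.trans hflag
  rw [h8] at hfin
  split_ifs at hnum hpart <;> omega

theorem case_pos (G : Gadget K X lab U) {T : Finset (Option F × Option F)}
    (hcard : T.card ≤ ord F) (hT : ∀ e, IsEdge K lab U e → ∃ j, (j, e j) ∈ T)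
    {i : Option F} (hl : ∀ y : F, (i, y) ∉ K → (i, y) ∈ old T) : False := by
  classical
  set D := univ.filter (fun z : Pt F => z.1 = i ∧ z ∉ old T) with hD
  set Z := (old T).filter (fun z => ¬ z.1 = i) with hZ
  have hnum := pos_numbers T i hcard
  rw [← hD, ← hZ] at hnum
  have hDl : ∀ v ∈ D, v.1 = i ∧ v ∉ old T := by
    intro v hv
    rw [hD, mem_filter] at hv
    exact hv.2
  have hDK : ∀ v ∈ D, v ∈ K := by
    intro v hv
    obtain ⟨hv1, hv2⟩ := hDl v hv
    by_contra hvK
    apply hv2
    have : ((i, v.2) : Pt F) = v := Prod.ext hv1.symm rfl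
    have h := hl v.2 (by rw [this]; exact hvK)
    rwa [this] at h
  have hcount := count_pairs D Z U
    (fun v hv u hu => G.U_on v (hDK v hv) u hu)
    (fun z hz hzD => (mem_filter.mp hz).2 (hDl z hzD).1)
    (fun v hv u hu => by
      obtain ⟨z, hz, hzu⟩ := hit_line (hT _ (Or.inr (Or.inl ⟨v, hDK v hv, u, hu, rfl⟩)))
      refine ⟨z, mem_filter.mpr ⟨hz, ?_⟩, hzu⟩
      intro hzi
      have hvu : On v u := G.U_on v (hDK v hv) u hu
      unfold On at hzu hvu
      have h2 : z = v := by
        have h1 : z.1 = v.1 := hzi.trans (hDl v hv).1.symm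
        apply Prod.ext h1
        rw [← hzu, ← hvu, h1]
      exact (hDl v hv).2 (h2 ▸ hz))
  have hflag : ∑ z ∈ Z, (D.filter (fun v => ∃ u ∈ U v, On z u)).card
      ≤ ∑ z ∈ Z, pflags K U i z := by
    apply sum_le_sum
    intro z hz
    apply card_le_card
    intro v hv
    rw [mem_filter] at hv ⊢
    obtain ⟨hv1, u, hu, hzu⟩ := hv
    exact ⟨hDK v hv1, (hDl v hv1).1, u, hu, hzu⟩
  have h8 : ∑ v ∈ D, (U v).card = 8 * D.card := by
    calc ∑ v ∈ D, (U v).card = ∑ v ∈ D, 8 := by
          apply sum_congr rfl
          intro v hv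
          rw [G.U_card v (hDK v hv)]
      _ = 8 * D.card := by simp [mul_comm]
  have hpart : ∀ s, 1 ≤ (if (i, (none : Option F)) ∈ T then 1 else 0)
      + ∑ z ∈ Z, (if lab i s z.1 = z.2 then 1 else 0) := by
    intro s
    rcases hit_alt (hT _ (Or.inr (Or.inr ⟨i, s, rfl⟩))) with h | ⟨z, hz, hzi, hzl⟩
    · rw [if_pos h]
      omega
    · have hzZ : z ∈ Z := by
        rw [hZ, mem_filter]
        exact ⟨hz, hzi⟩
      have : (if lab i s z.1 = z.2 then 1 else 0) ≤
          ∑ z ∈ Z, (if lab i s z.1 = z.2 then 1 else 0) :=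
        single_le_sum (f := fun z : Pt F => if lab i s z.1 = z.2 then 1 else 0)
          (fun _ _ => Nat.zero_le _) hzZ
      rw [if_pos hzl] at this
      omega
  have hw : ∑ z ∈ Z, pflags K U i z + ∑ z ∈ Z, (if lab i true z.1 = z.2 then 1 else 0)
      + ∑ z ∈ Z, (if lab i false z.1 = z.2 then 1 else 0) ≤ 8 * Z.card := by
    rw [← sum_add_distrib, ← sum_add_distrib]
    calc _ ≤ ∑ z ∈ Z, 8 := by
          apply sum_le_sum
          intro z hz
          exact G.flags_pos i z (mem_filter.mp hz).2
      _ = 8 * Z.card := by simp [mul_comm]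
  have ht := hpart true
  have hf := hpart false
  have hfin := hcount.trans hflag
  rw [h8] at hfin
  split_ifs at hnum ht hf <;> omega

end gadget

end Cover

open Cover in
/-- the cover analysis -/
theorem specCover : SpecCover := by
  classical
  intro F _ _ _ K X lab U G hS
  refine ⟨univ.filter (fun e => IsEdge K lab U e), ?_, ?_, ?_⟩
  · exact ⟨altEdge lab none true, mem_filter.mpr ⟨mem_univ _, Or.inr (Or.inr ⟨_, _, rfl⟩)⟩⟩
  · intro e he f hf
    exact inter_all G (mem_filter.mp he).2 (mem_filter.mp hf).2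
  · intro T hT
    by_contra hlt
    have hcard : T.card ≤ ord F := by omega
    have hT' : ∀ e, IsEdge K lab U e → ∃ j, (j, e j) ∈ T := fun e he =>
      hT e (mem_filter.mpr ⟨mem_univ _, he⟩)
    have hold : (old T).card ≤ ord F := by
      have := card_old T none
      omega
    have hhit : ∀ l, Avoids K l → ∃ j, (j, val l j) ∈ old T := by
      intro l hl
      obtain ⟨z, hz, hzl⟩ := hit_line (hT' _ (Or.inl ⟨l, hl, rfl⟩))
      refine ⟨z.1, ?_⟩
      have : ((z.1, val l z.1) : Pt F) = z := Prod.ext rfl hzl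
      rwa [this]
    rcases hS (old T) hold hhit with ⟨l, hl⟩ | ⟨i, hi⟩
    · by_cases hX : ∀ i s, X i s ≠ l
      · exact case_line_plain G hcard hT' hl hX
      · push Not at hX
        obtain ⟨i, s, rfl⟩ := hX
        exact case_line_alt G hcard hT' hl
    · exact case_pos G hcard hT' hi

end Crest.Agent.R034
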