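import Crest.Agent.R034.Plane
import Crest.Agent.R034.Spec
import Mathlib

-- ▼ part R034/Final
section

/-! Transfer of `GoodFamily` to the hypergraph statements, and the combination of all modules. -/

set_option autoImplicit false

namespace Crest.Agent.R034

open Finset

/-- the hypergraph statement with a general number `r` of parts -/
def Hyper (r : ℕ) : Prop :=
  ∃ (N : ℕ) (part : Fin N → Fin r) (E : Finset (Finset (Fin N))),
    E.Nonempty ∧
    (∀ e ∈ E, ∀ i : Fin r, (e.filter (fun v => part v = i)).card = 1) ∧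
    (∀ e ∈ E, ∀ f ∈ E, (e ∩ f).Nonempty) ∧
    (∀ i : Fin r, (Finset.univ.filter (fun v => part v = i)).card = r) ∧
    (∀ v : Fin N, ∃ e ∈ E, v ∈ e) ∧
    (∀ S : Finset (Fin N), (∀ e ∈ E, (e ∩ S).Nonempty) → r ≤ S.card)

theorem hyper_of_goodFamily (F : Type) [Field F] [Fintype F] [DecidableEq F]
    (h : GoodFamily F) : Hyper (ord F + 1) := by
  classical
  obtain ⟨E0, hne, hint, hcov⟩ := h
  let eV : (Option F × Option F) ≃ Fin (Fintype.card (Option F × Option F)) :=
    Fintype.equivFin _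
  let ep : Option F ≃ Fin (ord F + 1) := Fintype.equivFinOfCardEq (by simp [Fintype.card_option])
  -- every vertex is used
  have hused : ∀ v : Option F × Option F, ∃ e ∈ E0, e v.1 = v.2 := by
    rintro ⟨i, y⟩
    by_contra hcon
    push Not at hcon
    have h1 := hcov ((univ.filter (fun y' : Option F => y' ≠ y)).image (fun y' => (i, y')))
      (by
        intro e he
        refine ⟨i, ?_⟩
        simp only [mem_image, mem_filter, mem_univ, true_and, Prod.mk.injEq, exists_eq_right]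
        exact hcon e he)
    have h2 : ((univ.filter (fun y' : Option F => y' ≠ y)).image
        (fun y' => (i, y'))).card ≤ ord F := by
      refine card_image_le.trans ?_
      rw [filter_ne', card_erase_of_mem (mem_univ _), card_univ, Fintype.card_option]
      simp
    omega
  let mk : (Option F → Option F) → Finset (Fin (Fintype.card (Option F × Option F))) :=
    fun f => univ.image (fun i => eV (i, f i))
  have hmk : ∀ f v, v ∈ mk f ↔ f (eV.symm v).1 = (eV.symm v).2 := by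
    intro f v
    simp only [mk, mem_image, mem_univ, true_and]
    constructor
    · rintro ⟨i, rfl⟩
      simp
    · intro hv
      refine ⟨(eV.symm v).1, ?_⟩
      rw [hv]
      simp
  refine ⟨Fintype.card (Option F × Option F), fun v => ep (eV.symm v).1, E0.image mk, ?_, ?_, ?_,
    ?_, ?_, ?_⟩
  · exact hne.image _
  · intro e he i
    simp only [mem_image] at he
    obtain ⟨f, _, rfl⟩ := he
    rw [card_eq_one]
    refine ⟨eV (ep.symm i, f (ep.symm i)), ?_⟩
    ext v
    simp only [mem_filter, hmk, mem_singleton]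
    constructor
    · rintro ⟨h1, h2⟩
      have h3 : (eV.symm v).1 = ep.symm i := by
        rw [← h2]; simp
      apply eV.symm.injective
      rw [eV.symm_apply_apply]
      apply Prod.ext h3
      rw [← h1, h3]
    · rintro rfl
      simp
  · intro e he f hf
    simp only [mem_image] at he hf
    obtain ⟨e', he', rfl⟩ := he
    obtain ⟨f', hf', rfl⟩ := hf
    obtain ⟨i, hi⟩ := hint e' he' f' hf'
    refine ⟨eV (i, e' i), ?_⟩
    rw [mem_inter, hmk, hmk]
    simp [hi]
  · intro i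
    have : (univ.filter (fun v : Fin (Fintype.card (Option F × Option F)) =>
        ep (eV.symm v).1 = i)) = (univ : Finset (Option F)).image (fun y => eV (ep.symm i, y)) := by
      ext v
      simp only [mem_filter, mem_univ, true_and, mem_image]
      constructor
      · intro h2
        refine ⟨(eV.symm v).2, ?_⟩
        rw [← h2]
        simp
      · rintro ⟨y, rfl⟩
        simp
    rw [this, card_image_of_injective]
    · simp [Fintype.card_option]
    · intro y y' hy
      simpa using hy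
  · intro v
    obtain ⟨e, he, h1⟩ := hused (eV.symm v)
    exact ⟨mk e, mem_image_of_mem _ he, (hmk _ _).mpr h1⟩
  · intro S hS
    have h1 := hcov (S.image eV.symm) (by
      intro e he
      obtain ⟨v, hv⟩ := hS (mk e) (mem_image_of_mem _ he)
      rw [mem_inter, hmk] at hv
      refine ⟨(eV.symm v).1, ?_⟩
      rw [hv.1, mem_image]
      exact ⟨v, hv.2, rfl⟩)
    rwa [card_image_of_injective _ eV.symm.injective] at h1

/-- existence of an integer root -/
theorem exists_isRoot (N q : ℕ) (hN : 1 ≤ N) : ∃ k, IsRoot N k q := by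
  classical
  have hex : ∃ m : ℕ, q < (m + 1) ^ N :=
    ⟨q, (Nat.lt_succ_self q).trans_le (Nat.le_self_pow (by omega) _)⟩
  refine ⟨Nat.find hex, ?_, Nat.find_spec hex⟩
  by_contra hcon
  push Not at hcon
  rcases Nat.eq_zero_or_pos (Nat.find hex) with h0 | h0
  · rw [h0, zero_pow (by omega)] at hcon
    omega
  · have h2 := Nat.find_min hex (m := Nat.find hex - 1) (by omega)
    rw [Nat.sub_add_cancel h0] at h2
    exact h2 hcon

/-- the combination of all modules -/
theorem exists_goodFamily (hS : SpecStab) (h1 : SpecR1) (h2 : SpecR2) (h3 : SpecR3)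
    (h4 : SpecR4) (h5 : SpecR5) (hX : SpecX) (hW : SpecW) (hC : SpecCover) :
    ∃ q0 : ℕ, ∀ (F : Type) [Field F] [Fintype F] [DecidableEq F], ¬ IsSquare (ord F) →
      q0 ≤ ord F → GoodFamily F := by
  obtain ⟨N, hN, qS, hS⟩ := hS
  obtain ⟨c, hc, q4, h4⟩ := h4
  obtain ⟨qW, hW⟩ := hW c hc
  obtain ⟨q2, h2⟩ := h2
  obtain ⟨q5, h5⟩ := h5 20 (by omega)
  obtain ⟨q1, h1⟩ := h1 N hN
  obtain ⟨q3, h3⟩ := h3 N hN
  refine ⟨qS + q4 + qW + q2 + q5 + q1 + q3, ?_⟩
  intro F _ _ _ hns hq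
  obtain ⟨k, hk⟩ := exists_isRoot N (ord F) hN
  obtain ⟨k', hk'⟩ := exists_isRoot 20 (ord F) (by omega)
  obtain ⟨B1, hB1, c1⟩ := h1 F (by omega) k hk
  obtain ⟨B2, hB2, c2⟩ := h2 F (by omega)
  obtain ⟨B3, hB3, c3⟩ := h3 F (by omega) k hk
  obtain ⟨B4, hB4, c4⟩ := h4 F (by omega)
  obtain ⟨B5, hB5, c5⟩ := h5 F (by omega) k' hk'
  have hpos : 0 < Fintype.card (RR F) := Fintype.card_pos
  have hex : ∃ R : RR F, R ∉ B1 ∪ B2 ∪ B3 ∪ B4 ∪ B5 := by
    by_contra hcon
    push Not at hcon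
    have hu : (B1 ∪ B2 ∪ B3 ∪ B4 ∪ B5) = univ := eq_univ_iff_forall.mpr hcon
    have h6 : Fintype.card (RR F) ≤ B1.card + B2.card + B3.card + B4.card + B5.card := by
      calc Fintype.card (RR F) = (univ : Finset (RR F)).card := rfl
        _ = (B1 ∪ B2 ∪ B3 ∪ B4 ∪ B5).card := by rw [hu]
        _ ≤ (B1 ∪ B2 ∪ B3 ∪ B4).card + B5.card := card_union_le _ _
        _ ≤ (B1 ∪ B2 ∪ B3).card + B4.card + B5.card := by gcongr; exact card_union_le _ _
        _ ≤ (B1 ∪ B2).card + B3.card + B4.card + B5.card := by gcongr; exact card_union_le _ _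
        _ ≤ _ := by gcongr; exact card_union_le _ _
    omega
  obtain ⟨R, hR⟩ := hex
  simp only [mem_union, not_or] at hR
  obtain ⟨⟨⟨⟨hR1, hR2⟩, hR3⟩, hR4⟩, hR5⟩ := hR
  obtain ⟨X, hX⟩ := hX F R (hB2 R hR2)
  obtain ⟨K, lab, U, hK, hG⟩ := hW F (by omega) k' hk'.1 R X (hB4 R hR4) (hB5 R hR5) hX
  exact hC F K X lab U hG (hS F hns (by omega) k hk R (hB1 R hR1) (hB3 R hR3) K hK)

theorem not_isSquare_prime_pow {s n : ℕ} (hs : s.Prime) (hn : Odd n) : ¬ IsSquare (s ^ n) := by
  rintro ⟨m, hm⟩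
  have h1 := congrArg (fun x => x.factorization s) hm
  have hm0 : m ≠ 0 := by
    rintro rfl
    simp only [mul_zero] at hm
    exact absurd hm (pow_ne_zero _ hs.ne_zero)
  simp only [Nat.factorization_pow, Nat.factorization_mul hm0 hm0, Finsupp.smul_apply,
    Finsupp.add_apply, hs.factorization_self, smul_eq_mul, mul_one] at h1
  obtain ⟨t, ht⟩ := hn
  omega

/-- S0045 from the field statement -/
theorem s0045_of (h : ∃ q0 : ℕ, ∀ (F : Type) [Field F] [Fintype F] [DecidableEq F],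
    ¬ IsSquare (ord F) → q0 ≤ ord F → GoodFamily F) :
    ∃ q₀ : ℕ, ∀ q : ℕ, q₀ ≤ q → q.Prime → Hyper (q + 1) := by
  obtain ⟨q0, h⟩ := h
  refine ⟨q0, fun q hq hp => ?_⟩
  have : Fact q.Prime := ⟨hp⟩
  have hc : ord (ZMod q) = q := ZMod.card q
  have hns : ¬ IsSquare (ord (ZMod q)) := by
    rw [hc]
    have := not_isSquare_prime_pow (n := 1) hp odd_one
    rwa [pow_one] at this
  have := hyper_of_goodFamily (ZMod q) (h (ZMod q) hns (by rw [hc]; exact hq))
  rwa [hc] at this

/-- S0046 from the field statement -/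
theorem s0046_of (h : ∃ q0 : ℕ, ∀ (F : Type) [Field F] [Fintype F] [DecidableEq F],
    ¬ IsSquare (ord F) → q0 ≤ ord F → GoodFamily F) :
    ∃ q₀ : ℕ, ∀ s n : ℕ, q₀ ≤ n → s.Prime → Odd n → Hyper (s ^ n + 1) := by
  classical
  obtain ⟨q0, h⟩ := h
  refine ⟨q0, fun s n hq hp hn => ?_⟩
  have : Fact s.Prime := ⟨hp⟩
  have hn0 : n ≠ 0 := by rintro rfl; simp at hn
  have : Fintype (GaloisField s n) := Fintype.ofFinite _
  have hc : ord (GaloisField s n) = s ^ n := by
    rw [← GaloisField.card s n hn0, Nat.card_eq_fintype_card]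
  have hns : ¬ IsSquare (ord (GaloisField s n)) := by
    rw [hc]; exact not_isSquare_prime_pow hp hn
  have hbig : q0 ≤ s ^ n := hq.trans (Nat.lt_pow_self hp.one_lt).le
  have := hyper_of_goodFamily (GaloisField s n) (h (GaloisField s n) hns (by rw [hc]; exact hbig))
  rwa [hc] at this

end Crest.Agent.R034
end

-- ▼ part R034/Samp
section

/-!
# Sampling lemma for the stability theorem (row 34)

If every *good* `k × k` grid with vertices in `A × B` contains a cell with property `Q`, then at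
least `|A||B|/(2k²)` of the pairs `A × B` have `Q`.
-/

namespace Crest.Agent.R034.Samp

open Finset

/-! ## One-coordinate counting bound on a finite product -/

section Count

variable {ι V : Type*} [Fintype ι] [DecidableEq ι]

/-- resampling identity -/
theorem sum_update (S : ι → Finset V) (i : ι) (f : (ι → V) → ℕ) :
    ∑ G ∈ Fintype.piFinset S, ∑ t ∈ S i, f (Function.update G i t)
      = (S i).card * ∑ G ∈ Fintype.piFinset S, f G := by
  classical
  rw [Finset.mul_sum]
  have h2 : ∀ G ∈ Fintype.piFinset S, (S i).card * f G = ∑ _t ∈ S i, f G := by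
    intro G _; simp
  rw [Finset.sum_congr rfl h2]
  rw [← Finset.sum_product', ← Finset.sum_product']
  refine Finset.sum_nbij' (fun p => (Function.update p.1 i p.2, p.1 i))
    (fun p => (Function.update p.1 i p.2, p.1 i)) ?_ ?_ ?_ ?_ ?_
  · rintro ⟨G, t⟩ h
    simp only [Finset.mem_product, Fintype.mem_piFinset] at h ⊢
    refine ⟨fun j => ?_, h.1 i⟩
    by_cases hj : j = i
    · subst hj; simpa using h.2
    · simpa [Function.update_of_ne hj] using h.1 j
  · rintro ⟨G, t⟩ h
    simp only [Finset.mem_product, Fintype.mem_piFinset] at h ⊢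
    refine ⟨fun j => ?_, h.1 i⟩
    by_cases hj : j = i
    · subst hj; simpa using h.2
    · simpa [Function.update_of_ne hj] using h.1 j
  · rintro ⟨G, t⟩ _; simp
  · rintro ⟨G, t⟩ _; simp
  · rintro ⟨G, t⟩ _; simp

/-- if, whatever the other coordinates, at most `N` values of coordinate `i` make `E` true,
then `E` has at most `N/|S i|` of the product. -/
theorem cnt_le (S : ι → Finset V) (i : ι) (E : (ι → V) → Prop) [DecidablePred E] (N : ℕ)
    (h : ∀ G ∈ Fintype.piFinset S, ((S i).filter (fun t => E (Function.update G i t))).card ≤ N) :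
    (S i).card * ((Fintype.piFinset S).filter E).card ≤ N * (Fintype.piFinset S).card := by
  have h1 := sum_update S i (fun G => if E G then 1 else 0)
  have h2 : ((Fintype.piFinset S).filter E).card
      = ∑ G ∈ Fintype.piFinset S, (if E G then 1 else 0) := by
    rw [Finset.card_filter]
  rw [h2, ← h1]
  calc ∑ G ∈ Fintype.piFinset S, ∑ t ∈ S i, (if E (Function.update G i t) then 1 else 0)
      ≤ ∑ _G ∈ Fintype.piFinset S, N := by
        apply Finset.sum_le_sum
        intro G hG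
        rw [← Finset.card_filter]
        exact h G hG
    _ = N * (Fintype.piFinset S).card := by simp [mul_comm]

/-- two-coordinate count -/
theorem cnt_two (S : ι → Finset V) (i j : ι) (hij : i ≠ j) (Q : V → V → Prop)
    [∀ x y, Decidable (Q x y)] :
    (S i).card * ((S j).card * ((Fintype.piFinset S).filter (fun G => Q (G i) (G j))).card)
      = ((S i ×ˢ S j).filter (fun p => Q p.1 p.2)).card * (Fintype.piFinset S).card := by
  have h1 := sum_update S j (fun G => if Q (G i) (G j) then 1 else 0)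
  have h2 : ((Fintype.piFinset S).filter (fun G => Q (G i) (G j))).card
      = ∑ G ∈ Fintype.piFinset S, (if Q (G i) (G j) then 1 else 0) := by
    rw [Finset.card_filter]
  rw [h2, ← h1]
  have h3 := sum_update S i (fun G => ∑ t ∈ S j, if Q (Function.update G j t i) (Function.update G j t j)
    then 1 else 0)
  rw [← h3]
  have h4 : ∀ G ∈ Fintype.piFinset S, (∑ s ∈ S i, ∑ t ∈ S j,
      if Q (Function.update (Function.update G i s) j t i)
        (Function.update (Function.update G i s) j t j) then 1 else 0)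
      = ((S i ×ˢ S j).filter (fun p => Q p.1 p.2)).card := by
    intro G _
    rw [Finset.card_filter, Finset.sum_product]
    refine Finset.sum_congr rfl fun s _ => Finset.sum_congr rfl fun t _ => ?_
    simp [Function.update_of_ne hij]
  rw [Finset.sum_congr rfl h4]
  simp [mul_comm]

end Count

section Grid

variable {V Wd I : Type*}

/-- abstract axioms of the (truncated) plane: vertices, words, parts -/
structure Ax (part : V → I) (mem : V → Wd → Prop) (join : V → V → Wd) : Prop where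
  meet : ∀ {x y : V} {l l' : Wd}, mem x l → mem x l' → mem y l → mem y l' → x ≠ y → l = l'
  part_inj : ∀ {x y : V} {l : Wd}, mem x l → mem y l → part x = part y → x = y
  join_left : ∀ {x y : V}, part x ≠ part y → mem x (join x y)
  join_right : ∀ {x y : V}, part x ≠ part y → mem y (join x y)

/-- grid in general position -/
structure Good (part : V → I) (mem : V → Wd → Prop) (join : V → V → Wd) {k : ℕ}
    (T U : Fin k → V) : Prop where
  part_ne : ∀ a b, part (T a) ≠ part (U b)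
  inj : ∀ a b a' b', join (T a) (U b) = join (T a') (U b') → a = a' ∧ b = b'
  three : ∀ x, (∀ a, x ≠ T a) → (∀ b, x ≠ U b) → ∀ a₁ b₁ a₂ b₂ a₃ b₃ : Fin k,
    (a₁, b₁) ≠ (a₂, b₂) → (a₁, b₁) ≠ (a₃, b₃) → (a₂, b₂) ≠ (a₃, b₃) →
    mem x (join (T a₁) (U b₁)) → mem x (join (T a₂) (U b₂)) → mem x (join (T a₃) (U b₃)) → False

variable {part : V → I} {mem : V → Wd → Prop} {join : V → V → Wd}

theorem not_good (ax : Ax part mem join) {k : ℕ} {T U : Fin k → V}
    (hg : ¬ Good part mem join T U) :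
    (∃ a b, part (T a) = part (U b)) ∨
    (∃ a a' b, a ≠ a' ∧ part (T a) ≠ part (U b) ∧ mem (T a') (join (T a) (U b))) ∨
    (∃ b b', b ≠ b' ∧ U b = U b') ∨
    (∃ a b b', U b ≠ U b' ∧ ∃ l, mem (U b) l ∧ mem (U b') l ∧ mem (T a) l) ∨
    (∃ a₁ b₁ a₂ b₂ a₃ b₃, a₃ ≠ a₁ ∧ a₃ ≠ a₂ ∧ join (T a₁) (U b₁) ≠ join (T a₂) (U b₂) ∧
      ∃ x l, mem x (join (T a₁) (U b₁)) ∧ mem x (join (T a₂) (U b₂)) ∧ x ≠ U b₃ ∧
        mem x l ∧ mem (U b₃) l ∧ mem (T a₃) l) := by
  by_contra hcon
  push Not at hcon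
  obtain ⟨e1, e2, e3, e4, e5⟩ := hcon
  apply hg
  have hinj : ∀ a b a' b', join (T a) (U b) = join (T a') (U b') → a = a' ∧ b = b' := by
    intro a b a' b' h
    have ha : a = a' := by
      by_contra hne
      refine e2 a a' b hne (e1 a b) ?_
      rw [h]; exact ax.join_left (e1 a' b')
    refine ⟨ha, ?_⟩
    subst ha
    by_contra hne
    by_cases hU : U b = U b'
    · exact e3 b b' hne hU
    · refine e4 a b b' hU (join (T a) (U b)) (ax.join_right (e1 a b)) ?_ (ax.join_left (e1 a b))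
      rw [h]; exact ax.join_right (e1 a b')
  refine ⟨e1, hinj, ?_⟩
  intro x hxT hxU a₁ b₁ a₂ b₂ a₃ b₃ h12 h13 h23 m1 m2 m3
  -- words through x with the same T (or U) index coincide
  have key : ∀ a b a' b', (a, b) ≠ (a', b') → mem x (join (T a) (U b)) →
      mem x (join (T a') (U b')) → a ≠ a' := by
    intro a b a' b' hne h h' haa
    subst haa
    have := ax.meet h h' (ax.join_left (e1 a b)) (ax.join_left (e1 a b')) (hxT a)
    obtain ⟨_, hb⟩ := hinj _ _ _ _ this
    exact hne (by rw [hb])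
  have n13 := key _ _ _ _ h13 m1 m3
  have n23 := key _ _ _ _ h23 m2 m3
  have hne : join (T a₁) (U b₁) ≠ join (T a₂) (U b₂) := by
    intro h
    obtain ⟨h1, h2⟩ := hinj _ _ _ _ h
    exact h12 (by rw [h1, h2])
  exact e5 a₁ b₁ a₂ b₂ a₃ b₃ n13.symm n23.symm hne x (join (T a₃) (U b₃)) m1 m2 (hxU b₃) m3
    (ax.join_right (e1 a₃ b₃)) (ax.join_left (e1 a₃ b₃))

end Grid

section Pairs

open Classical in
/-- **Sampling lemma.** -/
theorem pairs_ge {V Wd I : Type*} {part : V → I} {mem : V → Wd → Prop} {join : V → V → Wd}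
    (ax : Ax part mem join) (A B : Finset V) (N k : ℕ) (hk : 0 < k)
    (h1 : ∀ u ∈ B, (A.filter (fun t => part t = part u)).card ≤ N)
    (h2 : ∀ l u, u ∈ B → mem u l → (A.filter (fun t => mem t l)).card ≤ N)
    (hA : 16 * k ^ 6 * N ≤ A.card) (hB : 4 * k ^ 2 ≤ B.card) (Q : V → V → Prop)
    (hC : ∀ T U : Fin k → V, (∀ a, T a ∈ A) → (∀ b, U b ∈ B) → Good part mem join T U →
      ∃ a b, Q (T a) (U b)) :
    A.card * B.card ≤ 2 * k ^ 2 * ((A ×ˢ B).filter (fun p => Q p.1 p.2)).card := by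
  classical
  rcases Nat.eq_zero_or_pos A.card with hA0 | hA0
  · simp [hA0]
  rcases Nat.eq_zero_or_pos B.card with hB0 | hB0
  · simp [hB0]
  set P := ((A ×ˢ B).filter (fun p => Q p.1 p.2)).card with hP
  let S : Fin k ⊕ Fin k → Finset V := Sum.elim (fun _ => A) (fun _ => B)
  set Ω := Fintype.piFinset S with hΩ
  have hSl : ∀ a, S (Sum.inl a) = A := fun a => rfl
  have hSr : ∀ b, S (Sum.inr b) = B := fun b => rfl
  have hΩpos : 0 < Ω.card := by
    rw [hΩ, Fintype.card_piFinset]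
    refine Finset.prod_pos ?_
    rintro (a | b) _
    · exact hA0
    · exact hB0
  -- events
  let E1 : Fin k × Fin k → (Fin k ⊕ Fin k → V) → Prop :=
    fun p G => part (G (Sum.inl p.1)) = part (G (Sum.inr p.2))
  let E2 : Fin k × Fin k × Fin k → (Fin k ⊕ Fin k → V) → Prop :=
    fun p G => p.1 ≠ p.2.1 ∧ part (G (Sum.inl p.1)) ≠ part (G (Sum.inr p.2.2)) ∧
      mem (G (Sum.inl p.2.1)) (join (G (Sum.inl p.1)) (G (Sum.inr p.2.2)))
  let E3 : Fin k × Fin k → (Fin k ⊕ Fin k → V) → Prop :=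
    fun p G => p.1 ≠ p.2 ∧ G (Sum.inr p.1) = G (Sum.inr p.2)
  let E4 : Fin k × Fin k × Fin k → (Fin k ⊕ Fin k → V) → Prop :=
    fun p G => G (Sum.inr p.2.1) ≠ G (Sum.inr p.2.2) ∧
      ∃ l, mem (G (Sum.inr p.2.1)) l ∧ mem (G (Sum.inr p.2.2)) l ∧ mem (G (Sum.inl p.1)) l
  let E5 : (Fin k × Fin k) × (Fin k × Fin k) × (Fin k × Fin k) → (Fin k ⊕ Fin k → V) → Prop :=
    fun p G => p.2.2.1 ≠ p.1.1 ∧ p.2.2.1 ≠ p.2.1.1 ∧
      join (G (Sum.inl p.1.1)) (G (Sum.inr p.1.2)) ≠ join (G (Sum.inl p.2.1.1)) (G (Sum.inr p.2.1.2)) ∧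
      ∃ x l, mem x (join (G (Sum.inl p.1.1)) (G (Sum.inr p.1.2))) ∧
        mem x (join (G (Sum.inl p.2.1.1)) (G (Sum.inr p.2.1.2))) ∧
        x ≠ G (Sum.inr p.2.2.2) ∧ mem x l ∧ mem (G (Sum.inr p.2.2.2)) l ∧
        mem (G (Sum.inl p.2.2.1)) l
  have hmemB : ∀ G ∈ Ω, ∀ b, G (Sum.inr b) ∈ B := by
    intro G hG b
    have := (Fintype.mem_piFinset.1 hG) (Sum.inr b)
    simpa [S] using this
  have hmemA : ∀ G ∈ Ω, ∀ a, G (Sum.inl a) ∈ A := by
    intro G hG a
    have := (Fintype.mem_piFinset.1 hG) (Sum.inl a)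
    simpa [S] using this
  -- individual bounds
  have b1 : ∀ p, A.card * (Ω.filter (E1 p)).card ≤ N * Ω.card := by
    rintro ⟨a, b⟩
    have := cnt_le S (Sum.inl a) (E1 (a, b)) N ?_
    · exact this
    intro G hG
    refine le_trans (Finset.card_le_card ?_) (h1 (G (Sum.inr b)) (hmemB G hG b))
    intro t ht
    simp only [Finset.mem_filter, hSl] at ht ⊢
    refine ⟨ht.1, ?_⟩
    have := ht.2
    simpa [E1] using this
  have b2 : ∀ p, A.card * (Ω.filter (E2 p)).card ≤ N * Ω.card := by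
    rintro ⟨a, a', b⟩
    have := cnt_le S (Sum.inl a') (E2 (a, a', b)) N ?_
    · exact this
    intro G hG
    by_cases hq : a ≠ a' ∧ part (G (Sum.inl a)) ≠ part (G (Sum.inr b))
    · refine le_trans (Finset.card_le_card ?_)
        (h2 (join (G (Sum.inl a)) (G (Sum.inr b))) (G (Sum.inr b)) (hmemB G hG b)
          (ax.join_right hq.2))
      intro t ht
      simp only [Finset.mem_filter, hSl] at ht ⊢
      refine ⟨ht.1, ?_⟩
      have h := ht.2.2.2
      have hne : (Sum.inl a : Fin k ⊕ Fin k) ≠ Sum.inl a' := fun h => hq.1 (Sum.inl.inj h)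
      simpa [E2, Function.update_of_ne hne] using h
    · rw [Finset.filter_eq_empty_iff.2]
      · simp
      intro t _ ht
      apply hq
      have hne : (Sum.inl a : Fin k ⊕ Fin k) ≠ Sum.inl a' := fun h => ht.1 (Sum.inl.inj h)
      refine ⟨ht.1, ?_⟩
      have := ht.2.1
      simpa [Function.update_of_ne hne] using this
  have b3 : ∀ p, B.card * (Ω.filter (E3 p)).card ≤ 1 * Ω.card := by
    rintro ⟨b, b'⟩
    have := cnt_le S (Sum.inr b) (E3 (b, b')) 1 ?_
    · exact this
    intro G hG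
    by_cases hq : b ≠ b'
    · rw [Finset.card_le_one]
      intro s hs t ht
      simp only [Finset.mem_filter] at hs ht
      have hne : (Sum.inr b' : Fin k ⊕ Fin k) ≠ Sum.inr b := fun h => hq (Sum.inr.inj h).symm
      have h1 := hs.2.2
      have h2 := ht.2.2
      simp only [Function.update_self, Function.update_of_ne hne] at h1 h2
      rw [h1, h2]
    · rw [Finset.filter_eq_empty_iff.2]
      · simp
      intro t _ ht
      exact hq ht.1
  have b4 : ∀ p, A.card * (Ω.filter (E4 p)).card ≤ N * Ω.card := by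
    rintro ⟨a, b, b'⟩
    have := cnt_le S (Sum.inl a) (E4 (a, b, b')) N ?_
    · exact this
    intro G hG
    by_cases hq : G (Sum.inr b) ≠ G (Sum.inr b') ∧
        ∃ l, mem (G (Sum.inr b)) l ∧ mem (G (Sum.inr b')) l
    · obtain ⟨hne, l₀, hl1, hl2⟩ := hq
      refine le_trans (Finset.card_le_card ?_) (h2 l₀ (G (Sum.inr b)) (hmemB G hG b) hl1)
      intro t ht
      simp only [Finset.mem_filter, hSl] at ht ⊢
      refine ⟨ht.1, ?_⟩
      obtain ⟨_, l, m1, m2, m3⟩ := ht.2
      simp only [Function.update_self, ne_eq, reduceCtorEq, not_false_eq_true,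
        Function.update_of_ne] at m1 m2 m3
      have : l = l₀ := ax.meet m1 hl1 m2 hl2 hne
      rwa [this] at m3
    · rw [Finset.filter_eq_empty_iff.2]
      · simp
      intro t _ ht
      apply hq
      obtain ⟨hne, l, m1, m2, m3⟩ := ht
      simp only [Function.update_self, ne_eq, reduceCtorEq, not_false_eq_true,
        Function.update_of_ne] at hne m1 m2 m3
      exact ⟨hne, l, m1, m2⟩
  have b5 : ∀ p, A.card * (Ω.filter (E5 p)).card ≤ N * Ω.card := by
    rintro ⟨⟨a₁, b₁⟩, ⟨a₂, b₂⟩, ⟨a₃, b₃⟩⟩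
    have := cnt_le S (Sum.inl a₃) (E5 ((a₁, b₁), (a₂, b₂), (a₃, b₃))) N ?_
    · exact this
    intro G hG
    by_cases hq : a₃ ≠ a₁ ∧ a₃ ≠ a₂ ∧
      join (G (Sum.inl a₁)) (G (Sum.inr b₁)) ≠ join (G (Sum.inl a₂)) (G (Sum.inr b₂)) ∧
      ∃ x l, mem x (join (G (Sum.inl a₁)) (G (Sum.inr b₁))) ∧
        mem x (join (G (Sum.inl a₂)) (G (Sum.inr b₂))) ∧
        x ≠ G (Sum.inr b₃) ∧ mem x l ∧ mem (G (Sum.inr b₃)) l
    · obtain ⟨n1, n2, hne, x₀, l₀, m1, m2, m3, m4, m5⟩ := hq
      refine le_trans (Finset.card_le_card ?_) (h2 l₀ (G (Sum.inr b₃)) (hmemB G hG b₃) m5)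
      intro t ht
      simp only [Finset.mem_filter, hSl] at ht ⊢
      refine ⟨ht.1, ?_⟩
      obtain ⟨_, _, _, x, l, p1, p2, p3, p4, p5, p6⟩ := ht.2
      have e1 : (Sum.inl a₁ : Fin k ⊕ Fin k) ≠ Sum.inl a₃ := fun h => n1 (Sum.inl.inj h).symm
      have e2 : (Sum.inl a₂ : Fin k ⊕ Fin k) ≠ Sum.inl a₃ := fun h => n2 (Sum.inl.inj h).symm
      simp only [Function.update_self, ne_eq, reduceCtorEq, not_false_eq_true,
        Function.update_of_ne, e1, e2] at p1 p2 p3 p4 p5 p6
      have hx : x = x₀ := by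
        by_contra hxx
        exact hne (ax.meet p1 p2 m1 m2 hxx)
      subst hx
      have : l = l₀ := ax.meet p4 m4 p5 m5 m3
      rwa [this] at p6
    · rw [Finset.filter_eq_empty_iff.2]
      · simp
      intro t _ ht
      apply hq
      obtain ⟨n1, n2, hne, x, l, p1, p2, p3, p4, p5, p6⟩ := ht
      have e1 : (Sum.inl a₁ : Fin k ⊕ Fin k) ≠ Sum.inl a₃ := fun h => n1 (Sum.inl.inj h).symm
      have e2 : (Sum.inl a₂ : Fin k ⊕ Fin k) ≠ Sum.inl a₃ := fun h => n2 (Sum.inl.inj h).symm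
      simp only [Function.update_self, ne_eq, reduceCtorEq, not_false_eq_true,
        Function.update_of_ne, e1, e2] at hne p1 p2 p3 p4 p5 p6
      exact ⟨n1, n2, hne, x, l, p1, p2, p3, p4, p5⟩
  -- the bad set
  let GoodG : (Fin k ⊕ Fin k → V) → Prop :=
    fun G => Good part mem join (fun a => G (Sum.inl a)) (fun b => G (Sum.inr b))
  have hbad : Ω.filter (fun G => ¬ GoodG G) ⊆
      (Finset.univ.biUnion fun p => Ω.filter (E1 p)) ∪
      ((Finset.univ.biUnion fun p => Ω.filter (E2 p)) ∪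
      ((Finset.univ.biUnion fun p => Ω.filter (E3 p)) ∪
      ((Finset.univ.biUnion fun p => Ω.filter (E4 p)) ∪
      (Finset.univ.biUnion fun p => Ω.filter (E5 p))))) := by
    intro G hG
    rw [Finset.mem_filter] at hG
    obtain ⟨hGΩ, hng⟩ := hG
    simp only [Finset.mem_union, Finset.mem_biUnion, Finset.mem_univ, true_and,
      Finset.mem_filter]
    rcases not_good ax hng with h | h | h | h | h
    · obtain ⟨a, b, h⟩ := h
      exact Or.inl ⟨(a, b), hGΩ, h⟩
    · obtain ⟨a, a', b, h⟩ := h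
      exact Or.inr (Or.inl ⟨(a, a', b), hGΩ, h⟩)
    · obtain ⟨b, b', h⟩ := h
      exact Or.inr (Or.inr (Or.inl ⟨(b, b'), hGΩ, h⟩))
    · obtain ⟨a, b, b', h⟩ := h
      exact Or.inr (Or.inr (Or.inr (Or.inl ⟨(a, b, b'), hGΩ, h⟩)))
    · obtain ⟨a₁, b₁, a₂, b₂, a₃, b₃, h⟩ := h
      exact Or.inr (Or.inr (Or.inr (Or.inr ⟨((a₁, b₁), (a₂, b₂), (a₃, b₃)), hGΩ, h⟩)))
  have hcard : (Ω.filter (fun G => ¬ GoodG G)).card ≤
      (∑ p, (Ω.filter (E1 p)).card) + ((∑ p, (Ω.filter (E2 p)).card) +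
      ((∑ p, (Ω.filter (E3 p)).card) + ((∑ p, (Ω.filter (E4 p)).card) +
      (∑ p, (Ω.filter (E5 p)).card)))) := by
    refine le_trans (Finset.card_le_card hbad) ?_
    refine le_trans (Finset.card_union_le _ _) (Nat.add_le_add Finset.card_biUnion_le ?_)
    refine le_trans (Finset.card_union_le _ _) (Nat.add_le_add Finset.card_biUnion_le ?_)
    refine le_trans (Finset.card_union_le _ _) (Nat.add_le_add Finset.card_biUnion_le ?_)
    exact le_trans (Finset.card_union_le _ _)
      (Nat.add_le_add Finset.card_biUnion_le Finset.card_biUnion_le)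
  have s1 : A.card * (∑ p, (Ω.filter (E1 p)).card) ≤ k ^ 2 * (N * Ω.card) := by
    rw [Finset.mul_sum]
    refine le_trans (Finset.sum_le_sum fun p _ => b1 p) ?_
    simp [pow_two]
  have s2 : A.card * (∑ p, (Ω.filter (E2 p)).card) ≤ k ^ 3 * (N * Ω.card) := by
    rw [Finset.mul_sum]
    refine le_trans (Finset.sum_le_sum fun p _ => b2 p) ?_
    simp [pow_succ, mul_assoc]
  have s3 : B.card * (∑ p, (Ω.filter (E3 p)).card) ≤ k ^ 2 * (1 * Ω.card) := by
    rw [Finset.mul_sum]
    refine le_trans (Finset.sum_le_sum fun p _ => b3 p) ?_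
    simp [pow_two]
  have s4 : A.card * (∑ p, (Ω.filter (E4 p)).card) ≤ k ^ 3 * (N * Ω.card) := by
    rw [Finset.mul_sum]
    refine le_trans (Finset.sum_le_sum fun p _ => b4 p) ?_
    simp [pow_succ, mul_assoc]
  have s5 : A.card * (∑ p, (Ω.filter (E5 p)).card) ≤ k ^ 6 * (N * Ω.card) := by
    rw [Finset.mul_sum]
    refine le_trans (Finset.sum_le_sum fun p _ => b5 p) ?_
    simp [pow_succ, mul_assoc]
  -- assemble: bad ≤ Ω/2
  set e1 := ∑ p, (Ω.filter (E1 p)).card
  set e2 := ∑ p, (Ω.filter (E2 p)).card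
  set e3 := ∑ p, (Ω.filter (E3 p)).card
  set e4 := ∑ p, (Ω.filter (E4 p)).card
  set e5 := ∑ p, (Ω.filter (E5 p)).card
  have hk2 : k ^ 2 ≤ k ^ 6 := Nat.pow_le_pow_right hk (by norm_num)
  have hk3 : k ^ 3 ≤ k ^ 6 := Nat.pow_le_pow_right hk (by norm_num)
  have hsumA : 4 * (e1 + e2 + e4 + e5) ≤ Ω.card := by
    have : A.card * (4 * (e1 + e2 + e4 + e5)) ≤ A.card * Ω.card := by
      calc A.card * (4 * (e1 + e2 + e4 + e5))
          = 4 * (A.card * e1 + A.card * e2 + A.card * e4 + A.card * e5) := by ring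
        _ ≤ 4 * (k ^ 2 * (N * Ω.card) + k ^ 3 * (N * Ω.card) + k ^ 3 * (N * Ω.card)
              + k ^ 6 * (N * Ω.card)) := by gcongr
        _ ≤ 4 * (k ^ 6 * (N * Ω.card) + k ^ 6 * (N * Ω.card) + k ^ 6 * (N * Ω.card)
              + k ^ 6 * (N * Ω.card)) := by gcongr
        _ = (16 * k ^ 6 * N) * Ω.card := by ring
        _ ≤ A.card * Ω.card := by gcongr
    exact Nat.le_of_mul_le_mul_left this hA0
  have hsumB : 4 * e3 ≤ Ω.card := by
    have : B.card * (4 * e3) ≤ B.card * Ω.card := by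
      calc B.card * (4 * e3) = 4 * (B.card * e3) := by ring
        _ ≤ 4 * (k ^ 2 * (1 * Ω.card)) := by gcongr
        _ = (4 * k ^ 2) * Ω.card := by ring
        _ ≤ B.card * Ω.card := by gcongr
    exact Nat.le_of_mul_le_mul_left this hB0
  have hbadle : 2 * (Ω.filter (fun G => ¬ GoodG G)).card ≤ Ω.card := by omega
  have hsplit : (Ω.filter GoodG).card + (Ω.filter (fun G => ¬ GoodG G)).card = Ω.card :=
    Finset.card_filter_add_card_filter_not _
  have hgood : Ω.card ≤ 2 * (Ω.filter GoodG).card := by omega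
  -- each good grid has a cell satisfying Q
  have hsub : Ω.filter GoodG ⊆ Finset.univ.biUnion (fun p : Fin k × Fin k =>
      Ω.filter (fun G => Q (G (Sum.inl p.1)) (G (Sum.inr p.2)))) := by
    intro G hG
    rw [Finset.mem_filter] at hG
    obtain ⟨a, b, hab⟩ := hC (fun a => G (Sum.inl a)) (fun b => G (Sum.inr b))
      (fun a => hmemA G hG.1 a) (fun b => hmemB G hG.1 b) hG.2
    simp only [Finset.mem_biUnion, Finset.mem_univ, true_and, Finset.mem_filter]
    exact ⟨(a, b), hG.1, hab⟩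
  have hcell : ∀ p : Fin k × Fin k, A.card * (B.card *
      (Ω.filter (fun G => Q (G (Sum.inl p.1)) (G (Sum.inr p.2)))).card) = P * Ω.card := by
    rintro ⟨a, b⟩
    have := cnt_two S (Sum.inl a) (Sum.inr b) (by simp) Q
    exact this
  have hfin : A.card * B.card * Ω.card ≤ 2 * k ^ 2 * P * Ω.card := by
    calc A.card * B.card * Ω.card ≤ A.card * B.card * (2 * (Ω.filter GoodG).card) := by gcongr
      _ ≤ A.card * B.card * (2 * ∑ p : Fin k × Fin k,
          (Ω.filter (fun G => Q (G (Sum.inl p.1)) (G (Sum.inr p.2)))).card) := by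
          gcongr
          exact le_trans (Finset.card_le_card hsub) Finset.card_biUnion_le
      _ = 2 * ∑ p : Fin k × Fin k, A.card * (B.card *
          (Ω.filter (fun G => Q (G (Sum.inl p.1)) (G (Sum.inr p.2)))).card) := by
          simp only [Finset.mul_sum]
          refine Finset.sum_congr rfl fun p _ => ?_
          ring
      _ = 2 * ∑ _p : Fin k × Fin k, P * Ω.card := by
          rw [Finset.sum_congr rfl fun p _ => hcell p]
      _ = 2 * k ^ 2 * P * Ω.card := by
          simp [pow_two]; ring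
  exact Nat.le_of_mul_le_mul_right hfin hΩpos

end Pairs

end Crest.Agent.R034.Samp
end

-- ▼ part R034/Stab

/-!
# Module M3: stability (`SpecBKT → SpecStab`)
-/

set_option autoImplicit false

namespace Crest.Agent.R034

namespace Stab

open Finset

variable {F : Type} [Field F]

/-! ## plane lemmas -/

theorem on_meet {x y : Pt F} {l l' : Ln F} (h1 : On x l) (h2 : On x l') (h3 : On y l)
    (h4 : On y l') (hxy : x ≠ y) : l = l' := by
  obtain ⟨i, a⟩ := x
  obtain ⟨j, b⟩ := y
  obtain ⟨m, c⟩ := l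
  obtain ⟨m', c'⟩ := l'
  unfold On at h1 h2 h3 h4
  simp only at h1 h2 h3 h4
  rcases i with _ | x₁ <;> rcases j with _ | x₂
  · exfalso; apply hxy
    simp only [val] at h1 h3
    rw [← h1, ← h3]
  · simp only [val] at h1 h2 h3 h4
    have hm : m = m' := by rw [h1, h2]
    subst hm
    have : c = c' := by
      have := h3.trans h4.symm
      exact add_left_cancel this
    rw [this]
  · simp only [val] at h1 h2 h3 h4
    have hm : m = m' := by rw [h3, h4]
    subst hm
    have : c = c' := by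
      have := h1.trans h2.symm
      exact add_left_cancel this
    rw [this]
  · simp only [val] at h1 h2 h3 h4
    have hx : x₁ ≠ x₂ := by
      rintro rfl
      apply hxy
      rw [← h1, ← h3]
    have e1 : (m - m') * (x₁ - x₂) = 0 := by
      linear_combination h1 - h2 - h3 + h4
    have hm : m = m' := by
      rcases mul_eq_zero.1 e1 with h | h
      · exact sub_eq_zero.1 h
      · exact absurd (sub_eq_zero.1 h) hx
    subst hm
    have : c = c' := by
      have := h1.trans h2.symm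
      exact add_left_cancel this
    rw [this]

theorem on_part {x y : Pt F} {l : Ln F} (h1 : On x l) (h2 : On y l) (h : x.1 = y.1) : x = y := by
  unfold On at h1 h2
  refine Prod.ext h ?_
  rw [← h1, ← h2, h]

theorem on_thru_left {x y : Pt F} (h : x.1 ≠ y.1) : On x (thru x y) := by
  obtain ⟨i, a⟩ := x
  obtain ⟨j, b⟩ := y
  rcases i with _ | x₁ <;> rcases j with _ | x₂
  · exact absurd rfl h
  · simp [On, thru, val]
  · simp [On, thru, val]
  · simp [On, thru, val]

theorem on_thru_right {x y : Pt F} (h : x.1 ≠ y.1) : On y (thru x y) := by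
  obtain ⟨i, a⟩ := x
  obtain ⟨j, b⟩ := y
  rcases i with _ | x₁ <;> rcases j with _ | x₂
  · exact absurd rfl h
  · simp [On, thru, val]
  · simp [On, thru, val]
  · have hx : x₂ - x₁ ≠ 0 := by
      intro h0
      apply h
      simp only
      rw [sub_eq_zero.1 h0]
    simp only [On, thru, val]
    field_simp
    ring

theorem ax : Samp.Ax (fun z : Pt F => z.1) (fun z l => On z l) (thru : Pt F → Pt F → Ln F) where
  meet := fun h1 h2 h3 h4 h5 => on_meet h1 h2 h3 h4 h5
  part_inj := fun h1 h2 h3 => on_part h1 h2 h3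
  join_left := fun h => on_thru_left h
  join_right := fun h => on_thru_right h


/-- a *block*: a line or a position -/
structure Block (m : Pt F → Prop) : Prop where
  line : ∀ l : Ln F, (∃ u, On u l ∧ ¬ m u) → ∀ t t', m t → m t' → On t l → On t' l → t = t'
  pos : ∀ u, ¬ m u → ∀ t t', m t → m t' → t.1 = u.1 → t'.1 = u.1 → t = t'
  uniq : ∀ l l' : Ln F, (∀ u, On u l → m u) → (∀ u, On u l' → m u) → l = l'

theorem block_line (l₀ : Ln F) : Block (fun z => On z l₀) where
  line := by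
    rintro l ⟨u, hu, hu'⟩ t t' ht ht' h1 h2
    by_contra hne
    have := on_meet h1 ht h2 ht' hne
    rw [this] at hu
    exact hu' hu
  pos := by
    intro u _ t t' ht ht' h1 h2
    exact on_part ht ht' (h1.trans h2.symm)
  uniq := by
    intro l l' h h'
    have key : ∀ l : Ln F, (∀ u, On u l → On u l₀) → l = l₀ := by
      intro l h
      have h0 : On ((none : Option F), val l none) l := rfl
      have h1 : On (some (0 : F), val l (some 0)) l := rfl
      exact on_meet h0 (h _ h0) h1 (h _ h1) (by simp)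
    rw [key l h, key l' h']

theorem block_pos (i : Option F) : Block (fun z : Pt F => z.1 = i) where
  line := by
    rintro l _ t t' ht ht' h1 h2
    exact on_part h1 h2 (ht.trans ht'.symm)
  pos := by
    intro u hu t t' ht _ h1 _
    exact absurd (h1.symm.trans ht) hu
  uniq := by
    intro l l' h _
    exfalso
    have h0 := h ((none : Option F), val l none) rfl
    have h1 := h (some (0 : F), val l (some 0)) rfl
    simp only at h0 h1
    rw [← h0] at h1
    exact absurd h1 (by simp)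

/-! ## counting -/

variable [Fintype F] [DecidableEq F]

/-- lines avoiding `Kset R` -/
def LL (R : RR F) : Finset (Ln F) := univ.filter (fun l => Avoids (Kset R) l)

theorem mem_LL {R : RR F} {l : Ln F} : l ∈ LL R ↔ Avoids (Kset R) l := by simp [LL]

/-- number of points of `S` on `l` -/
def nn (S : Finset (Pt F)) (l : Ln F) : ℕ := (S.filter (fun z => On z l)).card


theorem N0_eq {R : RR F} {z : Pt F} (hz : z ∉ Kset R) :
    N0 R z = ((LL R).filter (fun l => On z l)).card := by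
  unfold N0 LL
  rw [Finset.filter_filter]
  congr 1
  ext l
  simp only [Finset.mem_filter, Finset.mem_univ, true_and]
  constructor
  · rintro ⟨h1, h2⟩
    refine ⟨?_, h1⟩
    intro i
    by_cases hi : i = z.1
    · subst hi
      have : (z.1, val l z.1) = z := Prod.ext rfl h1
      rw [this]; exact hz
    · exact h2 i hi
  · rintro ⟨h1, h2⟩
    exact ⟨h2, fun i _ => h1 i⟩

omit [Field F] in
/-- points of `Kset R` in one position -/
theorem card_K_pos (R : RR F) (i : Option F) :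
    (univ.filter (fun y : F => (i, y) ∈ Kset R)).card ≤ kap := by
  classical
  have : univ.filter (fun y : F => (i, y) ∈ Kset R) ⊆ univ.image (R i) := by
    intro y hy
    simp only [Kset, Finset.mem_filter, Finset.mem_univ, true_and] at hy
    obtain ⟨r, hr⟩ := hy
    simp only [Finset.mem_image, Finset.mem_univ, true_and]
    exact ⟨r, hr⟩
  refine le_trans (Finset.card_le_card this) (le_trans Finset.card_image_le ?_)
  simp

theorem card_LL_eq (R : RR F) (i : Option F) :
    (LL R).card = ∑ y : F, ((LL R).filter (fun l => On (i, y) l)).card := by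
  rw [Finset.card_eq_sum_card_fiberwise (f := fun l => val l i) (t := univ)
    (fun _ _ => by simp)]
  rfl

theorem card_LL_ge (R : RR F) (D Δ : ℝ) (hD : Δ ≤ D)
    (hR : ∀ z : Pt F, |(N0 R z : ℝ) - D| ≤ Δ) :
    ((ord F : ℝ) - kap) * (D - Δ) ≤ ((LL R).card : ℝ) := by
  classical
  rw [card_LL_eq R none]
  push_cast
  set P := univ.filter (fun y : F => ((none : Option F), y) ∉ Kset R) with hP
  have h1 : ((ord F : ℝ) - kap) ≤ (P.card : ℝ) := by
    have h2 := card_K_pos R (none : Option F)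
    have h3 : (univ.filter (fun y : F => ((none : Option F), y) ∈ Kset R)).card + P.card
        = (univ : Finset F).card := by
      rw [hP]
      exact Finset.card_filter_add_card_filter_not _
    have h4 : (univ : Finset F).card = ord F := rfl
    rw [h4] at h3
    have : (ord F : ℝ) = ((univ.filter (fun y : F => ((none : Option F), y) ∈ Kset R)).card : ℝ)
        + P.card := by exact_mod_cast h3.symm
    have h5 : (((univ.filter (fun y : F => ((none : Option F), y) ∈ Kset R)).card : ℕ) : ℝ)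
        ≤ (kap : ℝ) := by exact_mod_cast h2
    linarith
  calc ((ord F : ℝ) - kap) * (D - Δ) ≤ (P.card : ℝ) * (D - Δ) := by
        apply mul_le_mul_of_nonneg_right h1; linarith
    _ = ∑ _y ∈ P, (D - Δ) := by rw [Finset.sum_const, nsmul_eq_mul]
    _ ≤ ∑ y ∈ P, (((LL R).filter (fun l => On ((none : Option F), y) l)).card : ℝ) := by
        apply Finset.sum_le_sum
        intro y hy
        have hy' : ((none : Option F), y) ∉ Kset R := by
          have := hy
          simp only [hP, Finset.mem_filter, Finset.mem_univ, true_and] at this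
          exact this
        rw [← N0_eq hy']
        have := (abs_le.1 (hR ((none : Option F), y))).1
        linarith
    _ ≤ ∑ y : F, (((LL R).filter (fun l => On ((none : Option F), y) l)).card : ℝ) := by
        apply Finset.sum_le_sum_of_subset_of_nonneg (Finset.subset_univ _)
        intros; positivity

theorem sum_nn (R : RR F) (S : Finset (Pt F)) (hS : ∀ z ∈ S, z ∉ Kset R) :
    ∑ l ∈ LL R, nn S l = ∑ z ∈ S, N0 R z := by
  have := Finset.sum_card_bipartiteAbove_eq_sum_card_bipartiteBelow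
    (s := S) (t := LL R) (fun z l => On z l)
  unfold Finset.bipartiteAbove Finset.bipartiteBelow at this
  rw [Finset.sum_congr rfl fun z hz => N0_eq (hS z hz), this]
  rfl

/-- the excess -/
def EE (R : RR F) (S : Finset (Pt F)) : ℕ := ∑ l ∈ LL R, (nn S l - 1)

theorem EE_le (R : RR F) (S : Finset (Pt F)) (hS : ∀ z ∈ S, z ∉ Kset R)
    (hcov : ∀ l ∈ LL R, 1 ≤ nn S l) (hcard : S.card ≤ ord F) (D Δ : ℝ) (hD : Δ ≤ D)
    (hD0 : 0 ≤ D) (hΔ : 0 ≤ Δ) (hDq : D ≤ ord F) (hΔk : (kap : ℝ) ≤ Δ)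
    (hR : ∀ z : Pt F, |(N0 R z : ℝ) - D| ≤ Δ) :
    (EE R S : ℝ) ≤ 3 * (ord F * Δ) := by
  have h1 : (EE R S : ℝ) = (∑ l ∈ LL R, (nn S l : ℝ)) - ((LL R).card : ℝ) := by
    unfold EE
    push_cast
    rw [Finset.sum_congr rfl (g := fun l => ((nn S l : ℝ) - 1))]
    · simp [Finset.sum_sub_distrib]
    · intro l hl
      rw [Nat.cast_sub (hcov l hl)]; simp
  have h2 : (∑ l ∈ LL R, (nn S l : ℝ)) = ∑ z ∈ S, (N0 R z : ℝ) := by
    exact_mod_cast sum_nn R S hS
  have h3 : ∑ z ∈ S, (N0 R z : ℝ) ≤ (ord F : ℝ) * (D + Δ) := by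
    calc ∑ z ∈ S, (N0 R z : ℝ) ≤ ∑ _z ∈ S, (D + Δ) := by
          apply Finset.sum_le_sum
          intro z _
          have := (abs_le.1 (hR z)).2
          linarith
      _ = (S.card : ℝ) * (D + Δ) := by rw [Finset.sum_const, nsmul_eq_mul]
      _ ≤ (ord F : ℝ) * (D + Δ) := by
          apply mul_le_mul_of_nonneg_right
          · exact_mod_cast hcard
          · linarith
  have h4 := card_LL_ge R D Δ hD hR
  rw [h1, h2]
  have hk : (0:ℝ) ≤ kap := by positivity
  nlinarith [mul_nonneg hk hΔ, mul_nonneg hk hD0, mul_le_mul_of_nonneg_left hDq hk,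
    mul_le_mul_of_nonneg_left hΔk (show (0:ℝ) ≤ ord F by positivity)]

/-- LL-pairs between `S ∩ m` and `S \ m` -/
theorem cross_le (R : RR F) (S : Finset (Pt F)) {m : Pt F → Prop} [DecidablePred m]
    (hm : Block m) :
    (((S.filter m) ×ˢ (S.filter (fun z => ¬ m z))).filter
      (fun p => p.1.1 ≠ p.2.1 ∧ Avoids (Kset R) (thru p.1 p.2))).card ≤ EE R S := by
  classical
  set Q := (((S.filter m) ×ˢ (S.filter (fun z => ¬ m z))).filter
      (fun p => p.1.1 ≠ p.2.1 ∧ Avoids (Kset R) (thru p.1 p.2))) with hQ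
  have hmaps : ∀ p ∈ Q, thru p.1 p.2 ∈ LL R := by
    intro p hp
    rw [hQ, Finset.mem_filter] at hp
    exact mem_LL.2 hp.2.2
  rw [Finset.card_eq_sum_card_fiberwise hmaps]
  unfold EE
  apply Finset.sum_le_sum
  intro l hl
  rcases Finset.eq_empty_or_nonempty (Q.filter (fun p => thru p.1 p.2 = l)) with he | ⟨⟨u₀, v₀⟩, hne⟩
  · rw [he]; simp
  · simp only [hQ, Finset.mem_filter, Finset.mem_product] at hne
    obtain ⟨⟨⟨⟨hu0S, hu0m⟩, hv0S, hv0m⟩, hpos0, _⟩, hthru0⟩ := hne
    have hu0l : On u₀ l := hthru0 ▸ on_thru_left hpos0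
    have hv0l : On v₀ l := hthru0 ▸ on_thru_right hpos0
    have hsub : ∀ p ∈ Q.filter (fun p => thru p.1 p.2 = l),
        p.2 ∈ (S.filter (fun z => On z l)).erase u₀ ∧ p.1 = u₀ := by
      rintro ⟨u, v⟩ hp
      simp only [hQ, Finset.mem_filter, Finset.mem_product] at hp
      obtain ⟨⟨⟨⟨huS, hum⟩, hvS, hvm⟩, hpos, _⟩, hthru⟩ := hp
      have hul : On u l := hthru ▸ on_thru_left hpos
      have hvl : On v l := hthru ▸ on_thru_right hpos
      have hu : u = u₀ := hm.line l ⟨v, hvl, hvm⟩ u u₀ hum hu0m hul hu0l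
      refine ⟨?_, hu⟩
      rw [Finset.mem_erase, Finset.mem_filter]
      refine ⟨?_, hvS, hvl⟩
      rintro rfl
      exact hvm hu0m
    have hcard : (Q.filter (fun p => thru p.1 p.2 = l)).card
        ≤ ((S.filter (fun z => On z l)).erase u₀).card := by
      apply Finset.card_le_card_of_injOn (fun p => p.2)
      · intro p hp
        exact (hsub p hp).1
      · intro p hp p' hp' h
        exact Prod.ext ((hsub p hp).2.trans (hsub p' hp').2.symm) h
    refine le_trans hcard ?_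
    rw [Finset.card_erase_of_mem]
    · rfl
    · rw [Finset.mem_filter]; exact ⟨hu0S, hu0l⟩

/-- poor LL-pairs -/
theorem poor_le (R : RR F) (S : Finset (Pt F)) (r : ℝ) (hr : 0 ≤ r) :
    (((S ×ˢ S).filter (fun p => p.1.1 ≠ p.2.1 ∧ Avoids (Kset R) (thru p.1 p.2) ∧
      (nn S (thru p.1 p.2) : ℝ) < r)).card : ℝ) ≤ r * EE R S := by
  classical
  set Q := ((S ×ˢ S).filter (fun p => p.1.1 ≠ p.2.1 ∧ Avoids (Kset R) (thru p.1 p.2) ∧
      (nn S (thru p.1 p.2) : ℝ) < r)) with hQ
  have hmaps : ∀ p ∈ Q, thru p.1 p.2 ∈ LL R := by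
    intro p hp
    rw [hQ, Finset.mem_filter] at hp
    exact mem_LL.2 hp.2.2.1
  rw [Finset.card_eq_sum_card_fiberwise hmaps]
  unfold EE
  push_cast
  rw [Finset.mul_sum]
  apply Finset.sum_le_sum
  intro l hl
  rcases Finset.eq_empty_or_nonempty (Q.filter (fun p => thru p.1 p.2 = l)) with he | ⟨⟨u₀, v₀⟩, hne⟩
  · rw [he]; simp; positivity
  · simp only [hQ, Finset.mem_filter, Finset.mem_product] at hne
    obtain ⟨⟨_, hpos0, _, hlt⟩, hthru0⟩ := hne
    rw [hthru0] at hlt
    have hsub : (Q.filter (fun p => thru p.1 p.2 = l)) ⊆ (S.filter (fun z => On z l)).offDiag := by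
      rintro ⟨u, v⟩ hp
      simp only [hQ, Finset.mem_filter, Finset.mem_product] at hp
      obtain ⟨⟨⟨huS, hvS⟩, hpos, _⟩, hthru⟩ := hp
      have hul : On u l := hthru ▸ on_thru_left hpos
      have hvl : On v l := hthru ▸ on_thru_right hpos
      rw [Finset.mem_offDiag, Finset.mem_filter, Finset.mem_filter]
      exact ⟨⟨huS, hul⟩, ⟨hvS, hvl⟩, fun h => hpos (congrArg Prod.fst h)⟩
    have h1 : (Q.filter (fun p => thru p.1 p.2 = l)).card ≤ nn S l * (nn S l - 1) := by
      refine le_trans (Finset.card_le_card hsub) ?_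
      rw [Finset.offDiag_card]
      unfold nn
      rw [Nat.mul_sub, Nat.mul_one]
    calc ((Q.filter (fun p => thru p.1 p.2 = l)).card : ℝ)
        ≤ ((nn S l * (nn S l - 1) : ℕ) : ℝ) := by exact_mod_cast h1
      _ = (nn S l : ℝ) * ((nn S l - 1 : ℕ) : ℝ) := by push_cast; ring
      _ ≤ r * ((nn S l - 1 : ℕ) : ℝ) := by
          apply mul_le_mul_of_nonneg_right hlt.le; positivity

/-! ## blocks -/

theorem full_of_small (R : RR F) (K T : Finset (Pt F)) (hK : K ⊆ Kset R)
    (hT : ∀ l, Avoids K l → ∃ j, (j, val l j) ∈ T) {m : Pt F → Prop} [DecidablePred m]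
    (hm : Block m) (D Δ : ℝ) (hR : ∀ z : Pt F, |(N0 R z : ℝ) - D| ≤ Δ)
    (hB : ((((T \ Kset R).filter (fun z => ¬ m z)).card : ℝ)) + 1 < D - Δ) :
    ∀ z, m z → z ∉ K → z ∈ T := by
  classical
  intro z hmz hzK
  by_contra hzT
  set B := (T \ Kset R).filter (fun z => ¬ m z) with hBdef
  set Lz := univ.filter (fun l : Ln F => On z l ∧ AvoidsOff (Kset R) z l) with hLz
  have hsplit : (Lz.filter (fun l => ∀ u, On u l → m u)).card +
      (Lz.filter (fun l => ¬ ∀ u, On u l → m u)).card = Lz.card :=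
    Finset.card_filter_add_card_filter_not _
  have h1 : (Lz.filter (fun l => ∀ u, On u l → m u)).card ≤ 1 := by
    rw [Finset.card_le_one]
    intro l hl l' hl'
    exact hm.uniq l l' (Finset.mem_filter.1 hl).2 (Finset.mem_filter.1 hl').2
  -- the second part injects into `B`
  have hex : ∀ l ∈ Lz.filter (fun l => ¬ ∀ u, On u l → m u),
      ∃ w, w ∈ B ∧ On w l ∧ w ≠ z := by
    intro l hl
    simp only [hLz, Finset.mem_filter, Finset.mem_univ, true_and] at hl
    obtain ⟨⟨hzl, hoff⟩, hnall⟩ := hl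
    push Not at hnall
    have hav : Avoids K l := by
      intro i hi
      by_cases hiz : i = z.1
      · subst hiz
        have : (z.1, val l z.1) = z := Prod.ext rfl hzl
        rw [this] at hi
        exact hzK hi
      · exact hoff i hiz (hK hi)
    obtain ⟨j, hj⟩ := hT l hav
    have hwl : On (j, val l j) l := rfl
    have hwz : (j, val l j) ≠ z := by
      intro h; rw [h] at hj; exact hzT hj
    have hjz : j ≠ z.1 := by
      intro h
      exact hwz (on_part hwl hzl h)
    refine ⟨(j, val l j), ?_, hwl, hwz⟩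
    rw [hBdef, Finset.mem_filter, Finset.mem_sdiff]
    refine ⟨⟨hj, hoff j hjz⟩, ?_⟩
    intro hmw
    exact hwz (hm.line l hnall _ _ hmw hmz hwl hzl)
  have h2 : (Lz.filter (fun l => ¬ ∀ u, On u l → m u)).card ≤ B.card := by
    choose! f hf1 hf2 hf3 using hex
    apply Finset.card_le_card_of_injOn f
    · intro l hl; exact hf1 l hl
    · intro l hl l' hl' h
      have hzl : On z l := by
        have := (Finset.mem_filter.1 hl).1
        rw [hLz, Finset.mem_filter] at this
        exact this.2.1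
      have hzl' : On z l' := by
        have := (Finset.mem_filter.1 hl').1
        rw [hLz, Finset.mem_filter] at this
        exact this.2.1
      refine on_meet (hf2 l hl) ?_ hzl hzl' (hf3 l hl)
      rw [h]; exact hf2 l' hl'
  have h3 : Lz.card ≤ B.card + 1 := by omega
  have h4 : N0 R z = Lz.card := rfl
  have h5 := (abs_le.1 (hR z)).1
  have h6 : (N0 R z : ℝ) ≤ (B.card : ℝ) + 1 := by
    rw [h4]; exact_mod_cast h3
  linarith

omit [Fintype F] in
theorem grid_of_good {k : ℕ} {T W : Fin k → Pt F}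
    (h : Samp.Good (fun z : Pt F => z.1) (fun z l => On z l) (thru : Pt F → Pt F → Ln F) T W) :
    Grid k T W where
  pos := h.part_ne
  inj := h.inj
  two := by
    intro z h1 h2
    by_contra hcon
    push Not at hcon
    obtain ⟨⟨a₁, b₁⟩, ⟨a₂, b₂⟩, ⟨a₃, b₃⟩, m1, m2, m3, h12, h13, h23⟩ :=
      Finset.two_lt_card_iff.1 hcon
    simp only [Finset.mem_filter, Finset.mem_univ, true_and] at m1 m2 m3
    exact h.three z (fun a h => h1 a h.symm) (fun b h => h2 b h.symm)
      a₁ b₁ a₂ b₂ a₃ b₃ h12 h13 h23 m1 m2 m3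

theorem pairs_ge' (R : RR F) (k : ℕ) (hk : 0 < k) (h3 : R3 R k) (A B : Finset (Pt F)) (N : ℕ)
    (hAK : ∀ z ∈ A, z ∉ Kset R) (hBK : ∀ z ∈ B, z ∉ Kset R)
    (h1 : ∀ u ∈ B, (A.filter (fun t => t.1 = u.1)).card ≤ N)
    (h2 : ∀ l u, u ∈ B → On u l → (A.filter (fun t => On t l)).card ≤ N)
    (hA : 16 * k ^ 6 * N ≤ A.card) (hB : 4 * k ^ 2 ≤ B.card) :
    A.card * B.card ≤ 2 * k ^ 2 * ((A ×ˢ B).filter
      (fun p => p.1.1 ≠ p.2.1 ∧ Avoids (Kset R) (thru p.1 p.2))).card := by
  have := Samp.pairs_ge (ax (F := F)) A B N k hk (by intro u hu; convert h1 u hu)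
    (by intro l u hu hl; convert h2 l u hu hl) hA hB
    (fun u v => u.1 ≠ v.1 ∧ Avoids (Kset R) (thru u v))
    (by
      intro T U hT hU hg
      obtain ⟨a, b, hab⟩ := h3 T U (grid_of_good hg) (fun a => hAK _ (hT a)) (fun b => hBK _ (hU b))
      exact ⟨a, b, hg.part_ne a b, hab⟩)
  convert this

theorem block_pairs (R : RR F) (k : ℕ) (hk : 0 < k) (h3 : R3 R k) (S : Finset (Pt F))
    (hS : ∀ z ∈ S, z ∉ Kset R) {m : Pt F → Prop} [DecidablePred m] (hm : Block m)
    (hA : 16 * k ^ 6 ≤ (S.filter m).card) (hB : 4 * k ^ 2 ≤ (S.filter (fun z => ¬ m z)).card) :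
    (S.filter m).card * (S.filter (fun z => ¬ m z)).card ≤ 2 * k ^ 2 * EE R S := by
  have := pairs_ge' R k hk h3 (S.filter m) (S.filter (fun z => ¬ m z)) 1
    (fun z hz => hS z (Finset.mem_filter.1 hz).1) (fun z hz => hS z (Finset.mem_filter.1 hz).1)
    (by
      intro u hu
      rw [Finset.card_le_one]
      intro t ht t' ht'
      simp only [Finset.mem_filter] at ht ht' hu
      exact hm.pos u hu.2 t t' ht.1.2 ht'.1.2 ht.2 ht'.2)
    (by
      intro l u hu hl
      rw [Finset.card_le_one]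
      intro t ht t' ht'
      simp only [Finset.mem_filter] at ht ht' hu
      exact hm.line l ⟨u, hl, hu.2⟩ t t' ht.1.2 ht'.1.2 ht.2 ht'.2)
    (by simpa using hA) hB
  refine le_trans this (Nat.mul_le_mul_left _ (cross_le R S hm))

/-! ## the constant -/

theorem D0_ge {q : ℕ} (hq : 2 ≤ q) : Real.exp (-2000) * q ≤ D0 q := by
  unfold D0
  have hq0 : (0:ℝ) < q := by positivity
  have hq2 : (2:ℝ) ≤ q := by exact_mod_cast hq
  have hx : 1 / (q:ℝ) ≤ 1 / 2 := one_div_le_one_div_of_le (by norm_num) hq2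
  have hx0 : 0 < 1 / (q:ℝ) := by positivity
  have h1 : Real.exp (-2 * (1 / (q:ℝ))) ≤ 1 - 1 / (q:ℝ) := by
    have h2 : 1 + 2 * (1 / (q:ℝ)) ≤ Real.exp (2 * (1 / (q:ℝ))) := by
      have := Real.add_one_le_exp (2 * (1 / (q:ℝ))); linarith
    have h3 : Real.exp (-2 * (1 / (q:ℝ))) = (Real.exp (2 * (1 / (q:ℝ))))⁻¹ := by
      rw [← Real.exp_neg]; ring_nf
    rw [h3, inv_le_comm₀ (Real.exp_pos _) (by linarith)]
    refine le_trans ?_ h2
    rw [inv_le_comm₀ (by linarith) (by positivity), ← one_div, div_le_iff₀ (by positivity)]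
    nlinarith
  have h4 : (Real.exp (-2 * (1 / (q:ℝ)))) ^ (kap * q) ≤ (1 - 1 / (q:ℝ)) ^ (kap * q) :=
    pow_le_pow_left₀ (Real.exp_pos _).le h1 _
  have h5 : (Real.exp (-2 * (1 / (q:ℝ)))) ^ (kap * q) = Real.exp (-2000) := by
    rw [← Real.exp_nat_mul]
    congr 1
    push_cast
    field_simp
    norm_num
  rw [h5] at h4
  rw [mul_comm]
  exact mul_le_mul_of_nonneg_left h4 hq0.le

theorem D0_le {q : ℕ} (hq : 1 ≤ q) : D0 q ≤ q := by
  unfold D0
  have hq0 : (0:ℝ) < q := by positivity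
  have hq1 : (1:ℝ) ≤ q := by exact_mod_cast hq
  have h1 : (1 - 1 / (q:ℝ)) ^ (kap * q) ≤ 1 := by
    apply pow_le_one₀
    · rw [sub_nonneg, div_le_one hq0]; exact hq1
    · linarith [show 0 < 1 / (q:ℝ) by positivity]
  nlinarith

/-! ## the stability theorem -/

theorem root_lt {a k q N : ℕ} (h0 : (a + 1) ^ N ≤ q) (h : q < (k + 1) ^ N) : a < k := by
  have h1 : (a + 1) ^ N < (k + 1) ^ N := lt_of_le_of_lt h0 h
  have h2 : a + 1 < k + 1 := lt_of_pow_lt_pow_left₀ N (Nat.zero_le _) h1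
  omega

set_option maxHeartbeats 1000000 in
theorem specStab (hBKT : SpecBKT) : SpecStab := by
  classical
  obtain ⟨C0, hBKT⟩ := hBKT
  set α := Real.exp (-2000) with hα
  have hα0 : 0 < α := Real.exp_pos _
  have hα1 : α ≤ 1 := by
    rw [hα, Real.exp_le_one_iff]; norm_num
  obtain ⟨k0, hk0⟩ := exists_nat_gt (10000 / α ^ 2)
  refine ⟨4 * C0 + 40, by omega, (k0 + 1) ^ (4 * C0 + 40), ?_⟩
  intro F _ _ _ hsq hq0 k hk R hR1 hR3 K hK T hTc hT
  obtain ⟨hk1, hk2⟩ := hk
  have hkk : k0 < k := root_lt hq0 hk2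
  have h40 : 0 < k → k ^ 40 ≤ ord F := fun h =>
    le_trans (Nat.pow_le_pow_right h (Nat.le_add_left _ _)) hk1
  have hfinal : 1 < k → ¬ (ord F ≤ (k ^ 4) ^ C0) := by
    intro h h'
    have h2 : (k ^ 4) ^ C0 < k ^ (4 * C0 + 40) := by
      rw [← pow_mul]
      exact Nat.pow_lt_pow_right h (Nat.lt_add_of_pos_right (by norm_num))
    exact absurd (le_trans hk1 h') (not_le.2 h2)
  clear hk1 hk2 hq0
  set κ : ℝ := (k : ℝ) with hκ
  set s : ℝ := Real.sqrt (ord F) with hs
  have hκ0 : 10000 / α ^ 2 < κ := lt_trans hk0 (by rw [hκ]; exact_mod_cast hkk)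
  have f0 : 10000 ≤ α ^ 2 * κ := by
    rw [div_lt_iff₀ (by positivity)] at hκ0; linarith
  have hκpos : 0 < κ := by
    by_contra h
    have : α ^ 2 * κ ≤ 0 := mul_nonpos_of_nonneg_of_nonpos (by positivity) (not_lt.1 h)
    linarith
  have f1 : 10000 ≤ α * κ := by
    refine le_trans f0 ?_
    have : α ^ 2 ≤ α := pow_le_of_le_one hα0.le hα1 two_ne_zero
    exact mul_le_mul_of_nonneg_right this hκpos.le
  have f2 : 10000 ≤ κ := by
    exact le_trans f1 (mul_le_of_le_one_left hκpos.le hα1)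
  have hκ1 : 1 ≤ κ := by linarith
  have hkpos : 0 < k := by
    rcases Nat.eq_zero_or_pos k with h | h
    · rw [h] at hκ; simp at hκ; linarith
    · exact h
  have hs2 : s ^ 2 = (ord F : ℝ) := Real.sq_sqrt (by positivity)
  have hs0 : 0 ≤ s := Real.sqrt_nonneg _
  have f3 : κ ^ 20 ≤ s := by
    apply Real.le_sqrt_of_sq_le
    have h1 : k ^ 40 ≤ ord F := h40 hkpos
    have h2 : ((k ^ 40 : ℕ) : ℝ) ≤ (ord F : ℝ) := by exact_mod_cast h1
    calc (κ ^ 20) ^ 2 = ((k ^ 40 : ℕ) : ℝ) := by rw [hκ]; push_cast; ring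
      _ ≤ (ord F : ℝ) := h2
  have f4 : 10000 * κ ^ 10 ≤ α * s := by
    calc 10000 * κ ^ 10 ≤ (α * κ) * κ ^ 19 := by
          apply mul_le_mul f1 (pow_le_pow_right₀ hκ1 (by norm_num)) (by positivity) (by positivity)
      _ = α * κ ^ 20 := by ring
      _ ≤ α * s := mul_le_mul_of_nonneg_left f3 hα0.le
  have hκ10 : κ ≤ κ ^ 10 := le_self_pow₀ hκ1 (by norm_num)
  have hκ2 : κ ^ 2 ≤ κ ^ 10 := pow_le_pow_right₀ hκ1 (by norm_num)
  have f5 : 1 ≤ s := le_trans (one_le_pow₀ hκ1) f3
  have f6 : 16 * κ ^ 2 ≤ s := by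
    refine le_trans ?_ f3
    calc 16 * κ ^ 2 ≤ κ * κ ^ 2 := by
          apply mul_le_mul_of_nonneg_right _ (by positivity); linarith
      _ = κ ^ 3 := by ring
      _ ≤ κ ^ 20 := pow_le_pow_right₀ hκ1 (by norm_num)
  -- `D` and `Δ`
  set D : ℝ := D0 (ord F) with hD
  set Δ : ℝ := κ * s with hΔ
  have hq2 : 2 ≤ ord F := by
    have : (2:ℝ) ≤ (ord F : ℝ) := by
      rw [← hs2]
      have h0 : 10000 * κ ^ 10 ≤ s := le_trans f4 (mul_le_of_le_one_left hs0 hα1)
      have h1 : (1:ℝ) ≤ κ ^ 10 := one_le_pow₀ hκ1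
      have h2 : s ≤ s ^ 2 := le_self_pow₀ f5 two_ne_zero
      linarith
    exact_mod_cast this
  have hD1 : α * s ^ 2 ≤ D := by
    rw [hs2]; exact D0_ge hq2
  have hD2 : D ≤ s ^ 2 := by
    rw [hs2]; exact D0_le (by omega)
  have hR : ∀ z : Pt F, |(N0 R z : ℝ) - D| ≤ Δ := hR1
  have h5000 : 5000 * (κ ^ 10 * s) ≤ α * s ^ 2 / 2 := by
    have := mul_le_mul_of_nonneg_right f4 hs0
    calc 5000 * (κ ^ 10 * s) = (10000 * κ ^ 10 * s) / 2 := by ring
      _ ≤ (α * s * s) / 2 := by linarith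
      _ = α * s ^ 2 / 2 := by ring
  have g1 : κ * s + 1 ≤ α * s ^ 2 / 2 := by
    have h1 : 1 ≤ κ * s := one_le_mul_of_one_le_of_one_le hκ1 f5
    have h3 : κ * s ≤ κ ^ 10 * s := mul_le_mul_of_nonneg_right hκ10 hs0
    linarith [h5000]
  have g2 : 4 * κ ^ 2 ≤ α * s ^ 2 / 2 := by
    have h4 : 0 ≤ κ ^ 10 := by positivity
    have h3 : κ ^ 10 ≤ κ ^ 10 * s := le_mul_of_one_le_right h4 f5
    linarith [h5000]
  have hDΔ : Δ ≤ D := by
    have h0 : 0 ≤ α * s ^ 2 := by positivity
    rw [hΔ]; linarith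
  have hD0' : 0 ≤ D := le_trans (by positivity) hD1
  have hΔ0 : 0 ≤ Δ := by positivity
  have hkapΔ : (kap : ℝ) ≤ Δ := by
    have : (kap : ℝ) = 1000 := by norm_num
    rw [this, hΔ]
    exact le_trans (by linarith) (le_mul_of_one_le_right hκpos.le f5)
  set S := T \ Kset R with hS
  have hSK : ∀ z ∈ S, z ∉ Kset R := fun z hz => (Finset.mem_sdiff.1 hz).2
  have hScard : S.card ≤ ord F := le_trans (Finset.card_le_card Finset.sdiff_subset) hTc
  have hcov : ∀ l ∈ LL R, 1 ≤ nn S l := by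
    intro l hl
    rw [mem_LL] at hl
    obtain ⟨j, hj⟩ := hT l (fun i hi => hl i (hK hi))
    unfold nn
    rw [Nat.one_le_iff_ne_zero, Finset.card_ne_zero]
    refine ⟨(j, val l j), ?_⟩
    rw [Finset.mem_filter, hS, Finset.mem_sdiff]
    exact ⟨⟨hj, hl j⟩, rfl⟩
  have hE : (EE R S : ℝ) ≤ 3 * κ * s ^ 3 := by
    have := EE_le R S hSK hcov hScard D Δ hDΔ hD0' hΔ0 (by rw [← hs2]; exact hD2) hkapΔ hR
    calc (EE R S : ℝ) ≤ 3 * (ord F * Δ) := this
      _ = 3 * κ * s ^ 3 := by rw [← hs2, hΔ]; ring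
  -- the full case
  by_cases hl : ∃ l₀ : Ln F, (((S.filter (fun z => ¬ On z l₀)).card : ℝ)) + 1 < D - Δ
  · obtain ⟨l₀, hl₀⟩ := hl
    left
    exact ⟨l₀, fun j hj => full_of_small R K T hK hT (block_line l₀) D Δ hR hl₀
      (j, val l₀ j) rfl hj⟩
  by_cases hp : ∃ i₀ : Option F, (((S.filter (fun z => ¬ z.1 = i₀)).card : ℝ)) + 1 < D - Δ
  · obtain ⟨i₀, hi₀⟩ := hp
    right
    exact ⟨i₀, fun y hy => full_of_small R K T hK hT (block_pos i₀) D Δ hR hi₀
      (i₀, y) rfl hy⟩
  exfalso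
  push Not at hl hp
  have hBge : ∀ b : ℝ, D - Δ ≤ b + 1 → α * s ^ 2 / 2 ≤ b := by
    intro b hb
    rw [hΔ] at hb
    linarith
  have hblk : ∀ (m : Pt F → Prop) [DecidablePred m], Block m →
      D - Δ ≤ (((S.filter (fun z => ¬ m z)).card : ℝ)) + 1 →
      ((S.filter m).card : ℝ) ≤ κ ^ 4 * s := by
    intro m _ hm hb
    have hb' := hBge _ hb
    by_cases h16 : 16 * k ^ 6 ≤ (S.filter m).card
    · have h4 : 4 * k ^ 2 ≤ (S.filter (fun z => ¬ m z)).card := by
        have : ((4 * k ^ 2 : ℕ) : ℝ) ≤ ((S.filter (fun z => ¬ m z)).card : ℝ) := by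
          push_cast; exact le_trans g2 hb'
        exact_mod_cast this
      have h5 := block_pairs R k hkpos hR3 S hSK hm h16 h4
      have h6 : ((S.filter m).card : ℝ) * ((S.filter (fun z => ¬ m z)).card : ℝ)
          ≤ 2 * κ ^ 2 * (EE R S : ℝ) := by rw [hκ]; exact_mod_cast h5
      have h7 : ((S.filter m).card : ℝ) * (α * s ^ 2 / 2) ≤ 6 * κ ^ 3 * s ^ 3 := by
        calc ((S.filter m).card : ℝ) * (α * s ^ 2 / 2)
            ≤ ((S.filter m).card : ℝ) * ((S.filter (fun z => ¬ m z)).card : ℝ) := by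
              apply mul_le_mul_of_nonneg_left hb'; positivity
          _ ≤ 2 * κ ^ 2 * (EE R S : ℝ) := h6
          _ ≤ 2 * κ ^ 2 * (3 * κ * s ^ 3) := by
              apply mul_le_mul_of_nonneg_left hE; positivity
          _ = 6 * κ ^ 3 * s ^ 3 := by ring
      -- 6 κ^3 s^3 ≤ κ^4 s * (α s^2/2)
      have h8 : 6 * κ ^ 3 * s ^ 3 ≤ (κ ^ 4 * s) * (α * s ^ 2 / 2) := by
        have : (κ ^ 4 * s) * (α * s ^ 2 / 2) = (α * κ / 2) * (κ ^ 3 * s ^ 3) := by ring
        rw [this]
        have h9 : 0 ≤ κ ^ 3 * s ^ 3 := by positivity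
        have h11 := mul_le_mul_of_nonneg_right (show 6 ≤ α * κ / 2 by linarith) h9
        linarith
      have h10 : 0 < α * s ^ 2 / 2 := by positivity
      exact le_of_mul_le_mul_right (le_trans h7 h8) h10
    · push Not at h16
      have : ((S.filter m).card : ℝ) ≤ 16 * κ ^ 6 := by
        have : ((S.filter m).card : ℝ) ≤ ((16 * k ^ 6 : ℕ) : ℝ) := by exact_mod_cast h16.le
        push_cast at this
        exact this
      refine le_trans this ?_
      calc 16 * κ ^ 6 = κ ^ 4 * (16 * κ ^ 2) := by ring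
        _ ≤ κ ^ 4 * s := mul_le_mul_of_nonneg_left f6 (by positivity)
  have hline : ∀ l : Ln F, ((S.filter (fun z => On z l)).card : ℝ) ≤ κ ^ 4 * s :=
    fun l => hblk _ (block_line l) (hl l)
  have hposn : ∀ i : Option F, ((S.filter (fun z => z.1 = i)).card : ℝ) ≤ κ ^ 4 * s :=
    fun i => hblk _ (block_pos i) (hp i)
  have hSge : α * s ^ 2 / 2 ≤ (S.card : ℝ) := by
    refine le_trans (hBge _ (hp none)) ?_
    exact_mod_cast Finset.card_le_card (Finset.filter_subset _ _)
  set M := ⌊κ ^ 4 * s⌋₊ with hM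
  have hM1 : (M : ℝ) ≤ κ ^ 4 * s := Nat.floor_le (by positivity)
  have hMS : 16 * k ^ 6 * M ≤ S.card := by
    have : ((16 * k ^ 6 * M : ℕ) : ℝ) ≤ (S.card : ℝ) := by
      push_cast
      calc 16 * κ ^ 6 * (M : ℝ) ≤ 16 * κ ^ 6 * (κ ^ 4 * s) := by
            apply mul_le_mul_of_nonneg_left hM1; positivity
        _ = (16 * κ ^ 10) * s := by ring
        _ ≤ (α * s / 2) * s := by
            apply mul_le_mul_of_nonneg_right _ hs0
            have : (0:ℝ) ≤ κ ^ 10 := by positivity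
            linarith
        _ = α * s ^ 2 / 2 := by ring
        _ ≤ S.card := hSge
    exact_mod_cast this
  have h4S : 4 * k ^ 2 ≤ S.card := by
    have : ((4 * k ^ 2 : ℕ) : ℝ) ≤ (S.card : ℝ) := by
      push_cast; exact le_trans g2 hSge
    exact_mod_cast this
  have hP := pairs_ge' R k hkpos hR3 S S M hSK hSK
    (fun u _ => Nat.le_floor (hposn u.1)) (fun l u _ _ => Nat.le_floor (hline l)) hMS h4S
  set P := ((S ×ˢ S).filter (fun p => p.1.1 ≠ p.2.1 ∧ Avoids (Kset R) (thru p.1 p.2))) with hPdef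
  have hPge : α ^ 2 * s ^ 4 / (8 * κ ^ 2) ≤ (P.card : ℝ) := by
    have h1 : (S.card : ℝ) * (S.card : ℝ) ≤ 2 * κ ^ 2 * (P.card : ℝ) := by
      rw [hκ]; exact_mod_cast hP
    have h2 : (α * s ^ 2 / 2) * (α * s ^ 2 / 2) ≤ (S.card : ℝ) * (S.card : ℝ) :=
      mul_le_mul hSge hSge (by positivity) (by positivity)
    rw [div_le_iff₀ (by positivity)]
    have h3 : (α * s ^ 2 / 2) * (α * s ^ 2 / 2) = α ^ 2 * s ^ 4 / 4 := by ring
    linarith
  -- poor pairs
  set L : ℕ := k ^ 4 with hL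
  have hLr : (L : ℝ) = κ ^ 4 := by rw [hL]; push_cast; rfl
  set poor := ((S ×ˢ S).filter (fun p => p.1.1 ≠ p.2.1 ∧ Avoids (Kset R) (thru p.1 p.2) ∧
      (nn S (thru p.1 p.2) : ℝ) < s / κ ^ 4)) with hpoor
  have hpoorle : (poor.card : ℝ) ≤ 3 * s ^ 4 / κ ^ 3 := by
    have h1 := poor_le R S (s / κ ^ 4) (by positivity)
    refine le_trans h1 ?_
    calc s / κ ^ 4 * (EE R S : ℝ) ≤ s / κ ^ 4 * (3 * κ * s ^ 3) := by
          apply mul_le_mul_of_nonneg_left hE; positivity
      _ = 3 * s ^ 4 / κ ^ 3 := by field_simp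
  set rich := ((S ×ˢ S).filter (fun p => p.1.1 ≠ p.2.1 ∧
        Real.sqrt (ord F) ≤ L * ((S.filter (fun z => On z (thru p.1 p.2))).card : ℝ))) with hrich
  have hunion : P ⊆ poor ∪ rich := by
    intro p hp
    rw [hPdef, Finset.mem_filter] at hp
    rw [Finset.mem_union, hpoor, hrich, Finset.mem_filter, Finset.mem_filter]
    by_cases h : (nn S (thru p.1 p.2) : ℝ) < s / κ ^ 4
    · exact Or.inl ⟨hp.1, hp.2.1, hp.2.2, h⟩
    · right
      refine ⟨hp.1, hp.2.1, ?_⟩
      rw [not_lt, div_le_iff₀ (by positivity)] at h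
      rw [hLr, mul_comm]
      exact h
  have hcards : (P.card : ℝ) ≤ (poor.card : ℝ) + (rich.card : ℝ) := by
    exact_mod_cast le_trans (Finset.card_le_card hunion) (Finset.card_union_le _ _)
  have hfin : (ord F : ℝ) ^ 2 ≤ L * (rich.card : ℝ) := by
    rw [hLr, ← hs2]
    have h1 : α ^ 2 * s ^ 4 / (8 * κ ^ 2) - 3 * s ^ 4 / κ ^ 3 ≤ (rich.card : ℝ) := by linarith
    have h2 : κ ^ 4 * (α ^ 2 * s ^ 4 / (8 * κ ^ 2) - 3 * s ^ 4 / κ ^ 3)
        = s ^ 4 * (κ * (α ^ 2 * κ / 8 - 3)) := by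
      field_simp
    calc (s ^ 2) ^ 2 = s ^ 4 * 1 := by ring
      _ ≤ s ^ 4 * (κ * (α ^ 2 * κ / 8 - 3)) := by
          apply mul_le_mul_of_nonneg_left _ (by positivity)
          exact one_le_mul_of_one_le_of_one_le hκ1 (by linarith)
      _ = κ ^ 4 * (α ^ 2 * s ^ 4 / (8 * κ ^ 2) - 3 * s ^ 4 / κ ^ 3) := h2.symm
      _ ≤ κ ^ 4 * (rich.card : ℝ) := mul_le_mul_of_nonneg_left h1 (by positivity)
  have hL2 : 2 ≤ L := by
    rw [hL]
    have hk2 : 2 ≤ k := by
      have : (2:ℝ) ≤ (k:ℝ) := by rw [← hκ]; linarith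
      exact_mod_cast this
    calc 2 ≤ k := hk2
      _ = k ^ 1 := (pow_one k).symm
      _ ≤ k ^ 4 := Nat.pow_le_pow_right hkpos (by norm_num)
  have hconc := hBKT F hsq L hL2 S hScard (by intro l; rw [hLr]; exact hline l)
    (by intro i; rw [hLr]; exact hposn i) hfin
  have hk2 : 1 < k := by
    have : (1:ℝ) < (k:ℝ) := by rw [← hκ]; linarith
    exact_mod_cast this
  exact hfinal hk2 hconc

end Stab

end Crest.Agent.R034
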